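import Vale.Agent.P031.Defs

/-! Mertens type bounds and block facts for P031. -/

namespace Vale.Agent.P031

open Finset Filter Real

theorem facts_sum_sq : ∀ (S : Finset ℕ) (m : ℕ), 1 ≤ m → (∀ l ∈ S, m < l) →
    ∑ l ∈ S, (1 / (l : ℝ)) ^ 2 ≤ (1 : ℝ) / m := by
  intro S m hm hS
  have hsub : S ⊆ Ioc m (max m (S.sup id)) := fun l hl =>
    mem_Ioc.2 ⟨hS l hl, le_max_of_le_right (le_sup (f := id) hl)⟩
  have h1 := sum_Ioc_inv_sq_le_sub (α := ℝ) (k := m) (n := max m (S.sup id)) (by omega)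
    (le_max_left _ _)
  have h2 : ∑ l ∈ S, (1 / (l : ℝ)) ^ 2 ≤ ∑ l ∈ Ioc m (max m (S.sup id)), ((l : ℝ) ^ 2)⁻¹ := by
    simp only [one_div, inv_pow]
    exact sum_le_sum_of_subset_of_nonneg hsub (fun _ _ _ => by positivity)
  have h3 : (0 : ℝ) ≤ ((max m (S.sup id) : ℕ) : ℝ)⁻¹ := by positivity
  rw [one_div]
  linarith

lemma factsA_sum_log_le (m : ℕ) (hm : m ≠ 0) : ∑ p ∈ m.primeFactors, log p ≤ log m := by
  rw [← Real.log_prod (fun p hp => by
    have := (Nat.prime_of_mem_primeFactors hp).pos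
    positivity)]
  apply Real.log_le_log
  · exact prod_pos (fun p hp => by exact_mod_cast (Nat.prime_of_mem_primeFactors hp).pos)
  · have := Nat.le_of_dvd (Nat.pos_of_ne_zero hm) (Nat.prod_primeFactors_dvd m)
    rw [← Nat.cast_prod]
    exact Nat.cast_le.2 this

lemma factsA_theta (n : ℕ) :
    ∑ p ∈ (range (n + 1)).filter Nat.Prime, log p ≤ log 4 * n := by
  have h := Chebyshev.theta_le_log4_mul_x (x := (n : ℝ)) (Nat.cast_nonneg _)
  rw [Chebyshev.theta_eq_sum_Icc, Nat.floor_natCast] at h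
  rwa [range_eq_Ico, Finset.Ico_add_one_right_eq_Icc]

/-- sum of `log p / p` -/
noncomputable def factsA_L (n : ℕ) : ℝ := ∑ p ∈ (range (n + 1)).filter Nat.Prime, log p / p

lemma factsA_L_le (n : ℕ) (hn : 1 ≤ n) : factsA_L n ≤ log n + log 4 := by
  have hn0 : (0 : ℝ) < n := by exact_mod_cast hn
  have h1 : ∑ p ∈ (range (n + 1)).filter Nat.Prime, ((n / p : ℕ) : ℝ) * log p ≤ n * log n := by
    have e : ∀ p ∈ (range (n + 1)).filter Nat.Prime, ((n / p : ℕ) : ℝ) * log p
        = ∑ m ∈ Ioc 0 n, if p ∣ m then log p else 0 := by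
      intro p _
      rw [← sum_filter, sum_const, Nat.Ioc_filter_dvd_card_eq_div, nsmul_eq_mul]
    rw [sum_congr rfl e, sum_comm]
    have e2 : ∀ m ∈ Ioc 0 n, ∑ p ∈ (range (n + 1)).filter Nat.Prime,
        (if p ∣ m then log p else 0) ≤ log n := by
      intro m hm
      obtain ⟨hm0, hmn⟩ := mem_Ioc.1 hm
      rw [← sum_filter]
      have hsub : ((range (n + 1)).filter Nat.Prime).filter (fun p => p ∣ m) ⊆ m.primeFactors := by
        intro p hp
        rw [mem_filter, mem_filter] at hp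
        exact Nat.mem_primeFactors.2 ⟨hp.1.2, hp.2, by omega⟩
      refine (sum_le_sum_of_subset_of_nonneg hsub
        (fun p _ _ => Real.log_natCast_nonneg p)).trans ?_
      refine (factsA_sum_log_le m (by omega)).trans ?_
      exact Real.log_le_log (by exact_mod_cast hm0) (by exact_mod_cast hmn)
    refine (sum_le_sum e2).trans ?_
    simp
  have h2 : n * factsA_L n ≤ ∑ p ∈ (range (n + 1)).filter Nat.Prime, ((n / p : ℕ) : ℝ) * log p
      + ∑ p ∈ (range (n + 1)).filter Nat.Prime, log p := by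
    unfold factsA_L
    rw [mul_sum, ← sum_add_distrib]
    refine sum_le_sum (fun p hp => ?_)
    have hp0 : 0 < p := (mem_filter.1 hp).2.pos
    have hp0' : (0 : ℝ) < p := by exact_mod_cast hp0
    have h3 : (n : ℝ) / p ≤ ((n / p : ℕ) : ℝ) + 1 := by
      rw [div_le_iff₀ hp0']
      have := Nat.lt_div_mul_add (a := n) hp0
      have h4 : (n : ℝ) ≤ ((n / p * p + p : ℕ) : ℝ) := by exact_mod_cast this.le
      push_cast at h4
      linarith
    have h5 := mul_le_mul_of_nonneg_right h3 (Real.log_natCast_nonneg p)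
    have e : (n : ℝ) * (log p / p) = n / p * log p := by ring
    rw [e]
    linarith
  have h3 := factsA_theta n
  have h4 : n * factsA_L n ≤ n * (log n + log 4) := by linarith
  exact le_of_mul_le_mul_left h4 hn0

lemma factsA_A_succ (n : ℕ) :
    A (n + 1) = A n + if (n + 1).Prime then (1 : ℝ) / ((n + 1 : ℕ) : ℝ) else 0 := by
  unfold A
  rw [sum_filter, sum_filter, sum_range_succ _ (n + 1)]

lemma factsA_L_succ (n : ℕ) :
    factsA_L (n + 1) = factsA_L n +
      if (n + 1).Prime then log ((n + 1 : ℕ) : ℝ) / ((n + 1 : ℕ) : ℝ) else 0 := by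
  unfold factsA_L
  rw [sum_filter, sum_filter, sum_range_succ _ (n + 1)]

lemma factsA_upper_aux (n : ℕ) (hn : 2 ≤ n) :
    A n - factsA_L n / log n ≤ log (log n) - log (log 2) - log 4 / log n + log 4 / log 2 := by
  induction n, hn using Nat.le_induction with
  | base =>
    have e : (range (2 + 1)).filter Nat.Prime = {2} := by decide
    have h2 : log 2 ≠ 0 := (Real.log_pos (by norm_num)).ne'
    unfold A factsA_L
    rw [e]
    simp only [sum_singleton, Nat.cast_ofNat]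
    have : log 2 / 2 / log 2 = 1 / 2 := by field_simp
    rw [this]
    linarith
  | succ n hn ih =>
    have hn1 : (2 : ℝ) ≤ n := by exact_mod_cast hn
    have hl0 : 0 < log n := Real.log_pos (by linarith)
    have hl1 : log n ≤ log ((n + 1 : ℕ) : ℝ) :=
      Real.log_le_log (by linarith) (by push_cast; linarith)
    have hl2 : 0 < log ((n + 1 : ℕ) : ℝ) := by linarith
    have e : A (n + 1) - factsA_L (n + 1) / log ((n + 1 : ℕ) : ℝ)
        = A n - factsA_L n / log n
          + factsA_L n * (1 / log n - 1 / log ((n + 1 : ℕ) : ℝ)) := by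
      rw [factsA_A_succ, factsA_L_succ]
      have hn0 : ((n + 1 : ℕ) : ℝ) ≠ 0 := by positivity
      split_ifs
      · field_simp
        ring
      · field_simp
        ring
    rw [e]
    obtain ⟨u, hu⟩ : ∃ u, u = log (n : ℝ) := ⟨_, rfl⟩
    obtain ⟨v, hv⟩ : ∃ v, v = log ((n + 1 : ℕ) : ℝ) := ⟨_, rfl⟩
    have hL := factsA_L_le n (by omega)
    rw [← hu] at hl0 hl1 ih hL
    rw [← hv] at hl1 hl2
    rw [← hu, ← hv]
    have h1 : 0 ≤ 1 / u - 1 / v := by
      rw [sub_nonneg]; exact one_div_le_one_div_of_le hl0 hl1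
    have h2 := mul_le_mul_of_nonneg_right hL h1
    have h3 : 1 - u / v ≤ log v - log u := by
      have := Real.one_sub_inv_le_log_of_pos (x := v / u) (by positivity)
      rw [Real.log_div hl2.ne' hl0.ne', inv_div] at this
      exact this
    have e2 : (u + log 4) * (1 / u - 1 / v) = 1 - u / v + log 4 / u - log 4 / v := by
      field_simp
      ring
    rw [e2] at h2
    linarith

lemma factsA_upper (n : ℕ) (hn : 2 ≤ n) : A n ≤ log (log n) + 4 := by
  have h1 := factsA_upper_aux n hn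
  have hn1 : (2 : ℝ) ≤ n := by exact_mod_cast hn
  have hl0 : 0 < log n := Real.log_pos (by linarith)
  have h2 : factsA_L n / log n ≤ 1 + log 4 / log n := by
    rw [div_le_iff₀ hl0, add_mul, div_mul_cancel₀ _ hl0.ne', one_mul]
    exact factsA_L_le n (by omega)
  have h8 : Real.log 4 = 2 * Real.log 2 := by
    rw [show (4 : ℝ) = 2 ^ 2 by norm_num, Real.log_pow]; norm_num
  have h9 := Real.log_two_gt_d9
  have h3 : log 4 / log 2 = 2 := by
    rw [h8]; field_simp
  have h4 : -1 ≤ log (log 2) := by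
    have := Real.one_sub_inv_le_log_of_pos (x := log 2) (by linarith)
    have h5 : (log 2)⁻¹ ≤ 2 := by
      rw [inv_le_comm₀ (by linarith) (by norm_num)]
      linarith
    linarith
  linarith

/-- The reciprocal as a monoid homomorphism. -/
noncomputable def factsA_invHom : ℕ →* ℝ where
  toFun := fun n => (n : ℝ)⁻¹
  map_one' := by simp
  map_mul' := fun a b => by push_cast; rw [mul_inv]

lemma factsA_harm_le (n : ℕ) :
    log ((n : ℝ) + 1) ≤ ∏ p ∈ (range (n + 1)).filter Nat.Prime, (1 - (p : ℝ)⁻¹)⁻¹ := by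
  set s := (range (n + 1)).filter Nat.Prime with hs
  have hsp : ∀ p ∈ s, p.Prime := fun p hp => (mem_filter.1 hp).2
  have hf : ∀ {p : ℕ}, p.Prime → ‖factsA_invHom p‖ < 1 := by
    intro p hp
    have : (1 : ℝ) < p := by exact_mod_cast hp.one_lt
    show ‖(p : ℝ)⁻¹‖ < 1
    rw [Real.norm_of_nonneg (by positivity)]
    exact inv_lt_one_of_one_lt₀ this
  have h1 := (EulerProduct.summable_and_hasSum_factoredNumbers_prod_filter_prime_geometric
    (f := factsA_invHom) hf s).2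
  rw [filter_true_of_mem hsp] at h1
  have h2 : HasSum ((Nat.factoredNumbers s).indicator (fun n : ℕ => (n : ℝ)⁻¹))
      (∏ p ∈ s, (1 - (p : ℝ)⁻¹)⁻¹) := by
    rw [← hasSum_subtype_iff_indicator]
    exact h1
  have h3 := sum_le_hasSum (Icc 1 n) (fun m _ => Set.indicator_nonneg
    (fun m _ => by positivity) m) h2
  have h4 : ∑ m ∈ Icc 1 n, (Nat.factoredNumbers s).indicator (fun n : ℕ => (n : ℝ)⁻¹) m =
      (harmonic n : ℝ) := by
    rw [harmonic_eq_sum_Icc]
    push_cast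
    apply sum_congr rfl
    intro m hm
    obtain ⟨a, b⟩ := mem_Icc.1 hm
    rw [Set.indicator_of_mem]
    rw [Nat.mem_factoredNumbers']
    intro p hp hpn
    have c : p ≤ n := (Nat.le_of_dvd a hpn).trans b
    exact mem_filter.2 ⟨mem_range.2 (by omega), hp⟩
  have h5 := log_add_one_le_harmonic n
  push_cast at h5
  linarith

lemma factsA_inv_pred (p : ℕ) (hp : 2 ≤ p) :
    (1 : ℝ) / ((p : ℝ) - 1) ≤ 1 / p + 2 * (1 / (p : ℝ)) ^ 2 := by
  have h : (2 : ℝ) ≤ p := by exact_mod_cast hp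
  rw [div_le_iff₀ (by linarith)]
  have e : (1 / (p : ℝ) + 2 * (1 / (p : ℝ)) ^ 2) * (p - 1) = 1 + (p - 2) / p ^ 2 := by
    field_simp
    ring
  rw [e]
  have : 0 ≤ ((p : ℝ) - 2) / p ^ 2 := div_nonneg (by linarith) (by positivity)
  linarith

lemma factsA_lower (n : ℕ) (hn : 2 ≤ n) : log (log n) - 2 ≤ A n := by
  have hn1 : (2 : ℝ) ≤ n := by exact_mod_cast hn
  have hl0 : 0 < log n := Real.log_pos (by linarith)
  have h1 : log n ≤ ∏ p ∈ (range (n + 1)).filter Nat.Prime, (1 - (p : ℝ)⁻¹)⁻¹ :=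
    (Real.log_le_log (by linarith) (by linarith)).trans (factsA_harm_le n)
  have h2 : ∏ p ∈ (range (n + 1)).filter Nat.Prime, (1 - (p : ℝ)⁻¹)⁻¹
      ≤ exp (∑ p ∈ (range (n + 1)).filter Nat.Prime, (1 / (p : ℝ) + 2 * (1 / (p : ℝ)) ^ 2)) := by
    rw [Real.exp_sum]
    apply Finset.prod_le_prod
    · intro p hp
      have h : (2 : ℝ) ≤ p := by exact_mod_cast (mem_filter.1 hp).2.two_le
      have : (p : ℝ)⁻¹ ≤ 1 := inv_le_one_of_one_le₀ (by linarith)
      exact inv_nonneg.2 (by linarith)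
    · intro p hp
      have hp2 := (mem_filter.1 hp).2.two_le
      have h : (2 : ℝ) ≤ p := by exact_mod_cast hp2
      have e : (1 - (p : ℝ)⁻¹)⁻¹ = 1 / ((p : ℝ) - 1) + 1 := by
        have : (p : ℝ) - 1 ≠ 0 := by linarith
        field_simp
        ring
      rw [e]
      exact (Real.add_one_le_exp _).trans (Real.exp_le_exp.2 (factsA_inv_pred p hp2))
  have h3 := (Real.log_le_iff_le_exp hl0).2 (h1.trans h2)
  rw [sum_add_distrib, ← mul_sum] at h3
  have h4 := facts_sum_sq ((range (n + 1)).filter Nat.Prime) 1 le_rfl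
    (fun l hl => (mem_filter.1 hl).2.one_lt)
  unfold A
  simp only [Nat.cast_one, div_one] at h4
  linarith

theorem facts_mertens : ∀ n : ℕ, 2 ≤ n → |A n - log (log n)| ≤ 10 := by
  intro n hn
  rw [abs_le]
  constructor
  · linarith [factsA_lower n hn]
  · linarith [factsA_upper n hn]

theorem facts_le_Ub : ∀ p b : ℕ, 2 ≤ p → blk p ≤ b → (p : ℝ) ≤ Ub b := by
  intro p b hp hb
  have hp1 : (2 : ℝ) ≤ p := by exact_mod_cast hp
  have hl0 : 0 < log p := Real.log_pos (by linarith)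
  have h1 := factsA_lower p hp
  have h2 := A_lt_blk p
  have h3 : (blk p : ℝ) ≤ b := by exact_mod_cast hb
  unfold Ub
  rw [← Real.log_le_iff_le_exp (by linarith), ← Real.log_le_iff_le_exp hl0]
  linarith

theorem facts_ge_blk : ∀ p b : ℕ, 2 ≤ p → b ≤ blk p → exp (exp ((b : ℝ) - 10)) ≤ p := by
  intro p b hp hb
  have hp1 : (2 : ℝ) ≤ p := by exact_mod_cast hp
  have hl0 : 0 < log p := Real.log_pos (by linarith)
  have h1 := factsA_upper p hp
  have h2 := blk_le_A p
  have h3 : (b : ℝ) ≤ blk p := by exact_mod_cast hb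
  rw [← Real.le_log_iff_exp_le (by linarith), ← Real.le_log_iff_exp_le hl0]
  linarith

theorem facts_sum_lt_le : ∀ (T : ℕ) (S : Finset ℕ), (∀ l ∈ S, l.Prime ∧ blk l < T) →
    ∑ l ∈ S, (1 : ℝ) / l ≤ T := by
  intro T S hS
  rcases S.eq_empty_or_nonempty with rfl | hne
  · simp
  · have hq := S.max'_mem hne
    have hsub : S ⊆ (range (S.max' hne + 1)).filter Nat.Prime := fun l hl =>
      mem_filter.2 ⟨mem_range.2 (Nat.lt_succ_of_le (S.le_max' l hl)), (hS l hl).1⟩
    have h1 : ∑ l ∈ S, (1 : ℝ) / l ≤ A (S.max' hne) :=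
      sum_le_sum_of_subset_of_nonneg hsub (fun _ _ _ => by positivity)
    have h2 := A_lt_blk (S.max' hne)
    have h3 : (blk (S.max' hne) : ℝ) + 1 ≤ T := by exact_mod_cast (hS _ hq).2
    linarith

lemma factsA_exists_blk (T : ℕ) : ∃ n : ℕ, T ≤ blk n := by
  refine ⟨⌈exp (exp ((T : ℝ) + 2))⌉₊ + 2, Nat.le_floor ?_⟩
  set n := ⌈exp (exp ((T : ℝ) + 2))⌉₊ + 2 with hn
  have h1 := factsA_lower n (by omega)
  have h2 : exp (exp ((T : ℝ) + 2)) ≤ n := by
    have := Nat.le_ceil (exp (exp ((T : ℝ) + 2)))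
    rw [hn]
    push_cast
    linarith
  have hn1 : (2 : ℝ) ≤ n := by exact_mod_cast (by omega : 2 ≤ n)
  have hl0 : 0 < log n := Real.log_pos (by linarith)
  rw [← Real.le_log_iff_exp_le (by linarith), ← Real.le_log_iff_exp_le hl0] at h2
  linarith

/-- the first integer whose block is at least `T` -/
lemma factsA_first (T : ℕ) (hT : 1 ≤ T) : ∃ q : ℕ, 2 ≤ q ∧ T ≤ blk q ∧
    (∀ l, blk l < T ↔ l < q) ∧
    (T : ℝ) - 1 / q ≤ ∑ l ∈ (range q).filter Nat.Prime, (1 : ℝ) / l ∧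
    ∑ l ∈ (range q).filter Nat.Prime, (1 : ℝ) / l ≤ T := by
  classical
  have hex := factsA_exists_blk T
  have hq := Nat.find_spec hex
  have hiff : ∀ l, blk l < T ↔ l < Nat.find hex := by
    intro l
    constructor
    · intro h
      exact lt_of_blk_lt (lt_of_lt_of_le h hq)
    · intro h
      exact not_le.1 (Nat.find_min hex h)
  have h2 : 2 ≤ Nat.find hex := by
    have : blk 1 < T := by
      have e : (range (1 + 1)).filter Nat.Prime = ∅ := by decide
      have : blk 1 = 0 := by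
        unfold blk A
        rw [e]
        simp
      omega
    exact (hiff 1).1 this
  refine ⟨Nat.find hex, h2, hq, hiff, ?_, ?_⟩
  · obtain ⟨q', hq'⟩ : ∃ q', Nat.find hex = q' + 1 := ⟨Nat.find hex - 1, by omega⟩
    rw [hq'] at hq ⊢
    have h3 := factsA_A_succ q'
    have h4 : (T : ℝ) ≤ A (q' + 1) := le_trans (by exact_mod_cast hq) (blk_le_A _)
    have h5 : (if (q' + 1).Prime then (1 : ℝ) / ((q' + 1 : ℕ) : ℝ) else 0)
        ≤ 1 / ((q' + 1 : ℕ) : ℝ) := by
      split_ifs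
      · exact le_rfl
      · positivity
    show _ ≤ A q'
    linarith
  · apply facts_sum_lt_le
    intro l hl
    rw [mem_filter, mem_range] at hl
    exact ⟨hl.2, (hiff l).2 hl.1⟩

lemma factsA_mem_range {p b : ℕ} (hp : p.Prime) (hb : blk p ≤ b) : p ∈ range (⌊Ub b⌋₊ + 1) :=
  mem_range.2 (Nat.lt_succ_of_le (Nat.le_floor (facts_le_Ub p b hp.two_le hb)))

theorem facts_sum_lt_ge : ∀ T b : ℕ, T ≤ b + 1 →
    (T : ℝ) - 1 ≤ ∑ l ∈ (blkLe b).filter (fun l => blk l < T), (1 : ℝ) / l := by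
  intro T b hT
  rcases Nat.eq_zero_or_pos T with rfl | hT0
  · simp
  obtain ⟨q, hq2, -, hiff, h1, -⟩ := factsA_first T hT0
  have hsub : (range q).filter Nat.Prime ⊆ (blkLe b).filter (fun l => blk l < T) := by
    intro l hl
    rw [mem_filter, mem_range] at hl
    have h := (hiff l).2 hl.1
    exact mem_filter.2 ⟨mem_filter.2 ⟨factsA_mem_range hl.2 (by omega), hl.2, by omega⟩, h⟩
  have h2 : ∑ l ∈ (range q).filter Nat.Prime, (1 : ℝ) / l
      ≤ ∑ l ∈ (blkLe b).filter (fun l => blk l < T), (1 : ℝ) / l :=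
    sum_le_sum_of_subset_of_nonneg hsub (fun _ _ _ => by positivity)
  have h3 : (1 : ℝ) / q ≤ 1 := by
    have : (2 : ℝ) ≤ q := by exact_mod_cast hq2
    rw [div_le_one (by linarith)]; linarith
  linarith

theorem facts_block : ∃ b₀ : ℕ, ∀ b : ℕ, b₀ ≤ b →
    (∑ p ∈ blkSet b, (1 : ℝ) / ((p : ℝ) - 1) ≤ 1 + exp (-(b : ℝ))) ∧
    (1 - exp (-(b : ℝ)) ≤ ∑ p ∈ blkSet b, (1 : ℝ) / p) := by
  refine ⟨20, fun b hb => ?_⟩
  obtain ⟨q, hq2, hqb, hiff, h1, h2⟩ := factsA_first b (by omega)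
  obtain ⟨q', hq2', hqb', hiff', h1', h2'⟩ := factsA_first (b + 1) (by omega)
  have hqq : q ≤ q' := by
    by_contra hc
    have := (hiff q').2 (not_le.1 hc)
    omega
  have hset : blkSet b = (range q').filter Nat.Prime \ (range q).filter Nat.Prime := by
    ext p
    unfold blkSet
    simp only [Finset.mem_sdiff, mem_filter, mem_range]
    constructor
    · rintro ⟨-, hp, hb⟩
      refine ⟨⟨(hiff' p).1 (by omega), hp⟩, fun h => ?_⟩
      have := (hiff p).2 h.1
      omega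
    · rintro ⟨⟨h3, hp⟩, h4⟩
      have h5 := (hiff' p).2 h3
      have h6 : ¬ blk p < b := fun h => h4 ⟨(hiff p).1 h, hp⟩
      exact ⟨mem_range.1 (factsA_mem_range hp (by omega)), hp, by omega⟩
  have hsum : ∑ p ∈ blkSet b, (1 : ℝ) / p = ∑ l ∈ (range q').filter Nat.Prime, (1 : ℝ) / l
      - ∑ l ∈ (range q).filter Nat.Prime, (1 : ℝ) / l := by
    rw [hset, sum_sdiff_eq_sub (filter_subset_filter _ (range_mono hqq))]
  have hb' : (20 : ℝ) ≤ b := by exact_mod_cast hb
  have hq2R : (2 : ℝ) ≤ q := by exact_mod_cast hq2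
  have hqR : (q : ℝ) ≤ q' := by exact_mod_cast hqq
  have hbig : 5 * exp (b : ℝ) ≤ q := by
    refine le_trans ?_ (facts_ge_blk q b hq2 hqb)
    have a1 := Real.quadratic_le_exp_of_nonneg (x := (b : ℝ) - 10) (by linarith)
    have a2 : (b : ℝ) + 4 ≤ exp ((b : ℝ) - 10) := by nlinarith
    have a3 := Real.exp_le_exp.2 a2
    rw [Real.exp_add] at a3
    have a4 := Real.add_one_le_exp (4 : ℝ)
    have a5 := Real.exp_pos (b : ℝ)
    nlinarith
  have hexp : 5 / (q : ℝ) ≤ exp (-(b : ℝ)) := by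
    rw [Real.exp_neg, div_le_iff₀ (by linarith), inv_mul_eq_div, le_div_iff₀ (Real.exp_pos _)]
    exact hbig
  have e5 : 5 / (q : ℝ) = 5 * (1 / q) := by ring
  have hq0 : (0 : ℝ) < 1 / q := by positivity
  push_cast at h1' h2'
  constructor
  · have h3 : ∑ p ∈ blkSet b, (1 : ℝ) / ((p : ℝ) - 1)
        ≤ ∑ p ∈ blkSet b, (1 / (p : ℝ) + 2 * (1 / (p : ℝ)) ^ 2) :=
      sum_le_sum (fun p hp => factsA_inv_pred p (mem_filter.1 hp).2.1.two_le)
    rw [sum_add_distrib, ← mul_sum] at h3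
    have h4 := facts_sum_sq (blkSet b) (q - 1) (by omega) (fun l hl => by
      have h5 := (mem_filter.1 hl).2.2
      have h6 : ¬ l < q := fun h => by
        have := (hiff l).2 h
        omega
      omega)
    have h5 : (1 : ℝ) / ((q - 1 : ℕ) : ℝ) ≤ 2 * (1 / q) := by
      rw [Nat.cast_sub (by omega), Nat.cast_one, mul_one_div,
        div_le_div_iff₀ (by linarith) (by linarith)]
      linarith
    linarith
  · have h3 : (1 : ℝ) / q' ≤ 1 / q := one_div_le_one_div_of_le (by linarith) hqR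
    linarith

theorem facts_recip_div : ∀ (Δ : ℕ) (w : ℝ), Δ ≠ 0 → 16 ≤ w → log Δ ≤ w →
    ∑ q ∈ Δ.primeFactors, (1 : ℝ) / q ≤ log (log w) + 12 := by
  intro Δ w hΔ hw hlog
  rw [← sum_filter_add_sum_filter_not Δ.primeFactors (fun q : ℕ => (q : ℝ) ≤ w)]
  have hf : 2 ≤ ⌊w⌋₊ := Nat.le_floor (by push_cast; linarith)
  have hf' : (2 : ℝ) ≤ ⌊w⌋₊ := by exact_mod_cast hf
  have h1 : ∑ q ∈ Δ.primeFactors.filter (fun q : ℕ => (q : ℝ) ≤ w), (1 : ℝ) / q ≤ A ⌊w⌋₊ := by
    apply sum_le_sum_of_subset_of_nonneg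
    · intro q hq
      rw [mem_filter] at hq
      exact mem_filter.2 ⟨mem_range.2 (Nat.lt_succ_of_le (Nat.le_floor hq.2)),
        Nat.prime_of_mem_primeFactors hq.1⟩
    · intro _ _ _
      positivity
  have h2 := factsA_upper _ hf
  have h3 : log (log (⌊w⌋₊ : ℝ)) ≤ log (log w) :=
    Real.log_le_log (Real.log_pos (by linarith))
      (Real.log_le_log (by linarith) (Nat.floor_le (by linarith)))
  have h4 : ∑ q ∈ Δ.primeFactors.filter (fun q : ℕ => ¬ (q : ℝ) ≤ w), (1 : ℝ) / q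
      ≤ ∑ q ∈ Δ.primeFactors.filter (fun q : ℕ => ¬ (q : ℝ) ≤ w), log q / w := by
    refine sum_le_sum (fun q hq => ?_)
    have h5 : w < q := not_le.1 (mem_filter.1 hq).2
    have h6 : 1 ≤ log q := by
      rw [Real.le_log_iff_exp_le (by linarith)]
      linarith [Real.exp_one_lt_d9]
    exact div_le_div₀ (by linarith) h6 (by linarith) h5.le
  have h5 : ∑ q ∈ Δ.primeFactors.filter (fun q : ℕ => ¬ (q : ℝ) ≤ w), log q / w ≤ 1 := by
    rw [← sum_div, div_le_one (by linarith)]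
    refine le_trans (sum_le_sum_of_subset_of_nonneg (filter_subset _ _)
      (fun p _ _ => Real.log_natCast_nonneg p)) ?_
    exact (factsA_sum_log_le Δ hΔ).trans hlog
  linarith

theorem facts_primes_ge : ∀ X W : ℝ, 1 ≤ X → 1 < W →
    (((range (⌊X⌋₊ + 2)).filter fun p : ℕ => p.Prime ∧ W ≤ p).card : ℝ) ≤ 3 * X / log W := by
  intro X W hX hW
  have hl : 0 < log W := Real.log_pos hW
  rw [le_div_iff₀ hl]
  have h1 : (((range (⌊X⌋₊ + 2)).filter fun p : ℕ => p.Prime ∧ W ≤ p).card : ℝ) * log W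
      ≤ ∑ p ∈ (range (⌊X⌋₊ + 2)).filter (fun p : ℕ => p.Prime ∧ W ≤ p), log p := by
    rw [← nsmul_eq_mul]
    apply card_nsmul_le_sum
    intro p hp
    exact Real.log_le_log (by linarith) (mem_filter.1 hp).2.2
  have h2 : ∑ p ∈ (range (⌊X⌋₊ + 2)).filter (fun p : ℕ => p.Prime ∧ W ≤ p), log p
      ≤ ∑ p ∈ (range (⌊X⌋₊ + 1 + 1)).filter Nat.Prime, log p := by
    apply sum_le_sum_of_subset_of_nonneg
    · intro p hp
      rw [mem_filter] at hp ⊢
      exact ⟨hp.1, hp.2.1⟩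
    · intro p _ _
      exact Real.log_natCast_nonneg p
  have h3 := factsA_theta (⌊X⌋₊ + 1)
  have h4 : ((⌊X⌋₊ + 1 : ℕ) : ℝ) ≤ 2 * X := by
    push_cast
    linarith [Nat.floor_le (by linarith : 0 ≤ X)]
  have h8 : Real.log 4 = 2 * Real.log 2 := by
    rw [show (4 : ℝ) = 2 ^ 2 by norm_num, Real.log_pow]; norm_num
  have h9 := Real.log_two_lt_d9
  have h5 : log 4 * ((⌊X⌋₊ + 1 : ℕ) : ℝ) ≤ 3 / 2 * (2 * X) :=
    mul_le_mul (by linarith) h4 (by positivity) (by norm_num)
  linarith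

end Vale.Agent.P031
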