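import Mathlib

/-! The Wiener-Ikehara theorem (for nonnegative coefficients with a Chebyshev type bound). -/

namespace Vale.Agent.P031

open MeasureTheory Filter Topology Set Complex
open scoped FourierTransform Convolution

/-- A nonnegative integrable kernel whose Fourier transform has compact support. -/
theorem wi_exists_kernel : ∃ (κ : ℝ → ℂ) (K : ℝ → ℝ), Continuous κ ∧ HasCompactSupport κ ∧
    (∀ u, 𝓕 κ u = K u) ∧ (∀ u, 0 ≤ K u) ∧ Integrable K ∧ ∫ u, K u = 1 := by
  let φ : ContDiffBump (0 : ℝ) := ⟨1, 2, one_pos, one_lt_two⟩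
  let f : ℝ → ℂ := fun x => (φ x : ℂ)
  have hfs : HasCompactSupport f := φ.hasCompactSupport.comp_left Complex.ofReal_zero
  have hfd : ContDiff ℝ (⊤ : ℕ∞) f := Complex.ofRealCLM.contDiff.comp φ.contDiff
  have hfc : Continuous f := hfd.continuous
  have hfi : Integrable f := hfc.integrable_of_hasCompactSupport hfs
  let Φ : SchwartzMap ℝ ℂ := 𝓕 (hfs.toSchwartzMap hfd)
  have hΦ : ∀ u, Φ u = 𝓕 f u := fun u => rfl
  have hreal : ∀ u, (starRingEnd ℂ) (𝓕 f u) = 𝓕 f u := by
    intro u
    rw [Real.fourier_real_eq_integral_exp_smul, ← integral_conj, ← integral_neg_eq_self]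
    refine integral_congr_ae (Eventually.of_forall fun x => ?_)
    simp only [f, smul_eq_mul, map_mul, Complex.conj_ofReal, ← Complex.exp_conj, Complex.conj_I,
      φ.neg]
    congr 2
    push_cast
    ring
  have hK0 : ∀ u, 𝓕 (f ⋆[ContinuousLinearMap.mul ℂ ℂ] f) u = ((‖Φ u‖ ^ 2 : ℝ) : ℂ) := by
    intro u
    rw [Real.fourier_mul_convolution_eq hfi hfi, hΦ, ← Complex.normSq_eq_norm_sq,
      Complex.normSq_eq_conj_mul_self, hreal]
  have hKi : Integrable fun u => ‖Φ u‖ ^ 2 :=
    (memLp_two_iff_integrable_sq_norm Φ.continuous.aestronglyMeasurable).1 (Φ.memLp 2)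
  have hI : 0 < ∫ u, ‖Φ u‖ ^ 2 := by
    refine integral_pos_of_integrable_nonneg_nonzero (x := 0) (Φ.continuous.norm.pow 2) hKi
      (fun u => by positivity) ?_
    rw [hΦ, Real.fourier_real_eq_integral_exp_smul]
    simp only [mul_zero, Complex.ofReal_zero, zero_mul, Complex.exp_zero, smul_eq_mul, one_mul, f]
    rw [integral_complex_ofReal]
    have := φ.integral_pos (μ := volume)
    simpa using this.ne'
  set I := ∫ u, ‖Φ u‖ ^ 2 with hIdef
  refine ⟨((I⁻¹ : ℝ) : ℂ) • (f ⋆[ContinuousLinearMap.mul ℂ ℂ] f), fun u => I⁻¹ * ‖Φ u‖ ^ 2,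
    ?_, ?_, fun u => ?_, fun u => by positivity, hKi.const_mul _, ?_⟩
  · exact (hfs.continuous_convolution_left _ hfc hfi.locallyIntegrable).const_smul _
  · exact (hfs.convolution _ hfs).smul_left
  · have : 𝓕 (((I⁻¹ : ℝ) : ℂ) • (f ⋆[ContinuousLinearMap.mul ℂ ℂ] f)) =
        ((I⁻¹ : ℝ) : ℂ) • 𝓕 (f ⋆[ContinuousLinearMap.mul ℂ ℂ] f) :=
      VectorFourier.fourierIntegral_const_smul _ _ _ _ _
    rw [this, Pi.smul_apply, hK0]
    simp
  · rw [integral_const_mul, inv_mul_cancel₀ hI.ne']

theorem wi_fourier_swap {f g : ℝ → ℂ} (hf : Integrable f) (hg : Integrable g) :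
    ∫ x, 𝓕 f x * g x = ∫ x, f x * 𝓕 g x := by
  have h := VectorFourier.integral_fourierIntegral_smul_eq_flip (L := innerₗ ℝ)
    Real.continuous_fourierChar (by exact continuous_inner) hf hg
  rw [flip_innerₗ] at h
  exact h

theorem wi_integrable_damped {h : ℝ → ℝ} (hm : Measurable h) {M : ℝ} (hb : ∀ u, |h u| ≤ M)
    (h0 : ∀ u, u ≤ 0 → h u = 0) {z : ℂ} (hz : 0 < z.re) :
    Integrable fun u : ℝ => (h u : ℂ) * Complex.exp (-z * u) := by
  have h1 : IntegrableOn (fun u : ℝ => (h u : ℂ) * Complex.exp (-z * u)) (Ioi 0) := by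
    refine Integrable.bdd_mul (c := M)
      (integrableOn_exp_mul_complex_Ioi (a := -z) (by simpa using hz) 0)
      (Complex.measurable_ofReal.comp hm).aestronglyMeasurable (Eventually.of_forall fun u => ?_)
    simpa using hb u
  refine (integrableOn_iff_integrable_of_support_subset fun u hu => ?_).1 h1
  by_contra hu'
  exact hu (by simp [h0 u (not_lt.1 hu')])

/-- The analytic step: convolutions with band limited kernels tend to zero. -/
theorem wi_lemmaA {h : ℝ → ℝ} (hm : Measurable h) {M : ℝ} (hb : ∀ u, |h u| ≤ M)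
    (h0 : ∀ u, u ≤ 0 → h u = 0) {H : ℂ → ℂ} (hH : ContinuousOn H {z | 0 ≤ z.re})
    (hL : ∀ z : ℂ, 0 < z.re → ∫ u : ℝ, (h u : ℂ) * Complex.exp (-z * u) = H z)
    {κ : ℝ → ℂ} {K : ℝ → ℝ} (hκ : Continuous κ) (hκs : HasCompactSupport κ)
    (hK : ∀ u, 𝓕 κ u = K u) (hKi : Integrable K) :
    Tendsto (fun v => ∫ w, h (v + w) * K w) atTop (𝓝 0) := by
  have hκi : Integrable κ := hκ.integrable_of_hasCompactSupport hκs
  let zz : ℝ → ℝ → ℂ := fun ε t => (ε : ℂ) + 2 * Real.pi * t * I
  have hzz : ∀ ε t, (zz ε t).re = ε := fun ε t => by simp [zz]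
  have hzc : Continuous fun p : ℝ × ℝ => zz p.1 p.2 := by
    simp only [zz]
    fun_prop
  let e : ℝ → ℝ → ℂ := fun v t => Complex.exp (((-2 * Real.pi * t * (-v) : ℝ) : ℂ) * I)
  have he : ∀ v t, ‖e v t‖ = 1 := fun v t => Complex.norm_exp_ofReal_mul_I _
  have key : ∀ v ε : ℝ, 0 < ε →
      ∫ w, (K w : ℂ) * ((h (v + w) : ℂ) * Complex.exp (-(ε : ℂ) * ((v + w : ℝ) : ℂ))) =
        ∫ t, e v t * (κ t * H (zz ε t)) := by
    intro v ε hε
    have hi : Integrable fun w : ℝ => (h (v + w) : ℂ) * Complex.exp (-(ε : ℂ) * ((v + w : ℝ) : ℂ)) :=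
      (wi_integrable_damped hm hb h0 (z := ε) (by simpa using hε)).comp_add_left v
    simp only [← hK]
    rw [wi_fourier_swap hκi hi]
    refine integral_congr_ae (Eventually.of_forall fun t => ?_)
    simp only
    rw [← hL _ (by rw [hzz]; exact hε), Real.fourier_real_eq_integral_exp_smul,
      ← integral_add_left_eq_self (fun u : ℝ => (h u : ℂ) * Complex.exp (-zz ε t * u)) v,
      mul_left_comm]
    congr 1
    rw [← integral_const_mul]
    refine integral_congr_ae (Eventually.of_forall fun w => ?_)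
    simp only [smul_eq_mul, e, zz]
    rw [mul_left_comm, mul_left_comm (Complex.exp _), ← Complex.exp_add, ← Complex.exp_add]
    congr 2
    push_cast
    ring
  have hHc : ∀ ε : ℝ, 0 ≤ ε → Continuous fun t => H (zz ε t) := fun ε hε =>
    hH.comp_continuous (hzc.comp (Continuous.prodMk_right ε)) fun t => by
      simpa [hzz] using hε
  obtain ⟨M', hM'⟩ : ∃ M', ∀ p ∈ Icc (0 : ℝ) 1 ×ˢ tsupport κ, ‖H (zz p.1 p.2)‖ ≤ M' :=
    (isCompact_Icc.prod hκs).exists_bound_of_continuousOn
      (hH.comp hzc.continuousOn fun p hp => by simpa [hzz] using hp.1.1)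
  have key0 : ∀ v : ℝ, ((∫ w, h (v + w) * K w : ℝ) : ℂ) = 𝓕 (fun t => κ t * H (zz 0 t)) (-v) := by
    intro v
    have l1 : Tendsto (fun ε : ℝ => ∫ w, (K w : ℂ) *
        ((h (v + w) : ℂ) * Complex.exp (-(ε : ℂ) * ((v + w : ℝ) : ℂ)))) (𝓝[>] 0)
        (𝓝 (∫ w, (K w : ℂ) * ((h (v + w) : ℂ) * Complex.exp (-((0 : ℝ) : ℂ) * ((v + w : ℝ) : ℂ))))) := by
      refine tendsto_integral_filter_of_dominated_convergence (fun w => ‖K w‖ * M)
        (Eventually.of_forall fun ε => ?_) ?_ (hKi.norm.mul_const _)
        (Eventually.of_forall fun w => ?_)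
      · refine hKi.ofReal.aestronglyMeasurable.mul (Measurable.aestronglyMeasurable ?_)
        exact (Complex.measurable_ofReal.comp (hm.comp (measurable_const_add v))).mul (by fun_prop)
      · filter_upwards [self_mem_nhdsWithin] with ε (hε : 0 < ε)
        refine Eventually.of_forall fun w => ?_
        rw [norm_mul, norm_mul, Complex.norm_real, Complex.norm_real, Complex.norm_exp]
        refine mul_le_mul_of_nonneg_left ?_ (norm_nonneg _)
        rcases le_or_gt (v + w) 0 with hw | hw
        · rw [h0 _ hw, norm_zero, zero_mul]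
          exact (abs_nonneg _).trans (hb 0)
        · refine (mul_le_of_le_one_right (norm_nonneg _) (Real.exp_le_one_iff.2 ?_)).trans (hb _)
          have := mul_pos hε hw
          simp only [neg_mul, neg_re, mul_re, ofReal_re, ofReal_im, mul_zero, sub_zero]
          linarith
      · exact (Continuous.tendsto (by fun_prop) 0).mono_left nhdsWithin_le_nhds
    have l2 : Tendsto (fun ε : ℝ => ∫ t, e v t * (κ t * H (zz ε t))) (𝓝[>] 0)
        (𝓝 (∫ t, e v t * (κ t * H (zz 0 t)))) := by
      refine tendsto_integral_filter_of_dominated_convergence (fun t => ‖κ t‖ * M') ?_ ?_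
        (hκi.norm.mul_const _) (Eventually.of_forall fun t => ?_)
      · filter_upwards [self_mem_nhdsWithin] with ε (hε : 0 < ε)
        refine Continuous.aestronglyMeasurable (Continuous.mul ?_ (hκ.mul (hHc ε hε.le)))
        simp only [e]
        fun_prop
      · filter_upwards [Ioc_mem_nhdsGT one_pos] with ε hε
        refine Eventually.of_forall fun t => ?_
        rw [norm_mul, he, one_mul, norm_mul]
        by_cases ht : t ∈ tsupport κ
        · exact mul_le_mul_of_nonneg_left (hM' (ε, t) ⟨⟨hε.1.le, hε.2⟩, ht⟩) (norm_nonneg _)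
        · simp [image_eq_zero_of_notMem_tsupport ht]
      · refine Tendsto.const_mul _ (Tendsto.const_mul _ ?_)
        have h1 : ContinuousWithinAt (fun ε : ℝ => H (zz ε t)) (Ici 0) 0 :=
          ContinuousWithinAt.comp (g := H) (t := {z | 0 ≤ z.re}) (hH _ (by simp [hzz]))
            (hzc.comp (Continuous.prodMk_left t)).continuousWithinAt
            fun ε hε => by simpa [hzz] using hε
        exact h1.tendsto.mono_left (nhdsWithin_mono _ Ioi_subset_Ici_self)
    have l3 := tendsto_nhds_unique (l1.congr' (by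
      filter_upwards [self_mem_nhdsWithin] with ε (hε : 0 < ε) using key v ε hε)) l2
    rw [Real.fourier_real_eq_integral_exp_smul, ← integral_complex_ofReal]
    simp only [smul_eq_mul]
    refine Eq.trans ?_ l3
    refine integral_congr_ae (Eventually.of_forall fun w => ?_)
    simp [mul_comm]
  have lim := (Real.zero_at_infty_fourier fun t => κ t * H (zz 0 t)).comp
    (tendsto_neg_atTop_atBot.mono_right atBot_le_cocompact)
  have lim2 := (Complex.continuous_re.tendsto 0).comp lim
  refine lim2.congr fun v => ?_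
  simp only [Function.comp_apply, ← key0, ofReal_re]

/-- The Tauberian step. -/
theorem wi_lemmaB {g K : ℝ → ℝ} (hm : Measurable g) {C A : ℝ} (hg0 : ∀ u, 0 ≤ g u)
    (hgC : ∀ u, g u ≤ C) (hmono : ∀ u u', u ≤ u' → g u * Real.exp u ≤ g u' * Real.exp u')
    (hK0 : ∀ u, 0 ≤ K u) (hKi : Integrable K) (hK1 : ∫ u, K u = 1)
    (hlim : ∀ l : ℝ, 0 < l → Tendsto (fun v => ∫ w, g (v + w / l) * K w) atTop (𝓝 A)) :
    Tendsto g atTop (𝓝 A) := by
  let K' : ℝ → ℝ → ℝ := fun T => indicator {w | T < |w|} K
  have hms : ∀ T : ℝ, MeasurableSet {w : ℝ | T < |w|} := fun T =>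
    measurableSet_lt measurable_const continuous_abs.measurable
  have hK'i : ∀ T, Integrable (K' T) := fun T => hKi.indicator (hms T)
  have hb : Tendsto (fun T => ∫ w, K' T w) atTop (𝓝 0) := by
    have := tendsto_integral_filter_of_dominated_convergence (l := atTop) (μ := volume) (F := K')
      (f := fun _ => 0) K (Eventually.of_forall fun T => (hK'i T).aestronglyMeasurable)
      (Eventually.of_forall fun T => Eventually.of_forall fun w =>
        (norm_indicator_le_norm_self _ _).trans (Real.norm_of_nonneg (hK0 w)).le) hKi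
      (Eventually.of_forall fun w => tendsto_const_nhds.congr' (by
        filter_upwards [eventually_ge_atTop |w|] with T hT
        exact (indicator_of_notMem (by simpa using hT) _).symm))
    simpa using this
  have hint : ∀ v l : ℝ, Integrable fun w => g (v + w / l) * K w := fun v l =>
    hKi.bdd_mul (c := C) (hm.comp (by fun_prop)).aestronglyMeasurable
      (Eventually.of_forall fun w => by rw [Real.norm_of_nonneg (hg0 _)]; exact hgC _)
  have hd : Tendsto (fun T : ℝ => 2 / T) atTop (𝓝 0) := tendsto_const_nhds.div_atTop tendsto_id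
  have hexp : ∀ c : ℝ, Tendsto (fun T : ℝ => Real.exp (c * (2 / T))) atTop (𝓝 1) := fun c => by
    have := (Real.continuous_exp.tendsto _).comp (hd.const_mul c)
    rwa [mul_zero, Real.exp_zero] at this
  have hw : ∀ T w : ℝ, 0 < T → |w| ≤ T → |w / T ^ 2| ≤ 1 / T := fun T w hT h => by
    rw [abs_div, abs_of_pos (pow_pos hT 2), div_le_div_iff₀ (pow_pos hT 2) hT]
    nlinarith
  have hC : 0 ≤ C := (hg0 0).trans (hgC 0)
  rw [tendsto_order]
  refine ⟨fun a ha => ?_, fun a ha => ?_⟩
  · have h1 : Tendsto (fun T : ℝ => a * Real.exp (1 * (2 / T)) + C * ∫ w, K' T w) atTop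
        (𝓝 (a * 1 + C * 0)) := ((hexp 1).const_mul a).add (hb.const_mul C)
    obtain ⟨T, hT, hT0⟩ := ((h1.eventually (gt_mem_nhds (by simpa using ha))).and
      (eventually_gt_atTop 0)).exists
    have h2 := ((hlim (T ^ 2) (pow_pos hT0 2)).comp
      (tendsto_atTop_add_const_right _ (-(1 / T)) tendsto_id)).eventually (lt_mem_nhds hT)
    filter_upwards [h2] with v hv
    have h3 : ∫ w, g (v + -(1 / T) + w / T ^ 2) * K w ≤
        ∫ w, (g v * Real.exp (1 * (2 / T)) * K w + C * K' T w) := by
      refine integral_mono (hint _ _) ((hKi.const_mul _).add ((hK'i T).const_mul _)) fun w => ?_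
      simp only
      by_cases hwT : T < |w|
      · have : K' T w = K w := indicator_of_mem (s := {w : ℝ | T < |w|}) hwT _
        rw [this]
        have h4 := mul_le_mul_of_nonneg_right (hgC (v + -(1 / T) + w / T ^ 2)) (hK0 w)
        have h5 := mul_nonneg (mul_nonneg (hg0 v) (Real.exp_pos (1 * (2 / T))).le) (hK0 w)
        linarith
      · have : K' T w = 0 := indicator_of_notMem (s := {w : ℝ | T < |w|}) hwT _
        rw [this, mul_zero, add_zero]
        refine mul_le_mul_of_nonneg_right ?_ (hK0 w)
        have h4 := abs_le.1 (hw T w hT0 (not_lt.1 hwT))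
        have h5 := hmono (v + -(1 / T) + w / T ^ 2) v (by linarith)
        refine le_of_mul_le_mul_right (h5.trans ?_) (Real.exp_pos _)
        rw [mul_assoc, ← Real.exp_add]
        refine mul_le_mul_of_nonneg_left (Real.exp_le_exp.2 ?_) (hg0 v)
        have : 2 / T = 2 * (1 / T) := by ring
        linarith
    rw [integral_add (hKi.const_mul _) ((hK'i T).const_mul _), integral_const_mul,
      integral_const_mul, hK1, mul_one] at h3
    simp only [Function.comp_apply, id] at hv
    exact lt_of_mul_lt_mul_right (a := Real.exp (1 * (2 / T))) (by linarith) (Real.exp_pos _).le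
  · have h0 : Tendsto (fun T : ℝ => Real.exp (-1 * (2 / T)) * (1 - ∫ w, K' T w)) atTop
        (𝓝 (1 * (1 - 0))) := (hexp (-1)).mul (hb.const_sub 1)
    have h1 := h0.const_mul a
    obtain ⟨T, hT, hT1, hT0⟩ := ((h1.eventually (lt_mem_nhds (by simpa using ha))).and
      ((h0.eventually (lt_mem_nhds (show (0 : ℝ) < 1 * (1 - 0) by norm_num))).and
      (eventually_gt_atTop 0))).exists
    have h2 := ((hlim (T ^ 2) (pow_pos hT0 2)).comp
      (tendsto_atTop_add_const_right _ (1 / T) tendsto_id)).eventually (gt_mem_nhds hT)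
    filter_upwards [h2] with v hv
    have h3 : ∫ w, g v * Real.exp (-1 * (2 / T)) * (K w - K' T w) ≤
        ∫ w, g (v + 1 / T + w / T ^ 2) * K w := by
      refine integral_mono ((hKi.sub (hK'i T)).const_mul _) (hint _ _) fun w => ?_
      simp only
      by_cases hwT : T < |w|
      · have : K' T w = K w := indicator_of_mem (s := {w : ℝ | T < |w|}) hwT _
        rw [this, sub_self, mul_zero]
        exact mul_nonneg (hg0 _) (hK0 _)
      · have : K' T w = 0 := indicator_of_notMem (s := {w : ℝ | T < |w|}) hwT _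
        rw [this, sub_zero]
        refine mul_le_mul_of_nonneg_right ?_ (hK0 w)
        have h4 := abs_le.1 (hw T w hT0 (not_lt.1 hwT))
        have h5 := hmono v (v + 1 / T + w / T ^ 2) (by linarith)
        refine le_of_mul_le_mul_right (le_trans ?_ h5) (Real.exp_pos _)
        rw [mul_assoc, ← Real.exp_add]
        refine mul_le_mul_of_nonneg_left (Real.exp_le_exp.2 ?_) (hg0 v)
        have : 2 / T = 2 * (1 / T) := by ring
        linarith
    rw [integral_const_mul, integral_sub hKi (hK'i T), hK1, mul_assoc] at h3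
    simp only [Function.comp_apply, id] at hv
    exact lt_of_mul_lt_mul_right (h3.trans_lt hv) hT1.le

theorem wi_laplace {f : ℕ → ℝ} (hf : ∀ n, 0 ≤ f n) {C : ℝ}
    (hC : ∀ n : ℕ, ∑ k ∈ Finset.Icc 1 n, f k ≤ C * n) {z : ℂ} (hz : 0 < z.re) :
    ∫ u in Ioi (0 : ℝ), ((Real.exp (-u) * ∑ k ∈ Finset.Icc 1 ⌊Real.exp u⌋₊, f k : ℝ) : ℂ) *
      Complex.exp (-z * u) = LSeries (fun n => f n) (1 + z) / (1 + z) := by
  have h1 : (1 + z) ≠ 0 := by
    intro h
    have := congrArg Complex.re h
    simp only [add_re, one_re, zero_re] at this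
    linarith
  have hO : (fun n : ℕ => ∑ k ∈ Finset.Icc 1 n, f k) =O[atTop] fun n : ℕ => (n : ℝ) ^ (1 : ℝ) := by
    refine Asymptotics.IsBigO.of_bound C (Eventually.of_forall fun n => ?_)
    rw [Real.rpow_one, Real.norm_of_nonneg (Finset.sum_nonneg fun k _ => hf k), Real.norm_natCast]
    exact hC n
  rw [LSeries_eq_mul_integral_of_nonneg f zero_le_one (s := 1 + z) (by simpa using hz) hO hf,
    mul_div_cancel_left₀ _ h1]
  have h2 : Ioi (1 : ℝ) = Real.exp '' Ioi 0 := by rw [Real.image_exp_Ioi, Real.exp_zero]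
  rw [h2, integral_image_eq_integral_abs_deriv_smul measurableSet_Ioi
    (fun x _ => (Real.hasDerivAt_exp x).hasDerivWithinAt) Real.exp_injective.injOn]
  refine integral_congr_ae (Eventually.of_forall fun u => ?_)
  simp only
  rw [abs_of_pos (Real.exp_pos u), Complex.real_smul,
    Complex.cpow_def_of_ne_zero (by exact_mod_cast (Real.exp_pos u).ne'),
    ← Complex.ofReal_log (Real.exp_pos u).le, Real.log_exp]
  push_cast
  rw [mul_right_comm, mul_left_comm, mul_comm, ← Complex.exp_add, ← Complex.exp_add]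
  congr 2
  ring

/-- The Wiener-Ikehara theorem. -/
theorem wienerIkehara {f : ℕ → ℝ} (hf : ∀ n, 0 ≤ f n) {C : ℝ}
    (hC : ∀ n : ℕ, ∑ k ∈ Finset.Icc 1 n, f k ≤ C * n) {A : ℝ} {G : ℂ → ℂ}
    (hG : ContinuousOn G {s | 1 ≤ s.re})
    (hG' : ∀ s : ℂ, 1 < s.re → G s = LSeries (fun n => f n) s - A / (s - 1)) :
    Tendsto (fun x : ℝ => (∑ k ∈ Finset.Icc 1 ⌊x⌋₊, f k) / x) atTop (𝓝 A) := by
  obtain ⟨κ, K, hκ, hκs, hK, hK0, hKi, hK1⟩ := wi_exists_kernel
  let S : ℝ → ℝ := fun x => ∑ k ∈ Finset.Icc 1 ⌊x⌋₊, f k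
  have hSmono : Monotone S := fun x y hxy =>
    Finset.sum_le_sum_of_subset_of_nonneg (Finset.Icc_subset_Icc_right (Nat.floor_mono hxy))
      fun k _ _ => hf k
  have hC0 : 0 ≤ C := by simpa using (hf 1).trans (by simpa using hC 1)
  let g : ℝ → ℝ := fun u => Real.exp (-u) * S (Real.exp u)
  have hgm : Measurable g :=
    (by fun_prop : Measurable fun u => Real.exp (-u)).mul
      (hSmono.measurable.comp Real.measurable_exp)
  have hg0 : ∀ u, 0 ≤ g u := fun u =>
    mul_nonneg (Real.exp_pos _).le (Finset.sum_nonneg fun k _ => hf k)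
  have hge : ∀ u, g u * Real.exp u = S (Real.exp u) := fun u => by
    simp only [g]
    rw [mul_right_comm, ← Real.exp_add, neg_add_cancel, Real.exp_zero, one_mul]
  have hgC : ∀ u, g u ≤ C := fun u => by
    refine le_of_mul_le_mul_right ?_ (Real.exp_pos u)
    rw [hge]
    exact (hC _).trans (mul_le_mul_of_nonneg_left (Nat.floor_le (Real.exp_pos u).le) hC0)
  let h : ℝ → ℝ := indicator (Ioi 0) fun u => g u - A
  have hhm : Measurable h := (hgm.sub_const A).indicator measurableSet_Ioi
  have hhb : ∀ u, |h u| ≤ C + |A| := fun u => by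
    have h1 : |h u| ≤ |g u - A| := norm_indicator_le_norm_self (fun u => g u - A) u
    refine h1.trans ((abs_sub _ _).trans ?_)
    rw [abs_of_nonneg (hg0 u)]
    linarith [hgC u]
  have hh0 : ∀ u, u ≤ 0 → h u = 0 := fun u hu => indicator_of_notMem (by simpa using hu) _
  let H : ℂ → ℂ := fun z => (G (1 + z) - A) / (1 + z)
  have hne : ∀ z : ℂ, 0 ≤ z.re → 1 + z ≠ 0 := fun z hz h => by
    have := congrArg Complex.re h
    simp only [add_re, one_re, zero_re] at this
    linarith
  have hH : ContinuousOn H {z | 0 ≤ z.re} := by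
    refine ContinuousOn.div ((hG.comp (by fun_prop) fun z hz => ?_).sub continuousOn_const)
      (by fun_prop) hne
    simpa using hz
  have hL : ∀ z : ℂ, 0 < z.re → ∫ u : ℝ, (h u : ℂ) * Complex.exp (-z * u) = H z := by
    intro z hz
    have hz0 : z ≠ 0 := fun h => by simp [h] at hz
    have hi := integrableOn_exp_mul_complex_Ioi (a := -z) (by simpa using hz) 0
    have h1 : ∫ u : ℝ, (h u : ℂ) * Complex.exp (-z * u) =
        ∫ u in Ioi (0 : ℝ), ((g u : ℂ) * Complex.exp (-z * u) - A * Complex.exp (-z * u)) := by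
      rw [← integral_indicator measurableSet_Ioi]
      refine integral_congr_ae (Eventually.of_forall fun u => ?_)
      by_cases hu : u ∈ Ioi (0 : ℝ)
      · simp only [h, indicator_of_mem hu]
        push_cast
        ring
      · simp [h, indicator_of_notMem hu]
    have h2 : IntegrableOn (fun u : ℝ => (g u : ℂ) * Complex.exp (-z * u)) (Ioi 0) :=
      Integrable.bdd_mul (c := C) hi (Complex.measurable_ofReal.comp hgm).aestronglyMeasurable
        (Eventually.of_forall fun u => by simpa [abs_of_nonneg (hg0 u)] using hgC u)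
    rw [h1, integral_sub h2 (hi.const_mul _), integral_const_mul,
      integral_exp_mul_complex_Ioi (by simpa using hz), wi_laplace hf hC hz]
    simp only [H]
    rw [hG' _ (by simpa using hz)]
    have := hne z hz.le
    simp only [ofReal_zero, mul_zero, Complex.exp_zero, add_sub_cancel_left]
    field_simp
    ring
  have hlim : ∀ l : ℝ, 0 < l → Tendsto (fun v => ∫ w, g (v + w / l) * K w) atTop (𝓝 A) := by
    intro l hl
    have h1 := wi_lemmaA (h := fun u => h (u / l)) (hhm.comp (by fun_prop)) (fun u => hhb _)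
      (fun u hu => hh0 _ (div_nonpos_of_nonpos_of_nonneg hu hl.le))
      (H := fun z => l * H (l * z))
      (continuousOn_const.mul (hH.comp (by fun_prop) fun z hz => by
        simpa using mul_nonneg hl.le hz))
      (fun z hz => by
        rw [← hL _ (by simpa using mul_pos hl hz), ← Complex.real_smul]
        have := Measure.integral_comp_div
          (fun u : ℝ => (h u : ℂ) * Complex.exp (-(l * z) * u)) l
        rw [abs_of_pos hl] at this
        rw [← this]
        refine integral_congr_ae (Eventually.of_forall fun u => ?_)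
        have : (l : ℂ) ≠ 0 := by exact_mod_cast hl.ne'
        simp only
        congr 2
        push_cast
        field_simp)
      hκ hκs hK hKi
    have h2 := h1.comp (tendsto_id.const_mul_atTop hl)
    have h3 : Tendsto (fun v => ∫ w, (g (v + w / l) - h (v + w / l)) * K w) atTop
        (𝓝 (∫ w, A * K w)) := by
      refine tendsto_integral_filter_of_dominated_convergence (fun w => (C + (C + |A|)) * K w)
        (Eventually.of_forall fun v => AEStronglyMeasurable.mul
          (((hgm.sub hhm).comp (by fun_prop)).aestronglyMeasurable) hKi.aestronglyMeasurable)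
        (Eventually.of_forall fun v => Eventually.of_forall fun w => ?_) (hKi.const_mul _)
        (Eventually.of_forall fun w => tendsto_const_nhds.congr' ?_)
      · rw [norm_mul, Real.norm_of_nonneg (hK0 w)]
        refine mul_le_mul_of_nonneg_right ((abs_sub _ _).trans ?_) (hK0 w)
        rw [abs_of_nonneg (hg0 _)]
        exact add_le_add (hgC _) (hhb _)
      · filter_upwards [eventually_gt_atTop (-(w / l))] with v hv
        have : v + w / l ∈ Ioi (0 : ℝ) := by
          simp only [mem_Ioi]
          linarith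
        simp only [h, indicator_of_mem this]
        ring
    rw [integral_const_mul, hK1, mul_one] at h3
    have h4 := h2.add h3
    rw [zero_add] at h4
    refine h4.congr fun v => ?_
    have h5 : ∀ w, (l * v + w) / l = v + w / l := fun w => by field_simp
    simp only [Function.comp_apply, id, h5]
    rw [← integral_add]
    · refine integral_congr_ae (Eventually.of_forall fun w => ?_)
      ring
    · exact hKi.bdd_mul (c := C + |A|) (hhm.comp (by fun_prop)).aestronglyMeasurable
        (Eventually.of_forall fun w => hhb _)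
    · refine hKi.bdd_mul (c := C + (C + |A|))
        ((hgm.sub hhm).comp (by fun_prop)).aestronglyMeasurable
        (Eventually.of_forall fun w => (abs_sub _ _).trans ?_)
      rw [abs_of_nonneg (hg0 _)]
      exact add_le_add (hgC _) (hhb _)
  have hg := wi_lemmaB hgm hg0 hgC (fun u u' huu => by
    rw [hge, hge]
    exact hSmono (Real.exp_le_exp.2 huu)) hK0 hKi hK1 hlim
  refine (hg.comp Real.tendsto_log_atTop).congr' ?_
  filter_upwards [eventually_gt_atTop 0] with x hx
  simp only [Function.comp_apply, g, S]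
  rw [Real.exp_neg, Real.exp_log hx, inv_mul_eq_div]

open ArithmeticFunction in
/-- The prime number theorem in arithmetic progressions, von Mangoldt form. -/
theorem pnt_residueClass {q : ℕ} [NeZero q] {a : ZMod q} (ha : IsUnit a) :
    Tendsto (fun x : ℝ => (∑ k ∈ Finset.Icc 1 ⌊x⌋₊, vonMangoldt.residueClass a k) / x) atTop
      (𝓝 (q.totient : ℝ)⁻¹) := by
  refine wienerIkehara (C := Real.log 4 + 4) (vonMangoldt.residueClass_nonneg a) (fun n => ?_)
    (vonMangoldt.continuousOn_LFunctionResidueClassAux a) fun s hs => ?_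
  · refine le_trans ?_ (Chebyshev.psi_le_const_mul_self (Nat.cast_nonneg n))
    rw [Chebyshev.psi, Nat.floor_natCast]
    exact Finset.sum_le_sum fun k _ => vonMangoldt.residueClass_le a k
  · rw [vonMangoldt.eqOn_LFunctionResidueClassAux ha hs]
    simp

/-- The prime number theorem for `psi`. -/
theorem pnt_psi : Tendsto (fun x : ℝ => Chebyshev.psi x / x) atTop (𝓝 1) := by
  have h := pnt_residueClass (q := 1) (a := 1) isUnit_one
  simp only [Nat.totient_one, Nat.cast_one, inv_one] at h
  refine h.congr fun x => ?_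
  congr 1
  refine Finset.sum_congr rfl fun k _ => ?_
  exact indicator_of_mem (s := {n : ℕ | (n : ZMod 1) = 1}) (Subsingleton.elim (k : ZMod 1) 1) _

/-- The prime number theorem for `theta`. -/
theorem pnt_theta : Tendsto (fun x : ℝ => Chebyshev.theta x / x) atTop (𝓝 1) := by
  have h1 : Tendsto (fun x : ℝ => (Chebyshev.psi - Chebyshev.theta) x / x) atTop (𝓝 0) := by
    refine (Chebyshev.isBigO_psi_sub_theta_sqrt.trans_isLittleO ?_).tendsto_div_nhds_zero
    refine Asymptotics.isLittleO_of_tendsto' ?_ ?_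
    · filter_upwards [eventually_gt_atTop 0] with x hx h using absurd h hx.ne'
    · refine Real.tendsto_sqrt_atTop.inv_tendsto_atTop.congr fun x => ?_
      simp only [Pi.inv_apply]
      rw [Real.sqrt_div_self']
      simp
  have h2 := pnt_psi.sub h1
  rw [sub_zero] at h2
  refine h2.congr fun x => ?_
  simp only [Pi.sub_apply]
  ring

/-- The prime number theorem. -/
theorem pnt_pi :
    Tendsto (fun x : ℝ => (Nat.primeCounting ⌊x⌋₊ : ℝ) * Real.log x / x) atTop (𝓝 1) := by
  have h1 : (fun x : ℝ => x / Real.log x ^ 2) =o[atTop] fun x => x / Real.log x := by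
    refine Asymptotics.isLittleO_of_tendsto' ?_ ?_
    · filter_upwards [eventually_gt_atTop 1] with x hx h
      exact absurd h (div_pos (by linarith) (Real.log_pos hx)).ne'
    · refine (Real.tendsto_log_atTop.inv_tendsto_atTop).congr' ?_
      filter_upwards [eventually_gt_atTop 1] with x hx
      have := (Real.log_pos hx).ne'
      have : x ≠ 0 := by linarith
      simp only [Pi.inv_apply]
      field_simp
  have h2 := (Chebyshev.primeCounting_sub_theta_div_log_isBigO.trans_isLittleO
    h1).tendsto_div_nhds_zero.add pnt_theta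
  rw [zero_add] at h2
  refine h2.congr' ?_
  filter_upwards [eventually_gt_atTop 1] with x hx
  have := (Real.log_pos hx).ne'
  have : x ≠ 0 := by linarith
  field_simp
  ring

end Vale.Agent.P031
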