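import Mathlib

/-! Brun's pure sieve, general form. -/

namespace Vale.Agent.P031
open Finset Real

/-- truncated inclusion-exclusion sum -/
noncomputable def sieveE (x : ℕ → ℝ) (m : ℕ) (s : Finset ℕ) : ℝ :=
  ∑ S ∈ s.powerset, if S.card ≤ m then (-1) ^ S.card * ∏ q ∈ S, x q else 0

lemma sieveE_zero (x : ℕ → ℝ) (s : Finset ℕ) : sieveE x 0 s = 1 := by
  unfold sieveE
  rw [sum_eq_single ∅]
  · simp
  · intro S _ hS
    rw [if_neg]
    simpa using hS
  · simp

lemma sieveE_insert (x : ℕ → ℝ) (m : ℕ) {a : ℕ} {s : Finset ℕ} (ha : a ∉ s) :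
    sieveE x (m + 1) (insert a s) = sieveE x (m + 1) s - x a * sieveE x m s := by
  unfold sieveE
  rw [sum_powerset_insert ha, sub_eq_add_neg, mul_sum, ← sum_neg_distrib]
  congr 1
  refine sum_congr rfl fun S hS => ?_
  have haS : a ∉ S := fun h => ha (mem_powerset.mp hS h)
  rw [card_insert_of_notMem haS, prod_insert haS]
  by_cases h : S.card ≤ m
  · rw [if_pos (by omega), if_pos h]; ring
  · rw [if_neg (by omega), if_neg h]; ring

lemma sieve_bonf (x : ℕ → ℝ) (s : Finset ℕ) (hx : ∀ q ∈ s, 0 ≤ x q ∧ x q ≤ 1) (m : ℕ) :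
    0 ≤ (-1) ^ m * (sieveE x m s - ∏ q ∈ s, (1 - x q)) := by
  induction s using Finset.induction_on generalizing m with
  | empty => simp [sieveE]
  | insert a s ha ih =>
    have ih' := ih fun q hq => hx q (mem_insert_of_mem hq)
    cases m with
    | zero =>
      rw [sieveE_zero, pow_zero, one_mul, sub_nonneg]
      exact prod_le_one (fun q hq => by linarith [(hx q hq).2]) fun q hq => by
        linarith [(hx q hq).1]
    | succ m =>
      rw [sieveE_insert x m ha, prod_insert ha]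
      have h1 := ih' (m + 1)
      have h2 := mul_nonneg (hx a (mem_insert_self _ _)).1 (ih' m)
      have : (-1 : ℝ) ^ (m + 1) * (sieveE x (m + 1) s - x a * sieveE x m s
          - (1 - x a) * ∏ q ∈ s, (1 - x q))
          = (-1) ^ (m + 1) * (sieveE x (m + 1) s - ∏ q ∈ s, (1 - x q))
            + x a * ((-1) ^ m * (sieveE x m s - ∏ q ∈ s, (1 - x q))) := by ring
      rw [this]
      exact add_nonneg h1 h2

lemma sieve_tail (x : ℕ → ℝ) (s : Finset ℕ) (hx : ∀ q ∈ s, 0 ≤ x q) (m : ℕ) (y : ℝ) (hy : 1 ≤ y) :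
    sieveE x m s ≤ ∏ q ∈ s, (1 - x q) + (y ^ m)⁻¹ * ∏ q ∈ s, (1 + y * x q) := by
  simp_rw [sub_eq_add_neg]
  rw [prod_one_add, prod_one_add, mul_sum, ← sum_add_distrib]
  refine sum_le_sum fun S hS => ?_
  have hP : 0 ≤ ∏ q ∈ S, x q := prod_nonneg fun q hq => hx q (mem_powerset.mp hS hq)
  rw [prod_neg, prod_mul_distrib, prod_const]
  have hy0 : 0 < y := by linarith
  split_ifs with h
  · have : 0 ≤ (y ^ m)⁻¹ * (y ^ S.card * ∏ q ∈ S, x q) := by positivity
    linarith
  · have h1 : 1 ≤ (y ^ m)⁻¹ * y ^ S.card := by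
      rw [inv_mul_eq_div, one_le_div (by positivity)]
      exact pow_le_pow_right₀ hy (by omega)
    have h2 : -1 ≤ (-1 : ℝ) ^ S.card := by
      rcases neg_one_pow_eq_or ℝ S.card with h | h <;> simp [h]
    nlinarith

lemma sieve_periodic_count (p : ℕ → Prop) [DecidablePred p] (d : ℕ) (hd : 0 < d)
    (hp : ∀ n, p (d + n) ↔ p n) (N : ℕ) :
    |(Nat.count p N : ℝ) - N * (Nat.count p d / d)| ≤ Nat.count p d := by
  have hd' : (0 : ℝ) < d := by exact_mod_cast hd
  induction N using Nat.strong_induction_on with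
  | _ N ih =>
    rcases lt_or_ge N d with h | h
    · have h1 : (Nat.count p N : ℝ) ≤ Nat.count p d := by
        exact_mod_cast Nat.count_monotone p h.le
      have h2 : (N : ℝ) * (Nat.count p d / d) ≤ Nat.count p d := by
        rw [mul_div_assoc', div_le_iff₀ hd', mul_comm]
        exact mul_le_mul_of_nonneg_left (by exact_mod_cast h.le) (by positivity)
      have h3 : (0 : ℝ) ≤ N * (Nat.count p d / d) := by positivity
      have h4 : (0 : ℝ) ≤ Nat.count p N := by positivity
      rw [abs_le]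
      constructor <;> linarith
    · obtain ⟨m, rfl⟩ := Nat.exists_eq_add_of_le h
      have h1 := ih m (by omega)
      have h2 : Nat.count p (d + m) = Nat.count p d + Nat.count p m := by
        rw [Nat.count_add]
        congr 1
        simp_rw [Nat.count_eq_card_filter_range]
        exact congrArg _ (filter_congr fun n _ => hp n)
      rw [h2]
      push_cast
      have : (Nat.count p d : ℝ) + Nat.count p m - (d + m) * (Nat.count p d / d)
          = Nat.count p m - m * (Nat.count p d / d) := by field_simp; ring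
      rw [this]
      exact h1

lemma sieve_crt (a d : ℕ) (ha : 0 < a) (hd : 0 < d) (h : a.Coprime d) (U V : Finset ℕ)
    (hU : U ⊆ range a) (hV : V ⊆ range d) :
    ((range (a * d)).filter fun n => n % a ∈ U ∧ n % d ∈ V).card = U.card * V.card := by
  rw [← card_product]
  refine card_nbij' (fun n => (n % a, n % d)) (fun p => (Nat.chineseRemainder h p.1 p.2 : ℕ))
    ?_ ?_ ?_ ?_
  · intro n hn
    simp only [coe_filter, Set.mem_ofPred_eq] at hn
    simpa using hn.2
  · intro p hp
    simp only [coe_product, Set.mem_prod, mem_coe] at hp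
    have h1 : (Nat.chineseRemainder h p.1 p.2 : ℕ) % a = p.1 :=
      Eq.trans (Nat.chineseRemainder h p.1 p.2).2.1 (Nat.mod_eq_of_lt (mem_range.mp (hU hp.1)))
    have h2 : (Nat.chineseRemainder h p.1 p.2 : ℕ) % d = p.2 :=
      Eq.trans (Nat.chineseRemainder h p.1 p.2).2.2 (Nat.mod_eq_of_lt (mem_range.mp (hV hp.2)))
    simp only [coe_filter, Set.mem_ofPred_eq, mem_range]
    refine ⟨Nat.chineseRemainder_lt_mul h _ _ ha.ne' hd.ne', ?_, ?_⟩
    · rw [h1]; exact hp.1
    · rw [h2]; exact hp.2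
  · intro n hn
    simp only [coe_filter, Set.mem_ofPred_eq, mem_range] at hn
    have h1 := (Nat.chineseRemainder h (n % a) (n % d)).2.1.trans (Nat.mod_modEq n a)
    have h2 := (Nat.chineseRemainder h (n % a) (n % d)).2.2.trans (Nat.mod_modEq n d)
    have h3 := (Nat.modEq_and_modEq_iff_modEq_mul h).mp ⟨h1, h2⟩
    exact Nat.ModEq.eq_of_lt_of_lt h3 (Nat.chineseRemainder_lt_mul h _ _ ha.ne' hd.ne') hn.1
  · intro p hp
    simp only [coe_product, Set.mem_prod, mem_coe] at hp
    have h1 : (Nat.chineseRemainder h p.1 p.2 : ℕ) % a = p.1 :=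
      Eq.trans (Nat.chineseRemainder h p.1 p.2).2.1 (Nat.mod_eq_of_lt (mem_range.mp (hU hp.1)))
    have h2 : (Nat.chineseRemainder h p.1 p.2 : ℕ) % d = p.2 :=
      Eq.trans (Nat.chineseRemainder h p.1 p.2).2.2 (Nat.mod_eq_of_lt (mem_range.mp (hV hp.2)))
    exact Prod.ext h1 h2

lemma sieve_res_count (Om : ℕ → Finset ℕ) (S : Finset ℕ) (hS : ∀ q ∈ S, q.Prime)
    (hOm : ∀ q ∈ S, Om q ⊆ range q) :
    ((range (∏ q ∈ S, q)).filter fun n => ∀ q ∈ S, n % q ∈ Om q).card = ∏ q ∈ S, (Om q).card := by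
  induction S using Finset.induction_on with
  | empty => simp
  | insert a s ha ih =>
    have hs : ∀ q ∈ s, q.Prime := fun q hq => hS q (mem_insert_of_mem hq)
    have ih' := ih hs fun q hq => hOm q (mem_insert_of_mem hq)
    have hpa := hS a (mem_insert_self _ _)
    have hco : a.Coprime (∏ q ∈ s, q) := by
      refine Nat.Coprime.prod_right fun q hq => ?_
      exact (Nat.coprime_primes hpa (hs q hq)).mpr fun h => ha (h ▸ hq)
    have hd : 0 < ∏ q ∈ s, q := prod_pos fun q hq => (hs q hq).pos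
    rw [prod_insert ha, prod_insert ha, ← ih',
      ← sieve_crt a _ hpa.pos hd hco (Om a) _ (hOm a (mem_insert_self _ _)) (filter_subset _ _)]
    congr 1
    refine filter_congr fun n _ => ?_
    rw [forall_mem_insert, mem_filter, mem_range]
    have : ∀ q ∈ s, n % (∏ q ∈ s, q) % q = n % q := fun q hq =>
      Nat.mod_mod_of_dvd n (dvd_prod_of_mem _ hq)
    constructor
    · rintro ⟨h1, h2⟩
      exact ⟨h1, Nat.mod_lt _ hd, fun q hq => by rw [this q hq]; exact h2 q hq⟩
    · rintro ⟨h1, _, h2⟩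
      exact ⟨h1, fun q hq => by rw [← this q hq]; exact h2 q hq⟩

lemma sieve_count (Om : ℕ → Finset ℕ) (S : Finset ℕ) (hS : ∀ q ∈ S, q.Prime)
    (hOm : ∀ q ∈ S, Om q ⊆ range q) (N : ℕ) :
    |(((range N).filter fun n => ∀ q ∈ S, n % q ∈ Om q).card : ℝ)
      - N * ∏ q ∈ S, (((Om q).card : ℝ) / q)| ≤ ∏ q ∈ S, ((Om q).card : ℝ) := by
  have hd : 0 < ∏ q ∈ S, q := prod_pos fun q hq => (hS q hq).pos
  have h := sieve_periodic_count (fun n => ∀ q ∈ S, n % q ∈ Om q) _ hd (by
    intro n
    refine forall₂_congr fun q hq => ?_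
    obtain ⟨c, hc⟩ := dvd_prod_of_mem (fun q : ℕ => q) hq
    rw [hc, Nat.mul_add_mod]) N
  rw [Nat.count_eq_card_filter_range, Nat.count_eq_card_filter_range,
    sieve_res_count Om S hS hOm] at h
  push_cast at h
  rwa [prod_div_distrib]

/-- Brun's pure sieve -/
theorem sieve_brun (Om : ℕ → Finset ℕ) (Qs : Finset ℕ) (hS : ∀ q ∈ Qs, q.Prime)
    (hOm : ∀ q ∈ Qs, Om q ⊆ range q) (N r : ℕ) (y : ℝ) (hy : 1 ≤ y) :
    (((range N).filter fun n => ∀ q ∈ Qs, n % q ∉ Om q).card : ℝ) ≤
      N * (∏ q ∈ Qs, (1 - ((Om q).card : ℝ) / q)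
        + (y ^ (2 * r))⁻¹ * ∏ q ∈ Qs, (1 + y * (((Om q).card : ℝ) / q)))
      + ∑ S ∈ Qs.powerset.filter (fun S => S.card ≤ 2 * r), ∏ q ∈ S, ((Om q).card : ℝ) := by
  have h1 : (((range N).filter fun n => ∀ q ∈ Qs, n % q ∉ Om q).card : ℝ) ≤
      ∑ n ∈ range N, sieveE (fun q => if n % q ∈ Om q then 1 else 0) (2 * r) Qs := by
    rw [card_filter]
    push_cast
    refine sum_le_sum fun n _ => ?_
    have h2 := sieve_bonf (fun q => if n % q ∈ Om q then 1 else 0) Qs
      (fun q _ => by split_ifs <;> norm_num) (2 * r)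
    rw [pow_mul, neg_one_sq, one_pow, one_mul, sub_nonneg] at h2
    refine le_trans ?_ h2
    split_ifs with h
    · rw [prod_eq_one]
      intro q hq
      rw [if_neg (h q hq), sub_zero]
    · exact prod_nonneg fun q _ => by split_ifs <;> norm_num
  have h3 := sieve_tail (fun q => ((Om q).card : ℝ) / q) Qs (fun q _ => by positivity) (2 * r) y hy
  refine h1.trans (le_trans ?_ (add_le_add_left (mul_le_mul_of_nonneg_left h3 (by positivity)) _))
  unfold sieveE
  rw [sum_comm, mul_sum, sum_filter, ← sum_add_distrib]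
  refine sum_le_sum fun S hS' => ?_
  have hsub := mem_powerset.mp hS'
  split_ifs with h
  · rw [← mul_sum]
    have h4 : ∑ n ∈ range N, ∏ q ∈ S, (if n % q ∈ Om q then (1 : ℝ) else 0)
        = (((range N).filter fun n => ∀ q ∈ S, n % q ∈ Om q).card : ℝ) := by
      rw [card_filter]
      push_cast
      exact sum_congr rfl fun n _ => by rw [prod_ite_zero]; simp
    rw [h4]
    have h5 := abs_le.mp (sieve_count Om S (fun q hq => hS q (hsub hq))
      (fun q hq => hOm q (hsub hq)) N)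
    rcases neg_one_pow_eq_or ℝ S.card with h6 | h6 <;> rw [h6] <;> linarith [h5.1, h5.2]
  · simp

end Vale.Agent.P031
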