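import Vale.Agent.P031.BadA

/-! Almost all totients have a good preimage. -/

namespace Vale.Agent.P031
open Finset Real Filter

open Classical in
/-- exceptional factors up to `y` -/
noncomputable def badSet (B b : ℕ) (y : ℝ) : Finset ℕ := (Icc 1 ⌊y⌋₊).filter (badW B b)

lemma bad_eps (b : ℝ) (hb : 1 ≤ b) : exp (-(2 * b)) ≤ exp (-b) * eps b := by
  rw [eps, ← exp_add, exp_le_exp]
  have := rpow_le_self_of_one_le hb (by norm_num : (1 / 4 : ℝ) ≤ 1)
  linarith

open Classical in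
lemma bad_count1 (F : Facts) (b : ℕ) (hb : (1100000 : ℝ) ≤ b) (y : ℝ) (hy : 0 ≤ y) :
    (((Icc 1 ⌊y⌋₊).filter fun w : ℕ =>
      ∃ p : ℕ, p.Prime ∧ blk p = b ∧ (w = p * p ∨ w = p * (p - 1))).card : ℝ) ≤
      y * exp (-(2 * b : ℝ)) := by
  set Pb := (range (⌊y⌋₊ + 2)).filter fun p : ℕ =>
    p.Prime ∧ blk p = b ∧ p * (p - 1) ≤ ⌊y⌋₊ with hPb
  have hsub : ((Icc 1 ⌊y⌋₊).filter fun w : ℕ =>
      ∃ p : ℕ, p.Prime ∧ blk p = b ∧ (w = p * p ∨ w = p * (p - 1))) ⊆
      Pb.image (fun p => p * p) ∪ Pb.image (fun p => p * (p - 1)) := by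
    intro w hw
    rw [mem_filter, mem_Icc] at hw
    obtain ⟨⟨_, hw2⟩, p, hp, hpb, h⟩ := hw
    have h1 : p * (p - 1) ≤ ⌊y⌋₊ := by
      rcases h with rfl | rfl
      · exact (Nat.mul_le_mul_left p (Nat.sub_le p 1)).trans hw2
      · exact hw2
    have h2 : p - 1 ≤ p * (p - 1) := Nat.le_mul_of_pos_left _ hp.pos
    have hm : p ∈ Pb := mem_filter.mpr ⟨mem_range.mpr (by omega), hp, hpb, h1⟩
    rcases h with rfl | rfl
    · exact mem_union_left _ (mem_image_of_mem _ hm)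
    · exact mem_union_right _ (mem_image_of_mem _ hm)
  have hc : ((Icc 1 ⌊y⌋₊).filter fun w : ℕ =>
      ∃ p : ℕ, p.Prime ∧ blk p = b ∧ (w = p * p ∨ w = p * (p - 1))).card ≤ Pb.card + Pb.card :=
    (card_le_card hsub).trans ((card_union_le _ _).trans (add_le_add card_image_le card_image_le))
  obtain ⟨L, hL⟩ : ∃ L, L = exp (exp ((b : ℝ) - 10)) := ⟨_, rfl⟩
  have hL1 : 16 * exp (2 * b : ℝ) ≤ L := by
    have h1 := Real.quadratic_le_exp_of_nonneg (by linarith : 0 ≤ (b : ℝ) - 10)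
    have h2 : 15 + 2 * (b : ℝ) ≤ exp ((b : ℝ) - 10) := by nlinarith
    have h3 := add_one_le_exp (15 : ℝ)
    rw [hL]
    refine le_trans ?_ (exp_le_exp.mpr h2)
    rw [exp_add]
    exact mul_le_mul_of_nonneg_right (by linarith) (exp_pos _).le
  have hE : 1 ≤ exp (2 * b : ℝ) := one_le_exp (by positivity)
  have hm1 : L / 4 ≤ ⌊L / 2⌋₊ := by linarith [Nat.lt_floor_add_one (L / 2)]
  have hm2 : (⌊L / 2⌋₊ : ℝ) ≤ L / 2 := Nat.floor_le (by linarith)
  have hs := F.sum_sq Pb ⌊L / 2⌋₊ (Nat.le_floor (by push_cast; linarith)) (by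
    intro p hp
    obtain ⟨-, hp1, hp2, -⟩ := mem_filter.mp hp
    have := F.ge_blk p b hp1.two_le hp2.ge
    rw [← hL] at this
    have h4 : (⌊L / 2⌋₊ : ℝ) < p := by linarith
    exact_mod_cast h4)
  have hP : (Pb.card : ℝ) ≤ 2 * y * ∑ l ∈ Pb, (1 / (l : ℝ)) ^ 2 := by
    rw [card_eq_sum_ones, mul_sum]
    push_cast
    refine sum_le_sum fun p hp => ?_
    obtain ⟨-, hp1, -, hp3⟩ := mem_filter.mp hp
    have h2 : (2 : ℝ) ≤ p := by exact_mod_cast hp1.two_le
    have h3 : ((p * (p - 1) : ℕ) : ℝ) ≤ y := (Nat.le_floor_iff hy).mp hp3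
    rw [Nat.cast_mul, Nat.cast_sub hp1.one_le, Nat.cast_one] at h3
    rw [one_div, inv_pow, ← div_eq_mul_inv, one_le_div (by positivity)]
    nlinarith
  have h5 : (1 : ℝ) / ⌊L / 2⌋₊ ≤ 1 / (4 * exp (2 * b : ℝ)) :=
    one_div_le_one_div_of_le (by positivity) (by linarith)
  have h6 := mul_le_mul_of_nonneg_left (hs.trans h5) (by positivity : 0 ≤ 2 * y)
  have h7 : 2 * y * (1 / (4 * exp (2 * b : ℝ))) = y * exp (-(2 * b : ℝ)) / 2 := by
    rw [exp_neg]; field_simp; ring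
  have hc' := (Nat.cast_le (α := ℝ)).mpr hc
  push_cast at hc'
  linarith

lemma bad_count3 (F : Facts) (b : ℕ) (hb : (1100000 : ℝ) ≤ b) (y : ℝ) (hy : 0 ≤ y) :
    (((Icc 1 ⌊y⌋₊).filter fun w : ℕ =>
      exp (exp b * (b : ℝ) ^ 2) ≤ w ∧ ∀ l ∈ w.primeFactors, (l : ℝ) ≤ Ub b).card : ℝ) ≤
      y * exp (-(2 * b : ℝ)) := by
  have h1 : 16 ≤ Ub b := by
    rw [Ub]
    linarith [add_one_le_exp (exp ((b : ℝ) + 11)), add_one_le_exp ((b : ℝ) + 11)]
  refine (F.smooth (Ub b) _ y h1 (one_le_exp (by positivity)) hy).trans ?_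
  refine mul_le_mul_of_nonneg_left ?_ hy
  rw [exp_le_exp, Ub, log_exp, log_exp, log_exp, exp_add, mul_div_mul_left _ _ (exp_pos _).ne']
  have h2 : (b : ℝ) ^ 2 / 177147 ≤ (b : ℝ) ^ 2 / exp 11 :=
    div_le_div_of_nonneg_left (by positivity) (exp_pos _) bad_exp11
  nlinarith

lemma bad_count (F : Facts) (N : NormalStmt) (Vi : ViolateStmt) : ∃ B₀ : ℕ, ∀ B : ℕ, B₀ ≤ B →
    ∀ b : ℕ, B ≤ b → ∀ y : ℝ, 0 ≤ y → ((badSet B b y).card : ℝ) ≤ 4 * (exp (-(b : ℝ)) * eps b) * y := by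
  classical
  obtain ⟨b₁, hN⟩ := N
  obtain ⟨b₂, hV⟩ := Vi
  refine ⟨max (max b₁ b₂) 1100000, fun B hB b hb y hy => ?_⟩
  have hb1 : b₁ ≤ b := by omega
  have hb2 : b₂ ≤ B := by omega
  have hb3 : (1100000 : ℝ) ≤ b := by exact_mod_cast (by omega : 1100000 ≤ b)
  have h0 := mul_le_mul_of_nonneg_left (bad_eps b (by linarith)) hy
  have h1 := bad_count1 F b hb3 y hy
  have h2 := hN b hb1 y hy
  have h3 := bad_count3 F b hb3 y hy
  have h4 := hV B hb2 b hb y hy
  have hsub : badSet B b y ⊆ ((Icc 1 ⌊y⌋₊).filter fun w : ℕ =>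
      ∃ p : ℕ, p.Prime ∧ blk p = b ∧ (w = p * p ∨ w = p * (p - 1))) ∪
      (((range (⌊y⌋₊ + 2)).filter fun p : ℕ => p.Prime ∧ blk p = b ∧ ¬ Normal p).image (· - 1) ∪
      (((Icc 1 ⌊y⌋₊).filter fun w : ℕ =>
        exp (exp b * (b : ℝ) ^ 2) ≤ w ∧ ∀ l ∈ w.primeFactors, (l : ℝ) ≤ Ub b) ∪
      ((Icc 1 ⌊y⌋₊).filter fun w : ℕ => ∃ (p : ℕ) (Q : Finset ℕ) (μ : ℕ), Normal p ∧ blk p = b ∧
        Good B Q ∧ (∀ q ∈ Q, q < p) ∧ 1 ≤ μ ∧ (b : ℝ) + hh b < Phi Q ∧
        w = μ * (p - 1) * val Q))) := by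
    intro w hw
    obtain ⟨hw1, -, -, h⟩ := mem_filter.mp hw
    simp only [mem_union]
    rcases h with h | ⟨p, hp1, hp2, hp3, rfl⟩ | h | h
    · exact Or.inl (mem_filter.mpr ⟨hw1, h⟩)
    · refine Or.inr (Or.inl (mem_image_of_mem _ (mem_filter.mpr ⟨?_, hp1, hp2, hp3⟩)))
      have := (mem_Icc.mp hw1).2
      rw [mem_range]
      omega
    · exact Or.inr (Or.inr (Or.inl (mem_filter.mpr ⟨hw1, h⟩)))
    · exact Or.inr (Or.inr (Or.inr (mem_filter.mpr ⟨hw1, h⟩)))
  have hc := (card_le_card hsub).trans ((card_union_le _ _).trans (add_le_add_right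
    ((card_union_le _ _).trans (add_le_add card_image_le (card_union_le _ _))) _))
  have hc' := (Nat.cast_le (α := ℝ)).mpr hc
  push_cast at hc'
  linarith

lemma bad_recip (F : Facts) (t Z : ℝ) (ht : 16 ≤ t) (hZ : 1 ≤ Z)
    (hV : ∀ y : ℝ, 2 ≤ y → y ≤ t → ((tots y).card : ℝ) ≤ Z * y / log y) (j : ℕ) :
    ∑ v ∈ (tots t).filter (fun v : ℕ => (v : ℝ) ≤ exp (exp j)), (1 : ℝ) / v ≤ Z * (2 + 4 * j) := by
  have hone : ∀ v ∈ tots t, 1 ≤ v := fun v hv => by
    classical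
    exact (mem_Icc.mp (mem_filter.mp hv).1).1
  induction j with
  | zero =>
    have h := F.abel ((tots t).filter fun v : ℕ => (v : ℝ) ≤ exp (exp (0 : ℕ))) (fun v => v) 1
      (exp (exp (0 : ℕ))) (one_le_exp (exp_pos _).le) zero_le_one
      (fun v hv => ⟨hone v (mem_filter.mp hv).1, (mem_filter.mp hv).2⟩) (by
        intro m
        rw [one_mul, Nat.cast_le]
        refine (card_le_card (t := Icc 1 m) fun v hv => ?_).trans (by simp)
        rw [mem_filter, mem_filter] at hv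
        exact mem_Icc.mpr ⟨hone v hv.1.1, hv.2⟩)
    refine h.trans ?_
    rw [log_exp]
    simp only [Nat.cast_zero, exp_zero]
    linarith
  | succ j ih =>
    rw [← sum_filter_add_sum_filter_not _ (fun v : ℕ => (v : ℝ) ≤ exp (exp j))]
    have hE : 1 ≤ exp (j : ℝ) := one_le_exp (by positivity)
    have h1 : ∑ v ∈ ((tots t).filter fun v : ℕ => (v : ℝ) ≤ exp (exp (j + 1 : ℕ))).filter
        (fun v : ℕ => (v : ℝ) ≤ exp (exp j)), (1 : ℝ) / v ≤ Z * (2 + 4 * j) := by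
      refine le_trans (sum_le_sum_of_subset_of_nonneg ?_ fun _ _ _ => by positivity) ih
      exact filter_subset_filter _ (filter_subset _ _)
    have h2 := F.abel (((tots t).filter fun v : ℕ => (v : ℝ) ≤ exp (exp (j + 1 : ℕ))).filter
        (fun v : ℕ => ¬ (v : ℝ) ≤ exp (exp j))) (fun v => v) (Z / exp j)
      (exp (exp (j + 1 : ℕ))) (one_le_exp (exp_pos _).le) (by positivity)
      (fun v hv => ⟨hone v (mem_filter.mp (mem_filter.mp hv).1).1,
        (mem_filter.mp (mem_filter.mp hv).1).2⟩) (by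
        intro m
        rcases le_or_gt (min t m) (exp (exp j)) with hm | hm
        · rw [filter_eq_empty_iff.mpr]
          · simp only [card_empty, Nat.cast_zero]; positivity
          · intro v hv hvm
            simp only [mem_filter] at hv
            have h3 := ((mem_tots (by linarith)).mp hv.1.1).2
            have h4 : (v : ℝ) ≤ m := by exact_mod_cast hvm
            exact hv.2 ((le_min h3 h4).trans hm)
        · have h5 : 2 ≤ exp (exp (j : ℝ)) := by linarith [add_one_le_exp (exp (j : ℝ))]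
          have h6 := hV (min t m) (by linarith) (min_le_left _ _)
          have h7 : exp j ≤ log (min t m) := by
            rw [le_log_iff_exp_le (by linarith)]; exact hm.le
          refine le_trans ?_ (h6.trans ?_)
          · rw [Nat.cast_le]
            refine card_le_card fun v hv => ?_
            simp only [mem_filter] at hv
            have h3 := (mem_tots (by linarith)).mp hv.1.1.1
            exact (mem_tots (by linarith)).mpr ⟨h3.1, le_min h3.2 (by exact_mod_cast hv.2)⟩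
          · rw [div_mul_eq_mul_div]
            exact div_le_div₀ (by positivity)
              (mul_le_mul_of_nonneg_left (min_le_right _ _) (by linarith)) (exp_pos _) h7)
    have h3 : Z / exp j * (1 + log (exp (exp (j + 1 : ℕ)))) ≤ Z * 4 := by
      rw [log_exp, div_mul_eq_mul_div, mul_div_assoc]
      refine mul_le_mul_of_nonneg_left ?_ (by linarith)
      rw [div_le_iff₀ (exp_pos _)]
      push_cast
      rw [exp_add]
      nlinarith [exp_one_lt_three]
    push_cast at h1 h2 h3 ⊢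
    linarith

open Classical in
/-- totients with an exceptional factor of level `b` -/
noncomputable def badT (B b : ℕ) (t : ℝ) : Finset ℕ :=
  (tots t).filter fun v => ∃ w v' : ℕ, v = w * v' ∧ IsTot v' ∧ badW B b w

lemma bad_mem {B b : ℕ} {t : ℝ} (ht : 0 ≤ t) {v : ℕ} (hv : v ∈ badT B b t) :
    ∃ w v' : ℕ, v = w * v' ∧ IsTot v' ∧ badW B b w ∧ 1 ≤ v' ∧ (w : ℝ) * v' ≤ t := by
  classical
  obtain ⟨h1, w, v', rfl, h2, h3⟩ := mem_filter.mp hv
  refine ⟨w, v', rfl, h2, h3, ?_, by exact_mod_cast ((mem_tots ht).mp h1).2⟩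
  obtain ⟨n, hn, rfl⟩ := h2
  exact Nat.totient_pos.mpr hn

lemma bad_mem_set {B b w : ℕ} {y : ℝ} (h : badW B b w) (hw : (w : ℝ) ≤ y) : w ∈ badSet B b y := by
  classical
  exact mem_filter.mpr ⟨mem_Icc.mpr ⟨h.1, Nat.le_floor hw⟩, h⟩

lemma bad_caseA (F : Facts) (B b : ℕ) (κ t Z : ℝ) (hκ : 0 ≤ κ) (ht : 16 ≤ t) (hZ : 1 ≤ Z)
    (hV : ∀ y : ℝ, 2 ≤ y → y ≤ t → ((tots y).card : ℝ) ≤ Z * y / log y)
    (hc : ∀ y : ℝ, 0 ≤ y → ((badSet B b y).card : ℝ) ≤ κ * y)
    (hA : exp b * (b : ℝ) ^ 3 ≤ log t / 2) :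
    ((badT B b t).card : ℝ) ≤ Z * t / log t * (2 * (κ * (1 + exp b * (b : ℝ) ^ 3))) := by
  classical
  have ht0 : 0 < t := by linarith
  have hlog : 0 < log t := log_pos (by linarith)
  have hW : ∀ w ∈ badSet B b t, badW B b w := fun w hw => (mem_filter.mp hw).2
  have hsub : badT B b t ⊆ (badSet B b t).biUnion fun w => (tots (t / w)).image (w * ·) := by
    intro v hv
    obtain ⟨w, v', rfl, h2, h3, h4, h5⟩ := bad_mem ht0.le hv
    have hw : (1 : ℝ) ≤ w := by exact_mod_cast h3.1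
    have hv' : (1 : ℝ) ≤ v' := by exact_mod_cast h4
    refine mem_biUnion.mpr ⟨w, bad_mem_set h3 (by nlinarith), mem_image_of_mem _ ?_⟩
    refine (mem_tots (by positivity)).mpr ⟨h2, ?_⟩
    rw [le_div_iff₀ (by linarith), mul_comm]
    exact h5
  have h1 : (badT B b t).card ≤ ∑ w ∈ badSet B b t, (tots (t / w)).card :=
    (card_le_card hsub).trans (card_biUnion_le.trans (sum_le_sum fun w _ => card_image_le))
  have h2 := F.abel (badSet B b t) (fun w => w) κ (exp (exp b * (b : ℝ) ^ 3))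
    (one_le_exp (by positivity)) hκ (fun w hw => ⟨(hW w hw).1, (hW w hw).2.1⟩) (by
      intro m
      refine le_trans ?_ (hc m (Nat.cast_nonneg _))
      rw [Nat.cast_le]
      refine card_le_card fun w hw => ?_
      rw [mem_filter] at hw
      exact bad_mem_set (hW w hw.1) (by exact_mod_cast hw.2))
  rw [log_exp] at h2
  have h3 : ((badT B b t).card : ℝ) ≤ ∑ w ∈ badSet B b t, Z * t / log t * (2 * (1 / (w : ℝ))) := by
    refine le_trans ((Nat.cast_le.mpr h1).trans_eq (Nat.cast_sum _ _)) (sum_le_sum fun w hw' => ?_)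
    have hw : (1 : ℝ) ≤ w := by exact_mod_cast (hW w hw').1
    have h4 : log w ≤ log t / 2 := by
      refine le_trans ?_ hA
      rw [log_le_iff_le_exp (by linarith)]
      exact (hW w hw').2.1
    have h5 : log t / 2 ≤ log (t / w) := by
      rw [log_div ht0.ne' (by linarith)]; linarith
    have h6 : 2 ≤ t / w := by
      have h7 : log 4 ≤ log t := log_le_log (by norm_num) (by linarith)
      rw [show (4 : ℝ) = 2 ^ 2 by norm_num, log_pow] at h7
      push_cast at h7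
      exact (log_le_log_iff (by norm_num) (by positivity)).mp (by linarith)
    refine (hV (t / w) h6 (div_le_self ht0.le hw)).trans ?_
    refine (div_le_div_of_nonneg_left (by positivity) (by positivity) h5).trans_eq ?_
    field_simp
  rw [← mul_sum, ← mul_sum] at h3
  refine h3.trans (mul_le_mul_of_nonneg_left (by linarith) (by positivity))

lemma bad_caseB (F : Facts) (B b : ℕ) (κ t Z : ℝ) (hκ : 0 ≤ κ) (ht : 16 ≤ t) (hZ : 1 ≤ Z)
    (hV : ∀ y : ℝ, 2 ≤ y → y ≤ t → ((tots y).card : ℝ) ≤ Z * y / log y)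
    (hc : ∀ y : ℝ, 0 ≤ y → ((badSet B b y).card : ℝ) ≤ κ * y)
    (hB : t ≤ exp (exp ((2 * b : ℕ) : ℝ))) :
    ((badT B b t).card : ℝ) ≤ κ * t * (Z * (2 + 8 * b)) := by
  classical
  have ht0 : 0 < t := by linarith
  have hsub : badT B b t ⊆ (tots t).biUnion fun v' => (badSet B b (t / v')).image (· * v') := by
    intro v hv
    obtain ⟨w, v', rfl, h2, h3, h4, h5⟩ := bad_mem ht0.le hv
    have hw : (1 : ℝ) ≤ w := by exact_mod_cast h3.1
    have hv' : (1 : ℝ) ≤ v' := by exact_mod_cast h4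
    refine mem_biUnion.mpr ⟨v', (mem_tots ht0.le).mpr ⟨h2, by nlinarith⟩,
      mem_image_of_mem _ (bad_mem_set h3 ?_)⟩
    rw [le_div_iff₀ (by linarith)]
    exact h5
  have h1 : (badT B b t).card ≤ ∑ v ∈ tots t, (badSet B b (t / v)).card :=
    (card_le_card hsub).trans (card_biUnion_le.trans (sum_le_sum fun w _ => card_image_le))
  have h2 := bad_recip F t Z ht hZ hV (2 * b)
  rw [filter_true_of_mem fun v hv => ((mem_tots ht0.le).mp hv).2.trans hB] at h2
  have h3 : ((badT B b t).card : ℝ) ≤ ∑ v ∈ tots t, κ * t * (1 / (v : ℝ)) := by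
    refine le_trans ((Nat.cast_le.mpr h1).trans_eq (Nat.cast_sum _ _)) (sum_le_sum fun v _ => ?_)
    refine (hc _ (by positivity)).trans_eq ?_
    ring
  rw [← mul_sum] at h3
  refine h3.trans (mul_le_mul_of_nonneg_left (h2.trans_eq ?_) (by positivity))
  push_cast
  ring

lemma bad_block (F : Facts) (B b : ℕ) (hb : (1100000 : ℝ) ≤ b) (t Z : ℝ) (ht : 16 ≤ t) (hZ : 1 ≤ Z)
    (hV : ∀ y : ℝ, 2 ≤ y → y ≤ t → ((tots y).card : ℝ) ≤ Z * y / log y)
    (hc : ∀ y : ℝ, 0 ≤ y → ((badSet B b y).card : ℝ) ≤ 4 * (exp (-(b : ℝ)) * eps b) * y) :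
    ((badT B b t).card : ℝ) ≤ Z * t / log t * (72 * (b : ℝ) ^ 4 * eps b) := by
  have ht0 : 0 < t := by linarith
  have hlog : 0 < log t := log_pos (by linarith)
  have he : 0 < eps b := exp_pos _
  have hE : 1 ≤ exp (b : ℝ) := one_le_exp (by positivity)
  have hb3 : (1 : ℝ) ≤ (b : ℝ) ^ 3 := one_le_pow₀ (by linarith)
  have hb4 : (b : ℝ) ^ 3 ≤ (b : ℝ) ^ 4 := pow_le_pow_right₀ (by linarith) (by norm_num)
  rcases le_or_gt (exp b * (b : ℝ) ^ 3) (log t / 2) with h | h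
  · refine (bad_caseA F B b _ t Z (by positivity) ht hZ hV hc h).trans ?_
    refine mul_le_mul_of_nonneg_left ?_ (by positivity)
    have h1 : exp (-(b : ℝ)) * (1 + exp b * (b : ℝ) ^ 3) ≤ 2 * (b : ℝ) ^ 4 := by
      rw [exp_neg, inv_mul_le_iff₀ (exp_pos _)]
      nlinarith
    nlinarith
  · have h1 : t ≤ exp (exp ((2 * b : ℕ) : ℝ)) := by
      rw [← log_le_iff_le_exp ht0]
      push_cast
      rw [two_mul, exp_add]
      have h2 := Real.pow_div_factorial_le_exp (b : ℝ) (by positivity) 4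
      have h5 : ((Nat.factorial 4 : ℕ) : ℝ) = 24 := by norm_num [Nat.factorial]
      rw [h5] at h2
      have h3 : 2 * (b : ℝ) ^ 3 ≤ exp b := by nlinarith
      nlinarith
    refine (bad_caseB F B b _ t Z (by positivity) ht hZ hV hc h1).trans ?_
    have h2 : exp (-(b : ℝ)) ≤ 2 * (b : ℝ) ^ 3 / log t := by
      rw [exp_neg, le_div_iff₀ hlog, inv_mul_le_iff₀ (exp_pos _)]
      linarith
    calc 4 * (exp (-(b : ℝ)) * eps b) * t * (Z * (2 + 8 * b))
        ≤ 4 * (2 * (b : ℝ) ^ 3 / log t * eps b) * t * (Z * (9 * b)) := by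
          gcongr
          linarith
      _ = Z * t / log t * (72 * (b : ℝ) ^ 4 * eps b) := by ring

lemma bad_ev : ∃ b₀ : ℕ, ∀ b : ℕ, b₀ ≤ b → 72 * (b : ℝ) ^ 9 * eps b ≤ 1 := by
  have h1 : Tendsto (fun b : ℕ => (b : ℝ) ^ (1 / 4 : ℝ)) atTop atTop :=
    (tendsto_rpow_atTop (by norm_num)).comp tendsto_natCast_atTop_atTop
  have h2 := ((tendsto_exp_div_pow_atTop 36).comp h1).eventually_ge_atTop 72
  obtain ⟨b₀, hb₀⟩ := eventually_atTop.mp h2
  refine ⟨max b₀ 1, fun b hb => ?_⟩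
  have h3 := hb₀ b ((le_max_left _ _).trans hb)
  have hb1 : (0 : ℝ) < b := by exact_mod_cast (le_max_right _ _).trans hb
  simp only [Function.comp] at h3
  rw [← rpow_natCast, ← rpow_mul hb1.le, show (1 / 4 : ℝ) * (36 : ℕ) = (9 : ℕ) by norm_num,
    rpow_natCast, le_div_iff₀ (by positivity)] at h3
  rw [eps, exp_neg, mul_inv_le_iff₀ (exp_pos _), one_mul]
  exact h3

theorem bad (F : Facts) (P : Prof) (N : NormalStmt) (Vi : ViolateStmt) : BadStmt := by
  classical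
  obtain ⟨B₁, h1⟩ := bad_structure F P
  obtain ⟨B₂, h2⟩ := bad_count F N Vi
  obtain ⟨B₃, h3⟩ := bad_ev
  refine ⟨max (max B₁ B₂) (max B₃ 1100000), fun B hB t Z ht hZ hV => ?_⟩
  have ht0 : 0 < t := by linarith
  have hlog : 0 < log t := log_pos (by linarith)
  set S := (tots t).filter fun v => ¬ ∃ (Q : Finset ℕ) (μ : ℕ), Good B Q ∧ Small B μ ∧
    v = μ * val Q with hS
  have H : ∀ v ∈ S, ∃ b : ℕ, B ≤ b ∧ v ∈ badT B b t := by
    intro v hv
    obtain ⟨hv1, hv2⟩ := mem_filter.mp hv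
    obtain ⟨b, hb, h⟩ := h1 B (by omega) v ((mem_tots ht0.le).mp hv1).1 hv2
    exact ⟨b, hb, mem_filter.mpr ⟨hv1, h⟩⟩
  choose! f hf using H
  have hsub : S ⊆ (S.image f).biUnion fun b => badT B b t := fun v hv =>
    mem_biUnion.mpr ⟨f v, mem_image_of_mem _ hv, (hf v hv).2⟩
  have hI : ∀ b ∈ S.image f, B ≤ b := by
    intro b hb
    obtain ⟨v, hv, rfl⟩ := mem_image.mp hb
    exact (hf v hv).1
  have h4 : S.card ≤ ∑ b ∈ S.image f, (badT B b t).card :=
    (card_le_card hsub).trans card_biUnion_le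
  have hB0 : (0 : ℝ) < B := by exact_mod_cast (by omega : 0 < B)
  have h5 : (S.card : ℝ) ≤ ∑ b ∈ S.image f, Z * t / log t / (B : ℝ) ^ 3 * (1 / (b : ℝ)) ^ 2 := by
    refine le_trans ((Nat.cast_le.mpr h4).trans_eq (Nat.cast_sum _ _)) (sum_le_sum fun b hb => ?_)
    have hb1 := hI b hb
    have hb2 : (B : ℝ) ≤ b := by exact_mod_cast hb1
    have hb0 : (0 : ℝ) < b := by linarith
    refine (bad_block F B b (by exact_mod_cast (by omega : 1100000 ≤ b)) t Z ht hZ hV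
      (h2 B (by omega) b hb1)).trans ?_
    rw [div_mul_eq_mul_div (Z * t / log t), mul_div_assoc (Z * t / log t)]
    refine mul_le_mul_of_nonneg_left ?_ (by positivity)
    have h6 := h3 b (by omega)
    calc 72 * (b : ℝ) ^ 4 * eps b = (72 * (b : ℝ) ^ 9 * eps b) * ((1 / (b : ℝ)) ^ 2 / (b : ℝ) ^ 3) := by
          field_simp
      _ ≤ 1 * ((1 / (b : ℝ)) ^ 2 / (B : ℝ) ^ 3) := by gcongr
      _ = _ := one_mul _
  rw [← mul_sum] at h5
  have h7 := F.sum_sq (S.image f) 1 le_rfl fun b hb => by have := hI b hb; omega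
  refine h5.trans (mul_le_of_le_one_right (by positivity) (by simpa using h7))

end Vale.Agent.P031
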