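import Vale.Agent.P031.Defs

/-! Structure of totients without a good preimage. -/

namespace Vale.Agent.P031
open Finset Real

/-- the predicate of `ViolateStmt` -/
def badV (B b w : ℕ) : Prop :=
  ∃ (p : ℕ) (Q : Finset ℕ) (μ : ℕ), Normal p ∧ blk p = b ∧
    Good B Q ∧ (∀ q ∈ Q, q < p) ∧ 1 ≤ μ ∧ (b : ℝ) + hh b < Phi Q ∧ w = μ * (p - 1) * val Q

/-- the exceptional factors -/
def badW (B b w : ℕ) : Prop :=
  1 ≤ w ∧ (w : ℝ) ≤ exp (exp b * (b : ℝ) ^ 3) ∧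
    ((∃ p : ℕ, p.Prime ∧ blk p = b ∧ (w = p * p ∨ w = p * (p - 1))) ∨
      (∃ p : ℕ, p.Prime ∧ blk p = b ∧ ¬ Normal p ∧ w = p - 1) ∨
      (exp (exp b * (b : ℝ) ^ 2) ≤ w ∧ ∀ l ∈ w.primeFactors, (l : ℝ) ≤ Ub b) ∨
      badV B b w)

lemma bad_exp11 : exp 11 ≤ 177147 := by
  rw [show (11 : ℝ) = ((11 : ℕ) : ℝ) * 1 by norm_num, exp_nat_mul]
  refine (pow_le_pow_left₀ (by positivity) exp_one_lt_three.le _).trans ?_
  norm_num

lemma bad_Ub_pow (b : ℕ) (hb : (1100000 : ℝ) ≤ b) (k : ℕ) (hk : (k : ℝ) ≤ 11 * b) :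
    exp (exp b * (b : ℝ) ^ 2) * Ub b ^ k ≤ exp (exp b * (b : ℝ) ^ 3) := by
  rw [Ub, ← exp_nat_mul, ← exp_add, exp_le_exp, exp_add]
  have h1 : (k : ℝ) * exp 11 ≤ 11 * b * 177147 :=
    mul_le_mul hk bad_exp11 (by positivity) (by positivity)
  have h2 : (b : ℝ) ^ 2 + k * exp 11 ≤ (b : ℝ) ^ 3 := by
    have h3 : 1100000 * (b : ℝ) ≤ (b : ℝ) ^ 2 := by nlinarith
    have h4 : 1100000 * (b : ℝ) ^ 2 ≤ (b : ℝ) ^ 3 := by nlinarith
    linarith
  have h5 := mul_le_mul_of_nonneg_left h2 (exp_pos (b : ℝ)).le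
  linarith

lemma bad_Ub_pow' (b : ℕ) (hb : (1100000 : ℝ) ≤ b) (k : ℕ) (hk : (k : ℝ) ≤ 11 * b) :
    Ub b ^ k ≤ exp (exp b * (b : ℝ) ^ 3) := by
  refine le_trans ?_ (bad_Ub_pow b hb k hk)
  exact le_mul_of_one_le_left (pow_nonneg (exp_pos _).le _) (one_le_exp (by positivity))

lemma bad_last (B μ : ℕ) (h : exp (exp B * (B : ℝ) ^ 2) ≤ μ) :
    ∃ b : ℕ, B ≤ b ∧ exp (exp b * (b : ℝ) ^ 2) ≤ μ ∧
      (μ : ℝ) ≤ exp (exp ((b + 1 : ℕ) : ℝ) * ((b + 1 : ℕ) : ℝ) ^ 2) := by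
  by_contra hc
  push Not at hc
  have h1 : ∀ b, B ≤ b → exp (exp b * (b : ℝ) ^ 2) ≤ μ := by
    intro b hb
    induction b, hb using Nat.le_induction with
    | base => exact h
    | succ b hb ih => exact (hc b hb ih).le
  have h2 := h1 (B + μ + 1) (by omega)
  have h3 : (μ : ℝ) + 1 ≤ ((B + μ + 1 : ℕ) : ℝ) := by
    push_cast
    linarith [Nat.cast_nonneg (α := ℝ) B]
  generalize ((B + μ + 1 : ℕ) : ℝ) = x at h2 h3
  have h0 : (0 : ℝ) ≤ μ := Nat.cast_nonneg _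
  have h4 := add_one_le_exp (exp x * x ^ 2)
  have h5 : 1 ≤ exp x := one_le_exp (by linarith)
  have h6 : x ≤ x ^ 2 := by nlinarith
  nlinarith

lemma bad_step (b : ℕ) (hb : (1100000 : ℝ) ≤ b) :
    exp (exp ((b + 1 : ℕ) : ℝ) * ((b + 1 : ℕ) : ℝ) ^ 2) ≤ exp (exp b * (b : ℝ) ^ 3) := by
  rw [exp_le_exp]
  push_cast
  rw [exp_add, mul_assoc]
  refine mul_le_mul_of_nonneg_left ?_ (exp_pos _).le
  have h1 : exp 1 * ((b : ℝ) + 1) ^ 2 ≤ 3 * (2 * b) ^ 2 :=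
    mul_le_mul exp_one_lt_three.le (pow_le_pow_left₀ (by linarith) (by linarith) _)
      (by positivity) (by norm_num)
  nlinarith

lemma bad_val_split (Q : Finset ℕ) (p : ℕ) (hp : p ∈ Q) :
    val Q = (p - 1) * val (Q.filter fun q => q < p) * val (Q.filter fun q => p < q) := by
  unfold val
  rw [← prod_filter_mul_prod_filter_not Q (fun q => q < p)]
  have : Q.filter (fun q => ¬ q < p) = insert p (Q.filter fun q => p < q) := by
    ext q
    simp only [mem_filter, mem_insert]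
    constructor
    · rintro ⟨h1, h2⟩
      rcases eq_or_lt_of_le (not_lt.mp h2) with h | h
      · exact Or.inl h.symm
      · exact Or.inr ⟨h1, h⟩
    · rintro (rfl | ⟨h1, h2⟩)
      · exact ⟨hp, lt_irrefl _⟩
      · exact ⟨h1, by omega⟩
  rw [this, prod_insert (by simp)]
  ring

lemma bad_val_le (F : Facts) (Q : Finset ℕ) (b : ℕ) (h : ∀ q ∈ Q, q.Prime ∧ blk q ≤ b) :
    (val Q : ℝ) ≤ Ub b ^ Q.card := by
  unfold val
  rw [Nat.cast_prod, ← prod_const]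
  refine prod_le_prod (fun q _ => Nat.cast_nonneg _) fun q hq => ?_
  exact le_trans (by exact_mod_cast Nat.sub_le q 1) (F.le_Ub q b (h q hq).1.two_le (h q hq).2)

lemma bad_structure (F : Facts) (P : Prof) : ∃ B₀ : ℕ, ∀ B : ℕ, B₀ ≤ B → ∀ v : ℕ, IsTot v →
    (¬ ∃ (Q : Finset ℕ) (μ : ℕ), Good B Q ∧ Small B μ ∧ v = μ * val Q) →
    ∃ b : ℕ, B ≤ b ∧ ∃ w v' : ℕ, v = w * v' ∧ IsTot v' ∧ badW B b w := by
  obtain ⟨B₁, hB₁⟩ := P.growth
  refine ⟨max B₁ 1100000, fun B hB v hv hbad => ?_⟩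
  have hB1 : B₁ ≤ B := (le_max_left _ _).trans hB
  have hB2 : 1100000 ≤ B := (le_max_right _ _).trans hB
  have hbig : ∀ b : ℕ, B ≤ b → (1100000 : ℝ) ≤ b := fun b hb => by exact_mod_cast hB2.trans hb
  obtain ⟨n, hn, rfl⟩ := hv
  set Q := n.primeFactors.filter fun p => B ≤ blk p with hQ
  have hQp : ∀ p ∈ Q, p.Prime ∧ p ∣ n ∧ B ≤ blk p := fun p hp => by
    rw [hQ, mem_filter, Nat.mem_primeFactors] at hp
    exact ⟨hp.1.1, hp.1.2.1, hp.2⟩
  by_cases h1 : ∃ p ∈ Q, p * p ∣ n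
  · obtain ⟨p, hp, k, hk⟩ := h1
    obtain ⟨hp1, -, hp3⟩ := hQp p hp
    have hk1 : 1 ≤ k := by
      rcases Nat.eq_zero_or_pos k with rfl | h
      · omega
      · exact h
    have hpU : (p : ℝ) ≤ Ub (blk p) := F.le_Ub p _ hp1.two_le le_rfl
    have hsq : ((p * p : ℕ) : ℝ) ≤ exp (exp (blk p) * (blk p : ℝ) ^ 3) := by
      refine le_trans ?_ (bad_Ub_pow' (blk p) (hbig _ hp3) 2 (by
        have := hbig _ hp3; push_cast; linarith))
      push_cast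
      rw [pow_two]
      exact mul_le_mul hpU hpU (by positivity) (exp_pos _).le
    have h2 := hp1.two_le
    refine ⟨blk p, hp3, ?_⟩
    by_cases hpk : p ∣ k
    · refine ⟨p * p, Nat.totient k, ?_, ⟨k, hk1, rfl⟩, Nat.mul_pos hp1.pos hp1.pos, hsq,
        Or.inl ⟨p, hp1, rfl, Or.inl rfl⟩⟩
      rw [hk, mul_assoc, Nat.totient_mul_of_prime_of_dvd hp1 (dvd_mul_right _ _),
        Nat.totient_mul_of_prime_of_dvd hp1 hpk, mul_assoc]
    · refine ⟨p * (p - 1), Nat.totient k, ?_, ⟨k, hk1, rfl⟩, Nat.mul_pos hp1.pos (by omega),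
        le_trans (by exact_mod_cast Nat.mul_le_mul_left p (Nat.sub_le p 1)) hsq,
        Or.inl ⟨p, hp1, rfl, Or.inr rfl⟩⟩
      rw [hk, mul_assoc, Nat.totient_mul_of_prime_of_dvd hp1 (dvd_mul_right _ _),
        Nat.totient_mul_of_prime_of_not_dvd hp1 hpk, mul_assoc]
  push Not at h1
  obtain ⟨m, hm⟩ : ∏ q ∈ Q, q ∣ n :=
    Finset.prod_primes_dvd n (fun q hq => (hQp q hq).1.prime) fun q hq => (hQp q hq).2.1
  have hm1 : 1 ≤ m := by
    rcases Nat.eq_zero_or_pos m with rfl | h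
    · omega
    · exact h
  have hqm : ∀ q ∈ Q, q.Prime ∧ ¬ q ∣ m := fun q hq => ⟨(hQp q hq).1, fun h => h1 q hq (by
    rw [hm]; exact Nat.mul_dvd_mul (dvd_prod_of_mem _ hq) h)⟩
  have hml : ∀ l ∈ m.primeFactors, blk l < B := by
    intro l hl
    rw [Nat.mem_primeFactors] at hl
    by_contra hc
    refine (hqm l ?_).2 hl.2.1
    rw [hQ, mem_filter, Nat.mem_primeFactors]
    exact ⟨⟨hl.1, by rw [hm]; exact hl.2.1.mul_left _, by omega⟩, not_lt.mp hc⟩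
  have hv : Nat.totient n = Nat.totient m * val Q := by
    rw [← P.tot_val Q m hqm, mul_comm, ← hm]
  have hpos : ∀ Q' ⊆ Q, 1 ≤ ∏ q ∈ Q', q := fun Q' h => prod_pos fun q hq => (hQp q (h hq)).1.pos
  have htot1 : ∀ Q' ⊆ Q, IsTot (Nat.totient m * val Q') := fun Q' h =>
    ⟨m * ∏ q ∈ Q', q, Nat.mul_pos hm1 (hpos Q' h), P.tot_val Q' m fun q hq => hqm q (h hq)⟩
  have htot2 : ∀ Q' ⊆ Q, IsTot (val Q') := fun Q' h =>
    ⟨1 * ∏ q ∈ Q', q, Nat.mul_pos one_pos (hpos Q' h), by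
      rw [P.tot_val Q' 1 fun q hq => ⟨(hQp q (h hq)).1, (hQp q (h hq)).1.not_dvd_one⟩]; simp⟩
  have hμ1 : 1 ≤ Nat.totient m := Nat.totient_pos.mpr hm1
  by_cases h2 : ∃ p ∈ Q, ¬ Normal p
  · obtain ⟨p, hp, hpN⟩ := h2
    obtain ⟨hp1, -, hp3⟩ := hQp p hp
    have h2 := hp1.two_le
    have hpU : (p : ℝ) ≤ Ub (blk p) := F.le_Ub p _ hp1.two_le le_rfl
    refine ⟨blk p, hp3, p - 1, Nat.totient m * val (Q.erase p), ?_, htot1 _ (erase_subset _ _),
      by omega, ?_, Or.inr (Or.inl ⟨p, hp1, rfl, hpN, rfl⟩)⟩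
    · rw [hv, val, ← mul_prod_erase Q _ hp, val]; ring
    · refine le_trans ?_ (bad_Ub_pow' (blk p) (hbig _ hp3) 1 (by
        have := hbig _ hp3; push_cast; linarith))
      rw [pow_one]
      exact le_trans (by exact_mod_cast Nat.sub_le p 1) hpU
  push Not at h2
  by_cases h3 : (Nat.totient m : ℝ) ≤ exp (exp B * (B : ℝ) ^ 2)
  swap
  · obtain ⟨b, hb1, hb2, hb3⟩ := bad_last B _ (not_le.mp h3).le
    refine ⟨b, hb1, Nat.totient m, val Q, hv, htot2 _ Subset.rfl, hμ1,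
      hb3.trans (bad_step b (hbig b hb1)), Or.inr (Or.inr (Or.inl ⟨hb2, fun l hl => ?_⟩))⟩
    have := (P.small_primes (b + 1) _ ⟨⟨m, hm1, fun l hl => by have := hml l hl; omega, rfl⟩,
      hb3⟩).2 l hl
    exact F.le_Ub l b (Nat.prime_of_mem_primeFactors hl).two_le (by omega)
  have h4 : (Q.filter fun p => (blk p : ℝ) + hh (blk p) < Phi (Q.filter fun q => q < p)).Nonempty := by
    by_contra hc
    rw [not_nonempty_iff_eq_empty, filter_eq_empty_iff] at hc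
    exact hbad ⟨Q, _, ⟨h2, fun p hp => (hQp p hp).2.2, fun p hp => not_lt.mp (hc hp)⟩,
      ⟨⟨m, hm1, hml, rfl⟩, h3⟩, hv⟩
  obtain ⟨p, hp, hmin⟩ := exists_min_image _ (fun q => q) h4
  rw [mem_filter] at hp
  obtain ⟨hp, hviol⟩ := hp
  obtain ⟨hp1, -, hp3⟩ := hQp p hp
  have hgood : Good B (Q.filter fun q => q < p) := by
    refine ⟨fun q hq => h2 q (mem_filter.mp hq).1, fun q hq => (hQp q (mem_filter.mp hq).1).2.2,
      fun q hq => ?_⟩
    obtain ⟨hq1, hq2⟩ := mem_filter.mp hq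
    have : ((Q.filter fun r => r < p).filter fun r => r < q) = Q.filter fun r => r < q := by
      rw [filter_filter]
      exact filter_congr fun r _ => ⟨fun h => h.2, fun h => ⟨h.trans hq2, h⟩⟩
    rw [this]
    by_contra hc
    have := hmin q (mem_filter.mpr ⟨hq1, not_le.mp hc⟩)
    omega
  have hblk : ∀ q ∈ Q.filter fun q => q < p, q.Prime ∧ blk q ≤ blk p := fun q hq =>
    ⟨(hQp q (mem_filter.mp hq).1).1, blk_mono (mem_filter.mp hq).2.le⟩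
  have hbp := hbig _ hp3
  have hcard := (hB₁ B hB1 _ (blk p) (by linarith) hgood
    fun q hq => by exact_mod_cast (hblk q hq).2).1
  have h5 := hp1.two_le
  refine ⟨blk p, hp3, Nat.totient m * (p - 1) * val (Q.filter fun q => q < p),
    val (Q.filter fun q => p < q), ?_, htot2 _ (filter_subset _ _), ?_, ?_,
    Or.inr (Or.inr (Or.inr ⟨p, _, _, h2 p hp, rfl, hgood, fun q hq => (mem_filter.mp hq).2, hμ1,
      hviol, rfl⟩))⟩
  · rw [hv, bad_val_split Q p hp]; ring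
  · exact Nat.mul_pos (Nat.mul_pos hμ1 (by omega)) (val_pos fun q hq => (hblk q hq).1)
  · refine le_trans ?_ (bad_Ub_pow (blk p) hbp ((Q.filter fun q => q < p).card + 1) (by
      push_cast
      linarith [log_le_sub_one_of_pos (by linarith : (0 : ℝ) < blk p)]))
    have hpU : ((p - 1 : ℕ) : ℝ) ≤ Ub (blk p) :=
      le_trans (by exact_mod_cast Nat.sub_le p 1) (F.le_Ub p _ hp1.two_le le_rfl)
    have h6 := bad_val_le F _ _ hblk
    have h7 : (Nat.totient m : ℝ) ≤ exp (exp (blk p) * (blk p : ℝ) ^ 2) := by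
      refine h3.trans ?_
      have : (B : ℝ) ≤ blk p := by exact_mod_cast hp3
      gcongr
    rw [Nat.cast_mul, Nat.cast_mul, mul_assoc, pow_succ' (Ub (blk p))]
    exact mul_le_mul h7 (mul_le_mul hpU h6 (by positivity) (exp_pos _).le) (by positivity)
      (exp_pos _).le

end Vale.Agent.P031
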