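import Vale.Agent.P031.Lattice

/-! The shrunken region gives many distinct cofactors. -/

namespace Vale.Agent.P031

open Finset Filter Real

structure CleanGood (B : ℕ) (Q : Finset ℕ) : Prop where
  normal : ∀ p ∈ Q, Normal p
  big : ∀ p ∈ Q, B ≤ blk p
  con : ∀ p ∈ Q, Phi (Q.filter fun q => q < p) ≤ blk p - hh (blk p)
  sep : ∀ p ∈ Q, ∀ q ∈ Q, q < p → (blk q : ℝ) ≤ blk p - hh (blk p)

structure CleanUnder (B p : ℕ) (Q : Finset ℕ) : Prop where
  np : Normal p
  big : B ≤ blk p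
  good : CleanGood B Q
  con : Phi Q ≤ blk p - hh (blk p)
  sep : ∀ q ∈ Q, (blk q : ℝ) ≤ blk p - hh (blk p)

def CleanColl (B p : ℕ) (Q : Finset ℕ) : Prop :=
  ∃ (p' : ℕ) (Q' : Finset ℕ), p' ≠ p ∧ CleanUnder B p' Q' ∧ (p' - 1) * val Q' = (p - 1) * val Q

def CleanSet (B : ℕ) (Q : Finset ℕ) : Prop := ∀ p ∈ Q, ¬ CleanColl B p (Q.filter fun q => q < p)

theorem clean_hh_pos {b : ℕ} (hb : 1 ≤ b) : 0 < hh b :=
  rpow_pos_of_pos (by exact_mod_cast hb) _

theorem clean_hh_nonneg (b : ℕ) : 0 ≤ hh b := rpow_nonneg (Nat.cast_nonneg _) _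

theorem clean_filter_filter (Q : Finset ℕ) {p q : ℕ} (h : q < p) :
    ((Q.filter fun r => r < p).filter fun r => r < q) = Q.filter fun r => r < q := by
  rw [Finset.filter_filter]
  exact Finset.filter_congr fun r _ => ⟨fun h' => h'.2, fun h' => ⟨h'.trans h, h'⟩⟩

theorem CleanGood.good {B : ℕ} {Q : Finset ℕ} (h : CleanGood B Q) : Good B Q :=
  ⟨h.normal, h.big, fun p hp => by linarith [h.con p hp, clean_hh_nonneg (blk p)]⟩

theorem CleanGood.lower {B : ℕ} {Q : Finset ℕ} (h : CleanGood B Q) (p : ℕ) :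
    CleanGood B (Q.filter fun q => q < p) := by
  refine ⟨fun q hq => h.normal q (Finset.mem_filter.1 hq).1,
    fun q hq => h.big q (Finset.mem_filter.1 hq).1, fun q hq => ?_,
    fun q hq r hr => h.sep q (Finset.mem_filter.1 hq).1 r (Finset.mem_filter.1 hr).1⟩
  rw [clean_filter_filter Q (Finset.mem_filter.1 hq).2]
  exact h.con q (Finset.mem_filter.1 hq).1

theorem CleanGood.under {B : ℕ} {Q : Finset ℕ} (h : CleanGood B Q) {p : ℕ} (hp : p ∈ Q) :
    CleanUnder B p (Q.filter fun q => q < p) :=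
  ⟨h.normal p hp, h.big p hp, h.lower p, h.con p hp,
    fun q hq => h.sep p hp q (Finset.mem_filter.1 hq).1 (Finset.mem_filter.1 hq).2⟩

theorem CleanGood.strictMonoOn {B : ℕ} (hB : 1 ≤ B) {Q : Finset ℕ} (h : CleanGood B Q) :
    StrictMonoOn blk Q := by
  intro q hq p hp hqp
  have h1 := h.sep p hp q hq hqp
  have h2 := clean_hh_pos (hB.trans (h.big p hp))
  have : (blk q : ℝ) < blk p := by linarith
  exact_mod_cast this

theorem CleanUnder.lt {B p : ℕ} (hB : 1 ≤ B) {Q : Finset ℕ} (h : CleanUnder B p Q) :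
    ∀ q ∈ Q, q < p := fun q hq => by
  have h1 := h.sep q hq
  have h2 := clean_hh_pos (hB.trans h.big)
  have : (blk q : ℝ) < blk p := by linarith
  exact lt_of_blk_lt (by exact_mod_cast this)

theorem clean_filter_insert_self {p : ℕ} {Q : Finset ℕ} (h : ∀ q ∈ Q, q < p) :
    ((insert p Q).filter fun q => q < p) = Q := by
  rw [Finset.filter_insert, if_neg (lt_irrefl p), Finset.filter_true_of_mem h]

theorem clean_filter_insert {p r : ℕ} {Q : Finset ℕ} (h : r < p) :
    ((insert p Q).filter fun q => q < r) = Q.filter fun q => q < r := by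
  rw [Finset.filter_insert, if_neg (not_lt.2 h.le)]

theorem CleanUnder.insert {B p : ℕ} (hB : 1 ≤ B) {Q : Finset ℕ} (h : CleanUnder B p Q) :
    CleanGood B (insert p Q) := by
  have hlt := h.lt hB
  refine ⟨fun q hq => ?_, fun q hq => ?_, fun q hq => ?_, fun q hq r hr hrq => ?_⟩
  · rcases Finset.mem_insert.1 hq with rfl | hq
    · exact h.np
    · exact h.good.normal q hq
  · rcases Finset.mem_insert.1 hq with rfl | hq
    · exact h.big
    · exact h.good.big q hq
  · rcases Finset.mem_insert.1 hq with rfl | hq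
    · rw [clean_filter_insert_self hlt]
      exact h.con
    · rw [clean_filter_insert (hlt q hq)]
      exact h.good.con q hq
  · rcases Finset.mem_insert.1 hr with rfl | hr'
    · rcases Finset.mem_insert.1 hq with rfl | hq'
      · exact absurd hrq (lt_irrefl _)
      · exact absurd hrq (not_lt.2 (hlt q hq').le)
    · rcases Finset.mem_insert.1 hq with rfl | hq'
      · exact h.sep r hr'
      · exact h.good.sep q hq' r hr' hrq

theorem clean_val_insert {p : ℕ} {Q : Finset ℕ} (h : p ∉ Q) :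
    val (insert p Q) = (p - 1) * val Q := Finset.prod_insert h

theorem clean_max_split {Q : Finset ℕ} (h : Q.Nonempty) :
    ∃ p ∈ Q, insert p (Q.filter fun q => q < p) = Q ∧
      val Q = (p - 1) * val (Q.filter fun q => q < p) := by
  have h1 : insert (Q.max' h) (Q.filter fun q => q < Q.max' h) = Q := by
    ext q
    simp only [Finset.mem_insert, Finset.mem_filter]
    constructor
    · rintro (rfl | hq)
      · exact Q.max'_mem h
      · exact hq.1
    · intro hq
      rcases (Q.le_max' q hq).eq_or_lt with h2 | h2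
      · exact Or.inl h2
      · exact Or.inr ⟨hq, h2⟩
  refine ⟨Q.max' h, Q.max'_mem h, h1, ?_⟩
  rw [← clean_val_insert (by simp), h1]

theorem clean_normal_three {p : ℕ} (h : Normal p) : 3 ≤ p := by
  obtain ⟨hp, -, l, hl, hlp, -⟩ := h
  have h1 := hp.two_le
  have h2 := Nat.le_of_dvd (by omega) hlp
  have h3 := hl.two_le
  omega

theorem clean_val_eq_one {B : ℕ} {Q : Finset ℕ} (h : CleanGood B Q) (h1 : val Q = 1) : Q = ∅ := by
  by_contra hne
  obtain ⟨p, hp, -, h2⟩ := clean_max_split (Finset.nonempty_iff_ne_empty.2 hne)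
  have h3 := clean_normal_three (h.normal p hp)
  have h4 := Nat.eq_one_of_mul_eq_one_right (h2.symm.trans h1)
  omega

theorem clean_val_inj {B : ℕ} (Q : Finset ℕ) : CleanGood B Q → CleanSet B Q →
    ∀ Q', CleanGood B Q' → val Q = val Q' → Q = Q' := by
  induction Q using Finset.strongInduction with
  | H Q ih =>
    intro hQ hc Q' hQ' hv
    rcases Q.eq_empty_or_nonempty with rfl | hne
    · exact (clean_val_eq_one hQ' hv.symm).symm
    rcases Q'.eq_empty_or_nonempty with rfl | hne'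
    · exact clean_val_eq_one hQ hv
    obtain ⟨p, hp, h1, h2⟩ := clean_max_split hne
    obtain ⟨p', hp', h1', h2'⟩ := clean_max_split hne'
    have hpp : p' = p := by
      by_contra h3
      exact hc p hp ⟨p', _, h3, hQ'.under hp', by rw [← h2, ← h2', hv]⟩
    subst hpp
    have h3 := clean_normal_three (hQ.normal p' hp)
    have h4 := ih (Q.filter fun q => q < p') (Finset.filter_ssubset.2 ⟨p', hp, lt_irrefl _⟩)
      (hQ.lower p') (fun q hq => by
        rw [clean_filter_filter Q (Finset.mem_filter.1 hq).2]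
        exact hc q (Finset.mem_filter.1 hq).1) _ (hQ'.lower p')
      (Nat.eq_of_mul_eq_mul_left (show 0 < p' - 1 by omega) (by rw [← h2, ← h2', hv]))
    rw [← h1, ← h1', h4]

/-- `Phi` in terms of the blocks -/
noncomputable def cleanPhi (C : Finset ℕ) : ℝ :=
  ∑ b ∈ C, aa (C.filter fun b' => b ≤ b').card * (b : ℝ)

theorem cleanPhi_image {α : Type*} [LinearOrder α] (s : Finset α) (g : α → ℕ)
    (hg : StrictMonoOn g s) :
    cleanPhi (s.image g) = ∑ a ∈ s, aa (s.filter fun a' => a ≤ a').card * (g a : ℝ) := by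
  rw [cleanPhi, Finset.sum_image hg.injOn]
  refine Finset.sum_congr rfl fun a ha => ?_
  rw [Finset.filter_image, Finset.card_image_of_injOn
    (hg.injOn.mono (Finset.coe_subset.2 (Finset.filter_subset _ _))),
    Finset.filter_congr fun a' ha' => hg.le_iff_le ha ha']

theorem cleanPhi_vec {k : ℕ} {c : Fin k → ℕ} (hc : StrictMono c) {j : ℕ} (hj : j ≤ k) :
    cleanPhi ((univ.filter fun i : Fin k => (i : ℕ) < j).image c) = PhiV c j := by
  rw [cleanPhi_image _ _ (hc.strictMonoOn _), PhiV, Finset.sum_filter]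
  refine Finset.sum_congr rfl fun i _ => ?_
  split_ifs with hi
  · congr 2
    rw [← Finset.card_image_of_injective _ Fin.val_injective, ← Nat.card_Ico]
    congr 1
    ext n
    simp only [Finset.mem_image, Finset.mem_filter, Finset.mem_univ, true_and, Finset.mem_Ico]
    constructor
    · rintro ⟨a, ⟨h1, h2⟩, rfl⟩
      exact ⟨h2, h1⟩
    · rintro ⟨h1, h2⟩
      exact ⟨⟨n, by omega⟩, ⟨h2, h1⟩, rfl⟩
  · rfl

theorem clean_size (F : Facts) {B p : ℕ} {Q : Finset ℕ} (hB : 7 ^ 4 ≤ B) (h : CleanUnder B p Q)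
    (hc : (Q.card : ℝ) ≤ 10 * log (blk p)) :
    (((p - 1) * val Q : ℕ) : ℝ) ≤ exp (2 * exp ((blk p : ℝ) + 11)) := by
  have h1 : ((p - 1 : ℕ) : ℝ) ≤ exp (exp ((blk p : ℝ) + 11)) :=
    le_trans (by exact_mod_cast Nat.sub_le p 1) (F.le_Ub p _ h.np.1.two_le le_rfl)
  have h2 : ((val Q : ℕ) : ℝ) ≤ exp (exp ((blk p : ℝ) - hh (blk p) + 11)) ^ Q.card := by
    unfold val
    push_cast
    rw [← Finset.prod_const]
    refine Finset.prod_le_prod (fun q _ => Nat.cast_nonneg _) fun q hq => ?_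
    refine le_trans (by exact_mod_cast Nat.sub_le q 1)
      ((F.le_Ub q _ (h.good.normal q hq).1.two_le le_rfl).trans ?_)
    exact exp_le_exp.2 (exp_le_exp.2 (by linarith [h.sep q hq]))
  obtain ⟨q, hq0, hq4, hq3, -⟩ := lattice_hh (blk p) (Nat.cast_nonneg _)
  have hq : 7 ≤ q := by
    refine le_of_pow_le_pow_left₀ (n := 4) (by norm_num) hq0 ?_
    rw [hq4]
    exact_mod_cast hB.trans h.big
  have h3 : (Q.card : ℝ) ≤ exp (hh (blk p)) := by
    refine hc.trans ?_
    rw [hq3, ← hq4, Real.log_pow]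
    have h4 := Real.log_le_sub_one_of_pos (by linarith : 0 < q)
    have h5 := Real.add_one_le_exp (q ^ 3)
    have h6 : 49 * q ≤ q ^ 3 := by
      have h7 : 49 ≤ q ^ 2 := by nlinarith
      nlinarith
    push_cast
    linarith
  have h4 : exp (exp ((blk p : ℝ) - hh (blk p) + 11)) ^ Q.card ≤ exp (exp ((blk p : ℝ) + 11)) := by
    rw [← exp_nat_mul]
    refine exp_le_exp.2 ((mul_le_mul_of_nonneg_right h3 (exp_pos _).le).trans (le_of_eq ?_))
    rw [← exp_add]
    congr 1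
    ring
  rw [Nat.cast_mul, two_mul, exp_add]
  exact mul_le_mul h1 (h2.trans h4) (Nat.cast_nonneg _) (exp_pos _).le

theorem clean_blk_le (F : Facts) {p p' w : ℕ} (hp : 3 ≤ p) (h1 : p - 1 ≤ w)
    (h2 : (w : ℝ) ≤ exp (2 * exp ((blk p' : ℝ) + 11))) : blk p ≤ blk p' + 23 := by
  have h3 := F.ge_blk p (blk p) (by omega) le_rfl
  have h4 : (p : ℝ) ≤ 2 * w := by exact_mod_cast (by omega : p ≤ 2 * w)
  have h5 : 1 ≤ exp ((blk p' : ℝ) + 11) := one_le_exp (by positivity)
  have h6 : (2 : ℝ) ≤ exp 1 := by linarith [add_one_le_exp (1 : ℝ)]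
  have h7 : (3 : ℝ) ≤ exp 2 := by linarith [add_one_le_exp (2 : ℝ)]
  have h8 : (p : ℝ) ≤ exp (exp (2 + ((blk p' : ℝ) + 11))) := by
    calc (p : ℝ) ≤ exp 1 * exp (2 * exp ((blk p' : ℝ) + 11)) :=
          h4.trans (mul_le_mul h6 h2 (Nat.cast_nonneg _) (exp_pos _).le)
      _ ≤ _ := by
          rw [← exp_add, exp_add 2]
          refine exp_le_exp.2 ?_
          nlinarith
  have h9 := exp_le_exp.1 (exp_le_exp.1 (h3.trans h8))
  have : (blk p : ℝ) ≤ blk p' + 23 := by linarith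
  exact_mod_cast this

theorem clean_top {B₁ b₁ B b p : ℕ} {Q : Finset ℕ}
    (hg : ∀ B : ℕ, B₁ ≤ B → ∀ (Q : Finset ℕ) (σ : ℝ), 1 ≤ σ → Good B Q →
      (∀ q ∈ Q, (blk q : ℝ) ≤ σ) → (Q.card : ℝ) ≤ 10 * log σ ∧ ∑ q ∈ Q, exp (-(blk q : ℝ)) ≤ 1)
    (hB₁ : B₁ ≤ B) (hb₁ : b₁ ≤ B) (hb : 7 ^ 4 ≤ b) (h : CleanUnder B p Q)
    (h1 : b ≤ blk p + 30) (h2 : blk p ≤ b + 30) : Top b₁ b p Q 1 := by
  have hb' : (7 ^ 4 : ℝ) ≤ b := by exact_mod_cast hb
  have h1' : (b : ℝ) ≤ blk p + 30 := by exact_mod_cast h1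
  have h2' : (blk p : ℝ) ≤ b + 30 := by exact_mod_cast h2
  have key : (blk p : ℝ) - hh (blk p) ≤ b - hh b / 2 := by
    obtain ⟨q, hq0, hq4, hq3, -⟩ := lattice_hh b (Nat.cast_nonneg _)
    obtain ⟨r, hr0, hr4, hr3, -⟩ := lattice_hh (blk p) (Nat.cast_nonneg _)
    have hq : 7 ≤ q := le_of_pow_le_pow_left₀ (n := 4) (by norm_num) hq0 (by rwa [hq4])
    have hr : 9 / 10 * q ≤ r := by
      refine le_of_pow_le_pow_left₀ (n := 4) (by norm_num) hr0 ?_
      rw [mul_pow, hq4, hr4]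
      norm_num
      linarith
    have h3 : (9 / 10 * q) ^ 3 ≤ r ^ 3 := pow_le_pow_left₀ (by positivity) hr _
    have h4 : (7 : ℝ) ^ 3 ≤ q ^ 3 := pow_le_pow_left₀ (by norm_num) hq _
    rw [hq3, hr3]
    rw [mul_pow] at h3
    norm_num at h3 h4
    linarith
  have hb1 : (1 : ℝ) ≤ b := le_trans (by norm_num) hb'
  have h3 := clean_hh_nonneg b
  refine ⟨h.np, fun q hq => ⟨h.good.normal q hq, hb₁.trans (h.good.big q hq),
    (h.sep q hq).trans key⟩, h1, h2, h.con.trans key, ?_, le_rfl, ?_⟩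
  · have h4 := (hg B hB₁ Q b hb1 h.good.good fun q hq => by linarith [h.sep q hq]).1
    linarith [log_nonneg hb1]
  · rw [Nat.cast_one]
    exact one_le_exp (by positivity)

theorem clean_exp_aux (b : ℕ) (c e : ℝ) (he : 0 ≤ e) :
    exp (-(b : ℝ)) * e * (1 + c * exp ((b : ℝ) + 11)) ≤ (1 + c * exp 11) * e := by
  have h1 : exp (-(b : ℝ)) ≤ 1 := exp_le_one_iff.2 (by simp)
  have h2 : exp (-(b : ℝ)) * exp ((b : ℝ) + 11) = exp 11 := by
    rw [← exp_add]
    congr 1
    ring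
  have h3 := mul_le_mul_of_nonneg_right h1 he
  calc _ = exp (-(b : ℝ)) * e + c * (exp (-(b : ℝ)) * exp ((b : ℝ) + 11)) * e := by ring
    _ ≤ _ := by rw [h2]; linarith

theorem clean_coll_mass (F : Facts) (P : Prof) (Co : CollideStmt) : ∃ B₀ : ℕ, ∀ B : ℕ, B₀ ≤ B →
    ∀ b : ℕ, B ≤ b → ∀ S : Finset (ℕ × Finset ℕ),
      (∀ T ∈ S, blk T.1 = b ∧ CleanUnder B T.1 T.2 ∧ CleanColl B T.1 T.2) →
      ∑ T ∈ S, (1 : ℝ) / ((T.1 - 1) * val T.2 : ℕ) ≤ (1 + 2 * exp 11) * eps b := by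
  classical
  obtain ⟨b₁, σ₀, hCo⟩ := Co
  obtain ⟨B₁, hg⟩ := P.growth
  refine ⟨max (max b₁ σ₀) (max B₁ (7 ^ 4)), fun B hB b hb S hS => ?_⟩
  simp only [max_le_iff] at hB
  obtain ⟨⟨hb₁, hσ₀⟩, hB₁, hB7⟩ := hB
  have hsz : ∀ p Q, CleanUnder B p Q →
      (((p - 1) * val Q : ℕ) : ℝ) ≤ exp (2 * exp ((blk p : ℝ) + 11)) := fun p Q h => by
    have h1 : 1 ≤ blk p := le_trans (by norm_num) (hB7.trans h.big)
    exact clean_size F hB7 h (hg B hB₁ Q (blk p) (by exact_mod_cast h1) h.good.good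
      fun q hq => by linarith [h.sep q hq, clean_hh_nonneg (blk p)]).1
  have hvp : ∀ p Q, CleanUnder B p Q → 0 < val Q := fun p Q h =>
    val_pos fun q hq => (h.good.normal q hq).1
  have he : 0 ≤ eps b := (exp_pos _).le
  have h1 := F.abel S (fun T => (T.1 - 1) * val T.2) (exp (-(b : ℝ)) * eps b)
    (exp (2 * exp ((b : ℝ) + 11))) (one_le_exp (by positivity)) (by positivity)
    (fun T hT => by
      obtain ⟨h1, h2, -⟩ := hS T hT
      have h3 := clean_normal_three h2.np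
      refine ⟨Nat.mul_pos (by omega) (hvp _ _ h2), ?_⟩
      rw [← h1]
      exact hsz _ _ h2)
    (fun m => by
      have h2 := hCo b (hσ₀.trans hb) m (Nat.cast_nonneg m)
        ((S.filter fun T => (T.1 - 1) * val T.2 ≤ m).image fun T => (T.1, T.2, 1)) (by
          intro T' hT'
          obtain ⟨T, hT, rfl⟩ := Finset.mem_image.1 hT'
          obtain ⟨hT1, hT2⟩ := Finset.mem_filter.1 hT
          obtain ⟨h1, h2, p', Q', h3, h4, h5⟩ := hS T hT1
          have h6 := clean_blk_le F (clean_normal_three h2.np)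
            (Nat.le_mul_of_pos_right _ (hvp _ _ h2)) (h5 ▸ hsz _ _ h4)
          have h7 := clean_blk_le F (clean_normal_three h4.np)
            (Nat.le_mul_of_pos_right _ (hvp _ _ h4)) (h5.symm ▸ hsz _ _ h2)
          refine ⟨clean_top (p := T.1) hg hB₁ hb₁ (hB7.trans hb) h2 (by omega) (by omega), ?_, p', Q', 1,
            clean_top hg hB₁ hb₁ (hB7.trans hb) h4 (by omega) (by omega), h3, ?_⟩
          · simp only [one_mul]
            exact_mod_cast hT2
          · simp only [one_mul]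
            exact h5)
      rw [Finset.card_image_of_injective _ (fun T T' h => by
        simp only [Prod.mk.injEq] at h
        exact Prod.ext h.1 h.2.1)] at h2
      linarith)
  rw [log_exp] at h1
  exact h1.trans (clean_exp_aux b 2 _ he)

theorem clean_mem_blkSet {p b : ℕ} (h : p ∈ blkSet b) :
    p.Prime ∧ blk p = b ∧ (p : ℝ) ≤ Ub b := by
  obtain ⟨h1, h2, h3⟩ := Finset.mem_filter.1 h
  exact ⟨h2, h3, (Nat.le_floor_iff (exp_pos _).le).1
    (Nat.lt_succ_iff.1 (Finset.mem_range.1 h1))⟩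

open Classical in
theorem clean_normal_mass (F : Facts) (N : NormalStmt) : ∃ b₀ : ℕ, ∀ b : ℕ, b₀ ≤ b →
    1 - exp (-(b : ℝ)) - (1 + exp 11) * eps b ≤
      ∑ p ∈ (blkSet b).filter Normal, (1 : ℝ) / (p - 1 : ℕ) := by
  obtain ⟨b₁, hN⟩ := N
  obtain ⟨b₂, hb⟩ := F.block
  refine ⟨max b₁ b₂, fun b h => ?_⟩
  have he : 0 ≤ eps b := (exp_pos _).le
  have h1 := F.abel ((blkSet b).filter fun p => ¬ Normal p) (fun p => p - 1)
    (exp (-(b : ℝ)) * eps b) (Ub b) (one_le_exp (exp_pos _).le) (by positivity)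
    (fun p hp => by
      obtain ⟨h1, -, h3⟩ := clean_mem_blkSet (Finset.mem_filter.1 hp).1
      have := h1.two_le
      exact ⟨by omega, le_trans (by exact_mod_cast Nat.sub_le p 1) h3⟩)
    (fun m => by
      have h2 := hN b ((le_max_left _ _).trans h) m (Nat.cast_nonneg m)
      rw [Nat.floor_natCast] at h2
      refine le_trans (Nat.cast_le.2 (Finset.card_le_card fun p hp => ?_))
        (h2.trans (le_of_eq (by ring)))
      obtain ⟨h3, h4⟩ := Finset.mem_filter.1 hp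
      obtain ⟨h5, h6⟩ := Finset.mem_filter.1 h3
      obtain ⟨h7, h8, -⟩ := clean_mem_blkSet h5
      exact Finset.mem_filter.2 ⟨Finset.mem_range.2 (by omega), h7, h8, h6⟩)
  rw [Ub, log_exp] at h1
  have h2 := clean_exp_aux b 1 _ he
  rw [one_mul, one_mul] at h2
  have h3 := (hb b ((le_max_right _ _).trans h)).2
  have h4 : ∑ p ∈ blkSet b, (1 : ℝ) / p ≤ ∑ p ∈ blkSet b, (1 : ℝ) / (p - 1 : ℕ) := by
    refine Finset.sum_le_sum fun p hp => ?_
    have := (clean_mem_blkSet hp).1.two_le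
    exact one_div_le_one_div_of_le (by exact_mod_cast (by omega : 0 < p - 1))
      (by exact_mod_cast Nat.sub_le p 1)
  rw [← Finset.sum_filter_add_sum_filter_not (blkSet b) Normal fun p => (1 : ℝ) / (p - 1 : ℕ)] at h4
  linarith

theorem clean_eta : ∃ b₀ : ℕ, ∀ b : ℕ, b₀ ≤ b →
    exp (-(b : ℝ)) + (1 + 2 * exp 11) * eps b ≤ (1 / (b : ℝ)) ^ 2 := by
  have h1 : Tendsto (fun b : ℕ => (b : ℝ) ^ (1 / 4 : ℝ)) atTop atTop :=
    (tendsto_rpow_atTop (by norm_num)).comp tendsto_natCast_atTop_atTop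
  have h2 := ((tendsto_pow_mul_exp_neg_atTop_nhds_zero 8).comp h1).const_mul (2 + 2 * exp 11)
  rw [mul_zero] at h2
  obtain ⟨b₀, h3⟩ := eventually_atTop.1 ((h2.eventually (ge_mem_nhds one_pos)).and
    (eventually_ge_atTop 1))
  refine ⟨b₀, fun b hb => ?_⟩
  obtain ⟨h4, h5⟩ := h3 b hb
  have h6 : (1 : ℝ) ≤ b := by exact_mod_cast h5
  have h7 : ((b : ℝ) ^ (1 / 4 : ℝ)) ^ 8 = (b : ℝ) ^ 2 := by
    rw [← rpow_natCast, ← rpow_mul (by linarith)]
    norm_num
  have h8 : exp (-(b : ℝ)) ≤ eps b := by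
    refine exp_le_exp.2 (neg_le_neg ?_)
    exact rpow_le_self_of_one_le h6 (by norm_num)
  simp only [Function.comp_apply, h7] at h4
  rw [div_pow, one_pow, le_div_iff₀ (by positivity)]
  have h9 := mul_le_mul_of_nonneg_right h8 (by positivity : 0 ≤ (b : ℝ) ^ 2)
  unfold eps at h9 ⊢
  linarith

open Classical in
/-- clean good sets with prescribed blocks -/
noncomputable def cleanFam (B : ℕ) (C : Finset ℕ) : Finset (Finset ℕ) :=
  (C.biUnion blkSet).powerset.filter fun Q => CleanGood B Q ∧ CleanSet B Q ∧ Q.image blk = C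

theorem clean_mass (F : Facts) (P : Prof) (N : NormalStmt) (Co : CollideStmt) :
    ∃ B₀ : ℕ, ∀ B : ℕ, B₀ ≤ B → ∀ C : Finset ℕ,
      (∀ b ∈ C, B ≤ b ∧ cleanPhi (C.filter fun b' => b' < b) ≤ b - hh b ∧
        ∀ b' ∈ C, b' < b → (b' : ℝ) ≤ b - hh b) →
      1 - 2 * ∑ b ∈ C, (1 / (b : ℝ)) ^ 2 ≤ ∑ Q ∈ cleanFam B C, (1 : ℝ) / val Q := by
  classical
  obtain ⟨B₁, h₁⟩ := clean_coll_mass F P Co
  obtain ⟨B₂, h₂⟩ := clean_normal_mass F N
  obtain ⟨B₃, h₃⟩ := clean_eta
  refine ⟨max (max B₁ B₂) (max B₃ 1), fun B hB C => ?_⟩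
  simp only [max_le_iff] at hB
  obtain ⟨⟨hB₁, hB₂⟩, hB₃, hB1⟩ := hB
  induction C using Finset.induction_on_max with
  | empty =>
    intro _
    have : (∅ : Finset ℕ) ∈ cleanFam B ∅ :=
      Finset.mem_filter.2 ⟨by simp, ⟨by simp, by simp, by simp, by simp⟩, by simp [CleanSet], by simp⟩
    have h1 := Finset.single_le_sum (f := fun Q => (1 : ℝ) / val Q) (fun Q _ => by positivity) this
    simpa [val] using h1
  | insert b C hbC ih =>
    intro hC
    have ih' := ih fun b' hb' => by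
      obtain ⟨h1, h2, h3⟩ := hC b' (Finset.mem_insert_of_mem hb')
      rw [clean_filter_insert (hbC b' hb')] at h2
      exact ⟨h1, h2, fun b'' hb'' => h3 b'' (Finset.mem_insert_of_mem hb'')⟩
    obtain ⟨hb1, hb2, hb3⟩ := hC b (Finset.mem_insert_self _ _)
    rw [clean_filter_insert_self hbC] at hb2
    set T := ((blkSet b).filter Normal) ×ˢ cleanFam B C with hT
    have hund : ∀ t ∈ T, blk t.1 = b ∧ CleanUnder B t.1 t.2 := fun t ht => by
      obtain ⟨h1, h2⟩ := Finset.mem_product.1 ht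
      obtain ⟨h3, h4⟩ := Finset.mem_filter.1 h1
      obtain ⟨-, h5, -, h6⟩ := Finset.mem_filter.1 h2
      obtain ⟨-, h7, -⟩ := clean_mem_blkSet h3
      refine ⟨h7, h4, h7 ▸ hb1, h5, ?_, fun q hq => ?_⟩
      · rw [h7, Phi, ← cleanPhi_image _ _ (h5.strictMonoOn hB1), h6]
        exact hb2
      · have h8 : blk q ∈ C := h6 ▸ Finset.mem_image_of_mem blk hq
        rw [h7]
        exact hb3 _ (Finset.mem_insert_of_mem h8) (hbC _ h8)
    have hA : ∑ t ∈ T.filter (fun t => ¬ CleanColl B t.1 t.2), (1 : ℝ) / ((t.1 - 1) * val t.2 : ℕ) ≤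
        ∑ Q ∈ cleanFam B (insert b C), (1 : ℝ) / val Q := by
      have hnot : ∀ t ∈ T, t.1 ∉ t.2 := fun t ht h => lt_irrefl _ ((hund t ht).2.lt hB1 _ h)
      have hinj : Set.InjOn (fun t : ℕ × Finset ℕ => insert t.1 t.2)
          (T.filter fun t => ¬ CleanColl B t.1 t.2 : Finset _) := by
        intro t ht t' ht' h
        have ht1 := (Finset.mem_filter.1 ht).1
        have ht1' := (Finset.mem_filter.1 ht').1
        simp only at h
        have h1 : t.1 = t'.1 := by
          by_contra hne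
          have h2 : t.1 ∈ t'.2 :=
            (Finset.mem_insert.1 (h ▸ Finset.mem_insert_self t.1 t.2)).resolve_left hne
          have h3 : t'.1 ∈ t.2 :=
            (Finset.mem_insert.1 (h.symm ▸ Finset.mem_insert_self t'.1 t'.2)).resolve_left
              (Ne.symm hne)
          exact lt_asymm ((hund t ht1).2.lt hB1 _ h3) ((hund t' ht1').2.lt hB1 _ h2)
        refine Prod.ext h1 ?_
        rw [← Finset.erase_insert (hnot t ht1), h, h1, Finset.erase_insert (hnot t' ht1')]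
      calc _ = ∑ t ∈ T.filter (fun t => ¬ CleanColl B t.1 t.2),
            (1 : ℝ) / val (insert t.1 t.2) := Finset.sum_congr rfl fun t ht => by
              rw [clean_val_insert (hnot t (Finset.mem_filter.1 ht).1)]
        _ = ∑ Q ∈ (T.filter fun t => ¬ CleanColl B t.1 t.2).image (fun t => insert t.1 t.2),
            (1 : ℝ) / val Q := (Finset.sum_image (f := fun Q => (1 : ℝ) / val Q) hinj).symm
        _ ≤ _ := by
          refine Finset.sum_le_sum_of_subset_of_nonneg (Finset.image_subset_iff.2 fun t ht => ?_)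
            fun _ _ _ => by positivity
          obtain ⟨ht1, ht2⟩ := Finset.mem_filter.1 ht
          obtain ⟨h1, h2⟩ := Finset.mem_product.1 ht1
          obtain ⟨h3, -, h5, h6⟩ := Finset.mem_filter.1 h2
          obtain ⟨h7, h8⟩ := hund t ht1
          refine Finset.mem_filter.2 ⟨Finset.mem_powerset.2 ?_, h8.insert hB1, fun q hq => ?_, ?_⟩
          · rw [Finset.biUnion_insert, Finset.insert_subset_iff]
            exact ⟨Finset.mem_union_left _ (Finset.mem_filter.1 h1).1,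
              (Finset.mem_powerset.1 h3).trans Finset.subset_union_right⟩
          · rcases Finset.mem_insert.1 hq with rfl | hq
            · rwa [clean_filter_insert_self (h8.lt hB1)]
            · rw [clean_filter_insert (h8.lt hB1 q hq)]
              exact h5 q hq
          · rw [Finset.image_insert, h7, h6]
    have hBm := h₁ B hB₁ b hb1 (T.filter fun t => CleanColl B t.1 t.2) fun t ht =>
      ⟨(hund t (Finset.mem_filter.1 ht).1).1, (hund t (Finset.mem_filter.1 ht).1).2,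
        (Finset.mem_filter.1 ht).2⟩
    have hsum : ∑ t ∈ T, (1 : ℝ) / ((t.1 - 1) * val t.2 : ℕ) =
        (∑ p ∈ (blkSet b).filter Normal, (1 : ℝ) / (p - 1 : ℕ)) *
          ∑ Q ∈ cleanFam B C, (1 : ℝ) / val Q := by
      rw [Finset.sum_mul_sum, hT, Finset.sum_product]
      refine Finset.sum_congr rfl fun p _ => Finset.sum_congr rfl fun Q _ => ?_
      push_cast
      ring
    rw [← Finset.sum_filter_add_sum_filter_not T fun t => CleanColl B t.1 t.2] at hsum
    have h4 := h₂ b (hB₂.trans hb1)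
    have h5 := h₃ b (hB₃.trans hb1)
    have h6 : 0 ≤ eps b := (exp_pos _).le
    have h7 : 0 ≤ exp 11 * eps b := by positivity
    have h8 := exp_pos (-(b : ℝ))
    have h9 : (1 / (b : ℝ)) ^ 2 ≤ 1 := by
      have : (1 : ℝ) ≤ b := by exact_mod_cast hB1.trans hb1
      exact pow_le_one₀ (by positivity) (div_le_one_of_le₀ this (by positivity))
    have h10 : (1 - (1 / (b : ℝ)) ^ 2) * (1 - 2 * ∑ b ∈ C, (1 / (b : ℝ)) ^ 2) ≤
        (∑ p ∈ (blkSet b).filter Normal, (1 : ℝ) / (p - 1 : ℕ)) *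
          ∑ Q ∈ cleanFam B C, (1 : ℝ) / val Q :=
      (mul_le_mul_of_nonneg_left ih' (by linarith)).trans
        (mul_le_mul_of_nonneg_right (by linarith) (Finset.sum_nonneg fun _ _ => by positivity))
    have h11 : 0 ≤ (1 / (b : ℝ)) ^ 2 * ∑ b ∈ C, (1 / (b : ℝ)) ^ 2 := by positivity
    rw [Finset.sum_insert fun h => lt_irrefl _ (hbC b h)]
    linarith

theorem clean (F : Facts) (P : Prof) (N : NormalStmt) (Co : CollideStmt) (Sz : SizeStmt) :
    CleanStmt := by
  classical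
  obtain ⟨B₁, h₁⟩ := clean_mass F P N Co
  obtain ⟨B₂, h₂⟩ := Sz
  refine ⟨max (max B₁ B₂) 5, ?_⟩
  filter_upwards [h₂, eventually_ge_atTop 0] with x hx hx0 B hB hBx k
  simp only [max_le_iff] at hB
  obtain ⟨⟨hB₁, hB₂⟩, hB5⟩ := hB
  set s := A ⌊x⌋₊ with hs
  have hR : ∀ c ∈ Rm B k s, StrictMono c ∧ (∀ i, B ≤ c i) ∧
      (∀ j : Fin k, PhiV c j ≤ c j - hh (c j)) ∧
      (∀ i j : Fin k, i < j → (c i : ℝ) ≤ c j - hh (c j)) ∧
      PhiV c k ≤ s - hh s ∧ ∀ i, (c i : ℝ) ≤ s - hh s := fun c hc => by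
    have h1 := (Finset.mem_filter.1 hc).2
    refine ⟨fun i j hij => ?_, h1⟩
    have h2 := h1.2.2.1 i j hij
    have h3 := clean_hh_pos (b := c j) (le_trans (by omega) (h1.1 j))
    have : (c i : ℝ) < c j := by linarith
    exact_mod_cast this
  have hm : ∀ c ∈ Rm B k s, (1 / 2 : ℝ) ≤ ∑ Q ∈ cleanFam B (univ.image c), (1 : ℝ) / val Q := by
    intro c hc
    obtain ⟨h1, h2, h3, h4, -, -⟩ := hR c hc
    refine le_trans ?_ (h₁ B hB₁ (univ.image c) fun b hb => ?_)
    · have h5 := F.sum_sq (univ.image c) 4 (by norm_num) fun l hl => by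
        obtain ⟨i, -, rfl⟩ := Finset.mem_image.1 hl
        have := h2 i
        omega
      push_cast at h5
      linarith
    · obtain ⟨j, -, rfl⟩ := Finset.mem_image.1 hb
      refine ⟨h2 j, ?_, fun b' hb' hlt => ?_⟩
      · rw [Finset.filter_image, Finset.filter_congr (q := fun i : Fin k => (i : ℕ) < j)
          fun i _ => h1.lt_iff_lt, cleanPhi_vec h1 j.2.le]
        exact h3 j
      · obtain ⟨i, -, rfl⟩ := Finset.mem_image.1 hb'
        exact h4 i j (h1.lt_iff_lt.1 hlt)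
  set T := (Rm B k s).sigma fun c => cleanFam B (univ.image c) with hT
  have hinj : Set.InjOn (fun t : (_ : Fin k → ℕ) × Finset ℕ => val t.2) T := by
    rintro ⟨c, Q⟩ ht ⟨c', Q'⟩ ht' h
    obtain ⟨hc, hQ⟩ := Finset.mem_sigma.1 ht
    obtain ⟨hc', hQ'⟩ := Finset.mem_sigma.1 ht'
    obtain ⟨-, h1, h2, h3⟩ := Finset.mem_filter.1 hQ
    obtain ⟨-, h1', -, h3'⟩ := Finset.mem_filter.1 hQ'
    have h4 : Q = Q' := clean_val_inj Q h1 h2 Q' h1' h
    subst h4
    have h5 : c = c' := by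
      refine ((hR c hc).1.range_inj (hR c' hc').1).1 ?_
      have h6 := congrArg (fun S : Finset ℕ => (S : Set ℕ)) (h3.symm.trans h3')
      simpa using h6
    subst h5
    rfl
  have hsub : T.image (fun t => val t.2) ⊆ DD B x := by
    refine Finset.image_subset_iff.2 ?_
    rintro ⟨c, Q⟩ ht
    obtain ⟨hc, hQ⟩ := Finset.mem_sigma.1 ht
    obtain ⟨-, h1, -, h3⟩ := Finset.mem_filter.1 hQ
    obtain ⟨h4, -, -, -, h5, h6⟩ := hR c hc
    have hsm : Small B 1 := ⟨⟨1, le_rfl, by simp, by simp⟩, by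
      rw [Nat.cast_one]
      exact one_le_exp (by positivity)⟩
    have h7 : ∀ q ∈ Q, (blk q : ℝ) ≤ s - hh s := fun q hq => by
      obtain ⟨i, -, hi⟩ := Finset.mem_image.1 (h3 ▸ Finset.mem_image_of_mem blk hq)
      rw [← hi]
      exact h6 i
    have h8 := hx B hB₂ hBx Q 1 h1.good hsm h7
    rw [one_mul] at h8
    refine Finset.mem_filter.2 ⟨Finset.mem_Icc.2 ⟨val_pos fun q hq => (h1.normal q hq).1,
      Nat.le_floor h8⟩, Q, 1, h1.good, hsm, ?_, h7, (one_mul _).symm⟩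
    rw [Phi, ← cleanPhi_image _ _ (h1.strictMonoOn (by omega)), h3]
    rw [← cleanPhi_vec h4 le_rfl, Finset.filter_true_of_mem fun i _ => i.2] at h5
    exact h5
  have h3 : ∑ t ∈ T, (1 : ℝ) / val t.2 ≤ ∑ d ∈ DD B x, (1 : ℝ) / d := by
    rw [← Finset.sum_image (f := fun d : ℕ => (1 : ℝ) / d) hinj]
    exact Finset.sum_le_sum_of_subset_of_nonneg hsub fun _ _ _ => by positivity
  rw [hT, Finset.sum_sigma] at h3
  have h4 := Finset.sum_le_sum hm
  rw [Finset.sum_const, nsmul_eq_mul] at h4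
  linarith

end Vale.Agent.P031
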