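import Vale.Agent.P031.Collide4

namespace Vale.Agent.P031

open Finset Filter Real

lemma col_val_split {Q C : Finset ℕ} {p : ℕ} (hC : C ⊆ Q) (hp : p ∉ Q) :
    (p - 1) * val Q = val C * val (insert p (Q \ C)) := by
  unfold val
  rw [Finset.prod_insert (fun h => hp (Finset.mem_sdiff.mp h).1), ← Finset.prod_sdiff hC]
  ring

/-- admissible slot patterns -/
def colAdm {ι : Type} (sd : ι → Bool) (b₁ σ τ T₀ : ℕ) (G : ℝ) (a : Finset ι × (ι → ℕ)) : Prop :=
  (∀ i ∈ a.1, b₁ ≤ a.2 i ∧ a.2 i ≤ τ) ∧ (∀ i, i ∉ a.1 → a.2 i ≤ T₀) ∧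
    (∃ i₀ ∈ a.1, σ ≤ a.2 i₀ + 30) ∧ ∀ s, cS sd a.2 a.1 τ s - cB sd a.2 a.1 s ≤ G

/-- recovering a triple from the common part and the configuration -/
def colRec {K : ℕ} (C : Finset ℕ) (P : Finset (Bool × Option (Fin K)))
    (x : Bool × Option (Fin K) → ℕ) : ℕ × Finset ℕ × ℕ :=
  (((P.filter fun i => i.1 = true).image fun i => x i + 1).sup id,
    (((P.filter fun i => i.1 = true).image fun i => x i + 1).erase
      (((P.filter fun i => i.1 = true).image fun i => x i + 1).sup id)) ∪ C, x (true, none))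

lemma col_struct (F : Facts) (P : Prof) {b₁ σ K T₀ : ℕ} {y : ℝ} (hb : b₁ + 30 ≤ σ)
    (hh30 : 30 < hh σ / 2) (hK : K = ⌊11 * log σ⌋₊ + 1) (hT : log σ / 10 + 10 ≤ T₀)
    {p p' μ μ' : ℕ} {Q Q' : Finset ℕ} (h : Top b₁ σ p Q μ) (h' : Top b₁ σ p' Q' μ') (hpp : p' ≠ p)
    (heq : μ' * (p' - 1) * val Q' = μ * (p - 1) * val Q)
    (hy : ((μ * (p - 1) * val Q : ℕ) : ℝ) ≤ y) :
    ∃ C ∈ (blkLe σ).powerset.filter (fun C => C.card ≤ K),
      ∃ a : Finset (Bool × Option (Fin K)) × (Bool × Option (Fin K) → ℕ),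
        colAdm Prod.fst b₁ σ (σ + 30) T₀ (K * log K - hh σ / 2 + 30) a ∧
        ∃ x ∈ Conf Prod.fst a.2 ⌊y⌋₊ a.1, (wt Prod.fst x true : ℝ) ≤ y / val C ∧
          1 ≤ cm (fun l => exp (cu Prod.fst a.2 a.1 T₀
              (2 * log (Fintype.card (Bool × Option (Fin K)))) l)) (wt Prod.fst x true) *
            exp ((cS Prod.fst a.2 a.1 (σ + 30) true + cS Prod.fst a.2 a.1 (σ + 30) false) / 2 +
              (2 * log (Fintype.card (Bool × Option (Fin K))) *
                (K * (T₀ + 1 + h0 (σ + 30 : ℕ)) + 2 * (σ : ℝ) ^ (1 / 10 : ℝ)) +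
              log K * (K * h0 (σ + 30 : ℕ) + 2 * (σ : ℝ) ^ (1 / 10 : ℝ)))) ∧
          colRec C a.1 x = (p, Q, μ) := by
  classical
  have hK1 : 1 ≤ K := by omega
  have hK1' : (1 : ℝ) ≤ K := by exact_mod_cast hK1
  have hσ0 : (0 : ℝ) < σ := by exact_mod_cast (by omega : 0 < σ)
  have low : ∀ {r ν : ℕ} {R : Finset ℕ}, Top b₁ σ r R ν → ∀ q ∈ R, blk q + 30 < σ := by
    intro r ν R hR q hq
    have h1 := (hR.nq q hq).2.2
    have h2 : (blk q : ℝ) + 30 < σ := by linarith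
    exact_mod_cast h2
  have crd : ∀ {r ν : ℕ} {R : Finset ℕ}, Top b₁ σ r R ν → R.card + 1 ≤ K := by
    intro r ν R hR
    have := Nat.le_floor hR.card
    omega
  set C := Q ∩ Q' with hC
  have hpQ : p ∉ Q := fun hq => by have := low h p hq; have := h.lo; omega
  have hpQ' : p ∉ Q' := fun hq => by have := low h' p hq; have := h.lo; omega
  have hp'Q : p' ∉ Q := fun hq => by have := low h p' hq; have := h'.lo; omega
  have hp'Q' : p' ∉ Q' := fun hq => by have := low h' p' hq; have := h'.lo; omega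
  set L : Bool → Finset ℕ := fun s => bif s then insert p (Q \ C) else insert p' (Q' \ C) with hL
  set ν : Bool → ℕ := fun s => bif s then μ else μ' with hν
  have hCpos : 0 < val C := val_pos fun q hq => (h.nq q (Finset.mem_inter.mp hq).1).1.1
  have v1 : μ * (p - 1) * val Q = val C * (ν true * val (L true)) := by
    rw [mul_assoc, col_val_split Finset.inter_subset_left hpQ]; simp only [hL, hν, cond_true]; ring
  have v2 : μ' * (p' - 1) * val Q' = val C * (ν false * val (L false)) := by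
    rw [mul_assoc, col_val_split Finset.inter_subset_right hp'Q']
    simp only [hL, hν, cond_false]; ring
  have heq' : ν true * val (L true) = ν false * val (L false) := by
    rw [v1, v2] at heq
    exact (Nat.eq_of_mul_eq_mul_left hCpos heq).symm
  have hLc : ∀ {r ν : ℕ} {R : Finset ℕ}, Top b₁ σ r R ν → (insert r (R \ C)).card ≤ K := by
    intro r ν R hR
    have h1 := crd hR
    have h2 := Finset.card_insert_le r (R \ C)
    have h3 : (R \ C).card ≤ R.card := Finset.card_le_card Finset.sdiff_subset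
    omega
  have hLn : ∀ {r ν : ℕ} {R : Finset ℕ}, Top b₁ σ r R ν → ∀ q ∈ insert r (R \ C),
      Normal q ∧ b₁ ≤ blk q ∧ blk q ≤ σ + 30 := by
    intro r ν R hR q hq
    rcases Finset.mem_insert.mp hq with rfl | hq
    · exact ⟨hR.np, by have := hR.lo; omega, hR.hi⟩
    · have h1 := (Finset.mem_sdiff.mp hq).1
      exact ⟨(hR.nq q h1).1, (hR.nq q h1).2.1, by have := low hR q h1; omega⟩
  have hμn : ∀ {r ν : ℕ} {R : Finset ℕ}, Top b₁ σ r R ν →
      (1 ≤ ν ∧ log ν ≤ (σ : ℝ) ^ (1 / 10 : ℝ)) ∧ ∀ l ∈ ν.primeFactors, blk l ≤ T₀ := by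
    intro r ν R hR
    have h0 : (0 : ℝ) < ν := by exact_mod_cast hR.mu.1
    have h1 : log ν ≤ (σ : ℝ) ^ (1 / 10 : ℝ) := by
      rw [Real.log_le_iff_le_exp h0]; exact hR.mu.2
    refine ⟨⟨hR.mu.1, h1⟩, fun l hl => ?_⟩
    have h2 := (Nat.prime_of_mem_primeFactors hl).two_le
    have h2' : (2 : ℝ) ≤ l := by exact_mod_cast h2
    have h3 : (l : ℝ) ≤ ν := by exact_mod_cast Nat.le_of_mem_primeFactors hl
    have h4 : log l ≤ (σ : ℝ) ^ (1 / 10 : ℝ) := (Real.log_le_log (by linarith) h3).trans h1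
    have h5 := Real.log_le_log (Real.log_pos (by linarith)) h4
    rw [Real.log_rpow hσ0] at h5
    have h6 := abs_le.mp (F.mertens l h2)
    have h7 := blk_le_A l
    have h8 : (blk l : ℝ) ≤ T₀ := by linarith
    exact_mod_cast h8
  have hex : ∀ {r ν : ℕ} {R : Finset ℕ}, Top b₁ σ r R ν →
      ∑ t ∈ range (σ + 30 + 1), (zge (insert r (R \ C)) t : ℝ) * log (zge (insert r (R \ C)) t) -
        ∑ q ∈ insert r (R \ C), (blk q : ℝ) ≤ K * log K - hh σ / 2 + 30 := by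
    intro r ν R hR
    have h1 := col_ex P (p := r) (τ := σ + 30) (Q := R) (R := R \ C) Finset.sdiff_subset
      (fun q hq => by have := low hR q hq; have := hR.lo; omega) hR.hi
    have h2 : ((insert r (R \ C)).card : ℝ) ≤ K := by exact_mod_cast hLc hR
    have h3 : (1 : ℝ) ≤ (insert r (R \ C)).card := by
      exact_mod_cast Finset.card_pos.mpr (Finset.insert_nonempty _ _)
    have h4 : ((insert r (R \ C)).card : ℝ) * log (insert r (R \ C)).card ≤ K * log K :=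
      mul_le_mul h2 (Real.log_le_log (by linarith) h2) (Real.log_nonneg h3) (by linarith)
    have h5 := hR.phi
    have h6 : (σ : ℝ) ≤ blk r + 30 := by exact_mod_cast hR.lo
    linarith
  have hwy : ((ν true * val (L true) : ℕ) : ℝ) ≤ y / val C := by
    rw [le_div_iff₀ (by exact_mod_cast hCpos)]
    rw [v1] at hy
    push_cast at hy ⊢
    linarith
  have hwM : ν true * val (L true) ≤ ⌊y⌋₊ := by
    refine Nat.le_floor (le_trans ?_ hy)
    rw [v1]
    exact_mod_cast Nat.le_mul_of_pos_left _ hCpos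
  have hLK : ∀ s, (L s).card ≤ K := fun s => by cases s; exacts [hLc h', hLc h]
  have hLN : ∀ s, ∀ q ∈ L s, Normal q ∧ b₁ ≤ blk q ∧ blk q ≤ σ + 30 := fun s => by
    cases s; exacts [hLn h', hLn h]
  obtain ⟨Ps, lv, x, x1, x2, x3, x4, x5, x6, x7, x8, x9⟩ :=
    col_place F (K := K) (T₀ := T₀) (τ := σ + 30) (M := ⌊y⌋₊) (b₁ := b₁) L ν hLK hLN
      (fun s => by cases s; exacts [⟨h'.mu.1, (hμn h').2⟩, ⟨h.mu.1, (hμn h).2⟩]) heq' hwM
      (by
        rw [Finset.disjoint_left]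
        intro q hq hq'
        simp only [hL, cond_true, cond_false, Finset.mem_insert, Finset.mem_sdiff, hC,
          Finset.mem_inter] at hq hq'
        rcases hq with rfl | hq
        · rcases hq' with h1 | h1
          · exact hpp h1.symm
          · exact hpQ' h1.1
        · rcases hq' with rfl | h1
          · exact hp'Q hq.1
          · exact hq.2 ⟨hq.1, h1.1⟩)
  refine ⟨C, Finset.mem_filter.mpr ⟨Finset.mem_powerset.mpr fun q hq => ?_, ?_⟩, (Ps, lv),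
    ⟨x3, x4, ?_, ?_⟩, x, x1, ?_, ?_, ?_⟩
  · have h1 := (Finset.mem_inter.mp hq).1
    have h2 := (h.nq q h1).1.1
    have h3 : blk q ≤ σ := by have := low h q h1; omega
    exact Finset.mem_filter.mpr ⟨Finset.mem_range.mpr (Nat.lt_succ_of_le
      (Nat.le_floor (F.le_Ub q σ h2.two_le h3))), h2, h3⟩
  · have h1 := crd h
    have h2 : C.card ≤ Q.card := Finset.card_le_card Finset.inter_subset_left
    omega
  · obtain ⟨i, hi, hi'⟩ := x7 true p (Finset.mem_insert_self _ _)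
    exact ⟨i, hi, by simp only [hi']; exact h.lo⟩
  · intro s
    simp only [cS, x5, x6]
    cases s
    · exact hex h'
    · exact hex h
  · rw [x2]; exact hwy
  · rw [x2]
    refine col_rankin P L ν ?_ hK1 hLK (fun s q hq => ⟨(hLN s q hq).1, (hLN s q hq).2.2⟩)
      (fun s => by cases s; exacts [(hμn h').1, (hμn h).1]) heq' x5
    have : (1 : ℝ) ≤ Fintype.card (Bool × Option (Fin K)) := by
      exact_mod_cast Fintype.card_pos_iff.mpr ⟨(true, none)⟩
    have := Real.log_nonneg this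
    linarith
  · unfold colRec
    simp only [x9, x8]
    have h1 : (L true).sup id = p := by
      refine le_antisymm (Finset.sup_le fun q hq => ?_) (Finset.le_sup (f := id)
        (Finset.mem_insert_self _ _))
      rcases Finset.mem_insert.mp hq with rfl | hq
      · exact le_rfl
      · have h2 := low h q (Finset.mem_sdiff.mp hq).1
        have h3 := h.lo
        exact (lt_of_blk_lt (show blk q < blk p by omega)).le
    rw [h1]
    have h2 : (L true).erase p ∪ C = Q := by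
      simp only [hL, cond_true]
      rw [Finset.erase_insert (fun hq => hpQ (Finset.mem_sdiff.mp hq).1)]
      exact Finset.sdiff_union_of_subset Finset.inter_subset_left
    rw [h2]
    rfl

set_option maxHeartbeats 1000000 in
theorem collide (F : Facts) (P : Prof) (Co : CoreStmt) (Fr : FreeStmt) : CollideStmt := by
  classical
  obtain ⟨C₀, b₁, hCo⟩ := Co
  have hhh : Tendsto (fun σ : ℕ => hh σ) atTop atTop :=
    (tendsto_rpow_atTop (by norm_num)).comp tendsto_natCast_atTop_atTop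
  obtain ⟨σ₀, hσ₀⟩ := eventually_atTop.mp ((col_num3 C₀).and
    ((tendsto_natCast_atTop_atTop.eventually col_num2).and
      ((hhh.eventually_gt_atTop 60).and ((eventually_ge_atTop (b₁ + 30)).and
        ((Real.tendsto_log_atTop.comp tendsto_natCast_atTop_atTop).eventually_ge_atTop 2)))))
  refine ⟨b₁, σ₀, fun σ hσ y hy S hS => ?_⟩
  obtain ⟨n1, n2, n3, n4, n5⟩ := hσ₀ σ hσ
  simp only [Function.comp] at n5
  obtain ⟨K, hK⟩ : ∃ K, K = ⌊11 * log σ⌋₊ + 1 := ⟨_, rfl⟩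
  obtain ⟨T₀, hT⟩ : ∃ T₀, T₀ = ⌈√(σ : ℝ)⌉₊ := ⟨_, rfl⟩
  have hTge : √(σ : ℝ) ≤ T₀ := hT ▸ Nat.le_ceil _
  have hσ1 : (30 : ℝ) ≤ σ := by exact_mod_cast (by omega : 30 ≤ σ)
  have hsq : √(σ : ℝ) ≤ σ := Real.sqrt_le_iff.mpr ⟨by linarith, by nlinarith⟩
  have hTle : T₀ ≤ σ + 30 := by
    rw [hT]; exact Nat.ceil_le.mpr (by push_cast; linarith)
  set ι := Bool × Option (Fin K) with hι
  have hn : Fintype.card ι = 2 * (K + 1) := by simp [hι]
  set n := Fintype.card ι with hndef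
  have hK2 : (K : ℝ) ≤ 12 * log σ := by
    rw [hK]; push_cast
    have := Nat.floor_le (show 0 ≤ 11 * log σ by linarith)
    linarith
  have hnσ : (n : ℝ) ≤ σ := by rw [hn]; push_cast; linarith
  have hbig : ∀ l : ℕ, l.Prime → T₀ < blk l → n ^ 2 < l := by
    intro l hl hb
    have h1 := F.ge_blk l (T₀ + 1) hl.two_le hb
    have h2 : ((T₀ + 1 : ℕ) : ℝ) - 10 + 1 ≤ exp (((T₀ + 1 : ℕ) : ℝ) - 10) := Real.add_one_le_exp _
    have h3 : exp (2 * log σ + 1) ≤ exp (exp (((T₀ + 1 : ℕ) : ℝ) - 10)) := by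
      refine Real.exp_le_exp.mpr (le_trans ?_ h2)
      push_cast; linarith
    have h4 : exp (2 * log σ) = (σ : ℝ) ^ 2 := by
      rw [show (2 : ℝ) * log σ = ((2 : ℕ) : ℝ) * log σ by norm_num, Real.exp_nat_mul,
        Real.exp_log (by linarith)]
    have h5 : exp (2 * log σ) < exp (2 * log σ + 1) := Real.exp_lt_exp.mpr (by linarith)
    have h6 : (n : ℝ) ^ 2 ≤ (σ : ℝ) ^ 2 := by gcongr
    have h7 : (n : ℝ) ^ 2 < l := by linarith
    exact_mod_cast h7
  set G := K * log K - hh σ / 2 + 30 with hG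
  set E₀ := 2 * log n * (K * (T₀ + 1 + h0 (σ + 30 : ℕ)) + 2 * (σ : ℝ) ^ (1 / 10 : ℝ)) +
    log K * (K * h0 (σ + 30 : ℕ) + 2 * (σ : ℝ) ^ (1 / 10 : ℝ)) with hE₀
  set 𝒞 := (blkLe σ).powerset.filter (fun C => C.card ≤ K) with h𝒞
  set 𝒜 : Finset (Finset ι × (ι → ℕ)) :=
    ((univ : Finset ι).powerset ×ˢ Fintype.piFinset fun _ : ι => range (σ + 30 + 1)).filter
      (colAdm Prod.fst b₁ σ (σ + 30) T₀ G) with h𝒜
  set X : Finset ℕ → Finset ι × (ι → ℕ) → Finset (ι → ℕ) := fun C a =>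
    (Conf Prod.fst a.2 ⌊y⌋₊ a.1).filter fun x => (wt Prod.fst x true : ℝ) ≤ y / val C ∧
      1 ≤ cm (fun l => exp (cu Prod.fst a.2 a.1 T₀ (2 * log n) l)) (wt Prod.fst x true) *
        exp ((cS Prod.fst a.2 a.1 (σ + 30) true + cS Prod.fst a.2 a.1 (σ + 30) false) / 2 + E₀)
    with hX
  have hsub : S ⊆ 𝒞.biUnion fun C => 𝒜.biUnion fun a => (X C a).image (colRec C a.1) := by
    rintro ⟨p, Q, μ⟩ hT'
    obtain ⟨h1, h2, p', Q', μ', h3, h4, h5⟩ := hS _ hT'
    obtain ⟨C, hC, a, ha, x, hx1, hx2, hx3, hx4⟩ :=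
      col_struct F P n4 (by linarith) hK (T₀ := T₀) (by linarith) h1 h3 h4 h5 h2
    refine Finset.mem_biUnion.mpr ⟨C, hC, Finset.mem_biUnion.mpr ⟨a, ?_,
      Finset.mem_image.mpr ⟨x, Finset.mem_filter.mpr ⟨hx1, hx2, hx3⟩, hx4⟩⟩⟩
    refine Finset.mem_filter.mpr ⟨Finset.mem_product.mpr ⟨Finset.mem_powerset.mpr
      (Finset.subset_univ _), Fintype.mem_piFinset.mpr fun i => Finset.mem_range.mpr ?_⟩, ha⟩
    by_cases hi : i ∈ a.1
    · have := (ha.1 i hi).2; omega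
    · have := ha.2.1 i hi; omega
  set Bd := exp (30 - σ) * ((n : ℝ) ^ 2 * ((σ + 30 : ℕ) : ℝ) ^ C₀) ^ n *
    exp (G + E₀ + T₀ + 1 + n + 8) with hBd
  have hBd0 : 0 ≤ Bd := by positivity
  have hXc : ∀ C, ∀ a ∈ 𝒜, ((X C a).card : ℝ) ≤ y / val C * Bd := by
    intro C a ha
    obtain ⟨a1, a2, ⟨i₀, a3, a4⟩, a5⟩ := (Finset.mem_filter.mp ha).2
    have hY : 0 ≤ y / val C := by positivity
    have h1 := col_count F Fr (hCo ι) Prod.fst a.2 a.1 ⌊y⌋₊ (σ + 30) T₀ (n ^ 2) a1 a2 hTle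
      (by omega) le_rfl (by rw [← hndef, hn]; nlinarith) hbig a3 (E₀ := E₀) hY a5 (X C a)
      (fun x hx => by
        have := Finset.mem_filter.mp hx
        exact ⟨this.1, this.2.1, this.2.2⟩)
    refine h1.trans ?_
    have h2 : exp (-(a.2 i₀ : ℝ)) ≤ exp (30 - σ) := by
      refine Real.exp_le_exp.mpr ?_
      have : (σ : ℝ) ≤ a.2 i₀ + 30 := by exact_mod_cast a4
      linarith
    rw [hBd, ← hndef]
    calc y / val C * exp (-(a.2 i₀ : ℝ)) * ((n : ℝ) ^ 2 * ((σ + 30 : ℕ) : ℝ) ^ C₀) ^ n *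
          exp (G + E₀ + T₀ + 1 + n + 8)
        ≤ y / val C * exp (30 - σ) * ((n : ℝ) ^ 2 * ((σ + 30 : ℕ) : ℝ) ^ C₀) ^ n *
          exp (G + E₀ + T₀ + 1 + n + 8) := by gcongr
      _ = _ := by ring
  have hA : (𝒜.card : ℝ) ≤ (2 : ℝ) ^ n * (((σ + 30 : ℕ) : ℝ) + 1) ^ n := by
    have h1 : 𝒜.card ≤ 2 ^ n * (σ + 30 + 1) ^ n := by
      refine (Finset.card_filter_le _ _).trans ?_
      rw [Finset.card_product, Finset.card_powerset, Fintype.card_piFinset]
      simp only [Finset.card_range, Finset.prod_const, Finset.card_univ]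
      exact le_rfl
    exact_mod_cast h1
  have hCs : ∑ C ∈ 𝒞, (1 : ℝ) / val C ≤ (1 + 2 * ((σ : ℝ) + 1)) ^ K := by
    have hpr : ∀ q ∈ blkLe σ, q.Prime := fun l hl => (Finset.mem_filter.mp hl).2.1
    have h1 := F.subsets (blkLe σ) (fun q => 1 / ((q - 1 : ℕ) : ℝ)) K fun q _ => by positivity
    have h2 : ∑ C ∈ 𝒞, (1 : ℝ) / val C = ∑ C ∈ 𝒞, ∏ q ∈ C, 1 / ((q - 1 : ℕ) : ℝ) := by
      refine Finset.sum_congr rfl fun C _ => ?_
      unfold val
      rw [Nat.cast_prod, Finset.prod_div_distrib, Finset.prod_const_one]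
    have h3 : ∑ q ∈ blkLe σ, 1 / ((q - 1 : ℕ) : ℝ) ≤ 2 * ((σ : ℝ) + 1) := by
      have a1 := F.sum_lt_le (σ + 1) (blkLe σ) fun l hl =>
        ⟨hpr l hl, Nat.lt_succ_of_le (Finset.mem_filter.mp hl).2.2⟩
      have a2 : ∑ q ∈ blkLe σ, 1 / ((q - 1 : ℕ) : ℝ) ≤ ∑ q ∈ blkLe σ, 2 * (1 / (q : ℝ)) := by
        refine Finset.sum_le_sum fun q hq => ?_
        have b1 := (hpr q hq).two_le
        have b2 : (2 : ℝ) ≤ q := by exact_mod_cast b1
        rw [Nat.cast_sub (by omega), Nat.cast_one, mul_one_div, div_le_div_iff₀ (by linarith)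
          (by linarith)]
        linarith
      rw [← Finset.mul_sum] at a2
      push_cast at a1
      linarith
    rw [h2]
    refine h1.trans ?_
    gcongr
  have hc1 : S.card ≤ ∑ C ∈ 𝒞, ∑ a ∈ 𝒜, (X C a).card :=
    (Finset.card_le_card hsub).trans <| Finset.card_biUnion_le.trans <|
      Finset.sum_le_sum fun C _ => Finset.card_biUnion_le.trans <|
        Finset.sum_le_sum fun a _ => Finset.card_image_le
  have hc2 : (S.card : ℝ) ≤ ∑ C ∈ 𝒞, ∑ a ∈ 𝒜, ((X C a).card : ℝ) := by exact_mod_cast hc1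
  have hc3 : ∑ C ∈ 𝒞, ∑ a ∈ 𝒜, ((X C a).card : ℝ) ≤
      ∑ C ∈ 𝒞, (1 : ℝ) / val C * (𝒜.card * (y * Bd)) := by
    refine Finset.sum_le_sum fun C _ => ?_
    have := Finset.sum_le_card_nsmul 𝒜 (fun a => ((X C a).card : ℝ)) _ (hXc C)
    rw [nsmul_eq_mul] at this
    refine this.trans (le_of_eq ?_)
    ring
  rw [← Finset.sum_mul] at hc3
  have hfin := n1 K n (σ + 30) T₀ hK hn rfl hT
  calc (S.card : ℝ) ≤ (∑ C ∈ 𝒞, (1 : ℝ) / val C) * (𝒜.card * (y * Bd)) := hc2.trans hc3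
    _ ≤ (1 + 2 * ((σ : ℝ) + 1)) ^ K * ((2 : ℝ) ^ n * (((σ + 30 : ℕ) : ℝ) + 1) ^ n * (y * Bd)) :=
      mul_le_mul hCs (mul_le_mul_of_nonneg_right hA (mul_nonneg hy hBd0))
        (mul_nonneg (Nat.cast_nonneg _) (mul_nonneg hy hBd0)) (by positivity)
    _ = y * ((1 + 2 * ((σ : ℝ) + 1)) ^ K * ((2 : ℝ) ^ n * (((σ + 30 : ℕ) : ℝ) + 1) ^ n) * Bd) := by
      ring
    _ ≤ y * (exp (-(σ : ℝ)) * eps σ) := mul_le_mul_of_nonneg_left hfin hy
    _ = _ := by ring

end Vale.Agent.P031
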