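import Vale.Agent.P031.Defs

namespace Vale.Agent.P031

open Finset Filter Real

/-- number of elements of `L` in blocks `≥ t` -/
noncomputable def zge (L : Finset ℕ) (t : ℕ) : ℕ := (L.filter fun q => t ≤ blk q).card

lemma col_abel (lam : ℕ → ℝ) (m n : ℕ) :
    ∑ T ∈ range n, (lam T - lam (T + 1)) * min ((T : ℝ) + 1) m =
      ∑ t ∈ range (min n m), lam t - (min n m : ℕ) * lam n := by
  induction n with
  | zero => simp
  | succ n ih =>
    rw [Finset.sum_range_succ, ih]
    by_cases h : n < m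
    · have h1 : min n m = n := min_eq_left h.le
      have h2 : min (n + 1) m = n + 1 := min_eq_left h
      have h3 : min ((n : ℝ) + 1) m = n + 1 := min_eq_left (by exact_mod_cast h)
      rw [h1, h2, h3, Finset.sum_range_succ]; push_cast; ring
    · push Not at h
      have h1 : min n m = m := min_eq_right h
      have h2 : min (n + 1) m = m := min_eq_right (by omega)
      have h3 : min ((n : ℝ) + 1) m = m := min_eq_right (by exact_mod_cast (by omega : m ≤ n + 1))
      rw [h1, h2, h3]; ring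

lemma col_zge_anti (L : Finset ℕ) : Antitone (zge L) := by
  intro a b h
  unfold zge
  exact Finset.card_le_card (Finset.monotone_filter_right _ fun q _ hq => le_trans h hq)

lemma col_zge_le (L : Finset ℕ) (t : ℕ) : zge L t ≤ L.card := Finset.card_filter_le _ _

lemma col_h0_mono {u v : ℝ} (hu : 0 ≤ u) (h : u ≤ v) : h0 u ≤ h0 v :=
  Real.rpow_le_rpow hu h (by norm_num)

lemma col_h0_nonneg {u : ℝ} (hu : 0 ≤ u) : 0 ≤ h0 u := Real.rpow_nonneg hu _

lemma col_nn_le (P : Prof) {L : Finset ℕ} {μ τ : ℕ} (hL : ∀ q ∈ L, Normal q ∧ blk q ≤ τ)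
    (hμ : 1 ≤ μ) (T : ℕ) :
    (NN T (μ * val L) : ℝ) ≤
      ∑ q ∈ L, min (T : ℝ) ((blk q : ℝ) + 1) + (L.card * h0 τ + 2 * log μ) := by
  have hv : val L ≠ 0 := (val_pos fun q hq => (hL q hq).1.1).ne'
  rw [NN_mul T (by omega) hv, P.nn_val L T fun q hq => (hL q hq).1.1]
  push_cast
  have h1 := P.nn_log T μ (by omega)
  have h2 : ∑ q ∈ L, (NN T (q - 1) : ℝ) ≤ ∑ q ∈ L, (min (T : ℝ) ((blk q : ℝ) + 1) + h0 τ) := by
    refine Finset.sum_le_sum fun q hq => (P.nn_le q T (hL q hq).1).trans ?_
    have : h0 (blk q) ≤ h0 τ := col_h0_mono (Nat.cast_nonneg _) (by exact_mod_cast (hL q hq).2)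
    linarith
  rw [Finset.sum_add_distrib, Finset.sum_const, nsmul_eq_mul] at h2
  linarith

/-- the Rankin cost of one side -/
lemma col_side (P : Prof) {L : Finset ℕ} {μ τ K : ℕ} (hL : ∀ q ∈ L, Normal q ∧ blk q ≤ τ)
    (hμ : 1 ≤ μ) (hK : L.card ≤ K) (hK1 : 1 ≤ K) :
    ((μ * val L).factorization.sum fun l e => (e : ℝ) * log (max (zge L (blk l) : ℝ) 1)) ≤
      ∑ t ∈ range (τ + 1), (zge L t : ℝ) * log (zge L t) + log K * (K * h0 τ + 2 * log μ) := by
  set lam : ℕ → ℝ := fun t => log (max (zge L t : ℝ) 1) with hlam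
  have hz : ∀ t, τ + 1 ≤ t → lam t = 0 := by
    intro t ht
    have : zge L t = 0 := by
      unfold zge
      rw [Finset.card_eq_zero, Finset.filter_eq_empty_iff]
      intro q hq
      have := (hL q hq).2
      omega
    simp [hlam, this]
  have hanti : ∀ T, 0 ≤ lam T - lam (T + 1) := by
    intro T
    have h1 : (zge L (T + 1) : ℝ) ≤ zge L T := by exact_mod_cast col_zge_anti L (Nat.le_succ T)
    have h2 : max (zge L (T + 1) : ℝ) 1 ≤ max (zge L T : ℝ) 1 := max_le_max h1 le_rfl
    have := Real.log_le_log (lt_of_lt_of_le one_pos (le_max_right _ _)) h2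
    simp only [hlam]; linarith
  rw [P.abel_id lam (τ + 1) _ hz]
  set E := (K : ℝ) * h0 τ + 2 * log μ with hE
  have hlμ : 0 ≤ log (μ : ℝ) := Real.log_nonneg (by exact_mod_cast hμ)
  have hh0 : 0 ≤ h0 τ := col_h0_nonneg (Nat.cast_nonneg _)
  have hE0 : 0 ≤ E := by positivity
  have h1 : ∑ T ∈ range (τ + 1), (lam T - lam (T + 1)) * (NN (T + 1) (μ * val L) : ℝ) ≤
      ∑ T ∈ range (τ + 1), ((lam T - lam (T + 1)) *
        ∑ q ∈ L, min ((T : ℝ) + 1) ((blk q + 1 : ℕ) : ℝ) + (lam T - lam (T + 1)) * E) := by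
    refine Finset.sum_le_sum fun T _ => ?_
    rw [← mul_add]
    refine mul_le_mul_of_nonneg_left ?_ (hanti T)
    have h2 := col_nn_le P hL hμ (T + 1)
    have h3 : (L.card : ℝ) * h0 τ ≤ K * h0 τ := by
      have : (L.card : ℝ) ≤ K := by exact_mod_cast hK
      gcongr
    push_cast at h2 ⊢
    linarith
  refine h1.trans ?_
  rw [Finset.sum_add_distrib, ← Finset.sum_mul, Finset.sum_range_sub', hz _ le_rfl, sub_zero]
  have h4 : lam 0 ≤ log K := by
    have h5 : (zge L 0 : ℝ) ≤ K := by exact_mod_cast (col_zge_le L 0).trans hK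
    have h6 : (1 : ℝ) ≤ K := by exact_mod_cast hK1
    exact Real.log_le_log (lt_of_lt_of_le one_pos (le_max_right _ _)) (max_le h5 h6)
  have h7 : ∑ T ∈ range (τ + 1), (lam T - lam (T + 1)) *
      ∑ q ∈ L, min ((T : ℝ) + 1) ((blk q + 1 : ℕ) : ℝ) =
      ∑ t ∈ range (τ + 1), (zge L t : ℝ) * log (zge L t) := by
    simp_rw [Finset.mul_sum]
    rw [Finset.sum_comm]
    have h8 : ∀ q ∈ L, ∑ T ∈ range (τ + 1), (lam T - lam (T + 1)) *
        min ((T : ℝ) + 1) ((blk q + 1 : ℕ) : ℝ) =
        ∑ t ∈ range (τ + 1), if t ≤ blk q then lam t else 0 := by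
      intro q hq
      rw [col_abel, hz _ le_rfl, mul_zero, sub_zero, ← Finset.sum_filter]
      congr 1
      ext t
      have := (hL q hq).2
      simp only [Finset.mem_range, Finset.mem_filter]
      omega
    rw [Finset.sum_congr rfl h8, Finset.sum_comm]
    refine Finset.sum_congr rfl fun t _ => ?_
    rw [← Finset.sum_filter, Finset.sum_const, nsmul_eq_mul]
    change (zge L t : ℝ) * lam t = _
    rcases Nat.eq_zero_or_pos (zge L t) with h | h
    · simp [h]
    · have : max (zge L t : ℝ) 1 = zge L t := max_eq_left (by exact_mod_cast h)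
      simp only [hlam, this]
  rw [h7]
  have := mul_le_mul_of_nonneg_right h4 hE0
  linarith

/-- the exponent of one side is at most `Phi Q - blk p` up to a small error -/
lemma col_ex (P : Prof) {p τ : ℕ} {Q R : Finset ℕ} (hR : R ⊆ Q) (hQ : ∀ q ∈ Q, blk q < blk p)
    (hp : blk p ≤ τ) :
    ∑ t ∈ range (τ + 1), (zge (insert p R) t : ℝ) * log (zge (insert p R) t) -
      ∑ q ∈ insert p R, (blk q : ℝ) ≤
        ((insert p R).card : ℝ) * log (insert p R).card + Phi Q - blk p := by
  set L := insert p R with hL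
  have hpR : p ∉ R := fun h => lt_irrefl _ (hQ p (hR h))
  have hLτ : ∀ q ∈ L, blk q ≤ τ := by
    intro q hq
    rcases Finset.mem_insert.mp hq with rfl | h
    · exact hp
    · exact ((hQ q (hR h)).le).trans hp
  have h0' : zge L 0 = L.card := by unfold zge; simp
  have h1 : ∀ t, zge L (t + 1) = zz L t := fun t => rfl
  rw [Finset.sum_range_succ', h0', ← P.sum_zz L τ hLτ,
    P.phi_eq Q τ fun q hq => ((hQ q hq).le).trans hp]
  simp only [h1]
  have h2 : (blk p : ℝ) = ∑ t ∈ range τ, if t < blk p then (1 : ℝ) else 0 := by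
    rw [← Finset.sum_filter, Finset.sum_const, nsmul_eq_mul, mul_one]
    congr 1
    have : (range τ).filter (fun t => t < blk p) = range (blk p) := by
      ext t; simp only [Finset.mem_filter, Finset.mem_range]; omega
    rw [this, Finset.card_range]
  have h3 : ∑ t ∈ range τ, (zz L t : ℝ) * log (zz L t) - ∑ t ∈ range τ, (zz L t : ℝ) ≤
      ∑ t ∈ range τ, (psi ((zz Q t : ℝ) + 1) + 1) -
        ∑ t ∈ range τ, if t < blk p then (1 : ℝ) else 0 := by
    rw [← Finset.sum_sub_distrib, ← Finset.sum_sub_distrib]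
    refine Finset.sum_le_sum fun t _ => ?_
    change psi (zz L t) ≤ _
    split_ifs with ht
    · have h4 : zz L t = zz R t + 1 := by
        unfold zz
        rw [hL, Finset.filter_insert, if_pos ht, Finset.card_insert_of_notMem]
        exact fun h => hpR (Finset.mem_filter.mp h).1
      have h5 : zz R t ≤ zz Q t := Finset.card_le_card (Finset.filter_subset_filter _ hR)
      have h6 : psi (zz L t) ≤ psi ((zz Q t : ℝ) + 1) := by
        rw [h4]; push_cast
        refine P.psi_mono _ _ (by linarith [Nat.cast_nonneg (α := ℝ) (zz R t)]) ?_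
        have : (zz R t : ℝ) ≤ zz Q t := by exact_mod_cast h5
        linarith
      linarith
    · have h4 : zz L t = 0 := by
        unfold zz
        rw [Finset.card_eq_zero, Finset.filter_eq_empty_iff]
        intro q hq
        rcases Finset.mem_insert.mp hq with rfl | h
        · exact ht
        · have := hQ q (hR h); omega
      have h5 : zz Q t = 0 := by
        unfold zz
        rw [Finset.card_eq_zero, Finset.filter_eq_empty_iff]
        intro q hq
        have := hQ q hq; omega
      rw [h4, h5]; simp [psi]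
  rw [← h2] at h3
  linarith

/-- placing a finite set into `K` numbered slots -/
lemma col_slots (L : Finset ℕ) (K : ℕ) (h : L.card ≤ K) :
    ∃ (I : Finset (Fin K)) (e : Fin K → ℕ), Set.InjOn e I ∧ I.image e = L := by
  classical
  obtain ⟨I, -, hI⟩ := Finset.exists_subset_card_eq (s := (univ : Finset (Fin K))) (n := L.card)
    (by simpa using h)
  let φ : I ≃ L := Finset.equivOfCardEq hI
  refine ⟨I, fun i => if hi : i ∈ I then (φ ⟨i, hi⟩ : ℕ) else 0, ?_, ?_⟩
  · intro i hi j hj hij
    have hi' : i ∈ I := hi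
    have hj' : j ∈ I := hj
    simp only [hi', hj', dif_pos] at hij
    have := φ.injective (Subtype.ext hij)
    exact congrArg Subtype.val this
  · ext q
    simp only [Finset.mem_image]
    constructor
    · rintro ⟨i, hi, rfl⟩
      simp only [hi, dif_pos]
      exact (φ ⟨i, hi⟩).2
    · intro hq
      refine ⟨(φ.symm ⟨q, hq⟩ : I), (φ.symm ⟨q, hq⟩).2, ?_⟩
      simp only [(φ.symm ⟨q, hq⟩).2, dif_pos]
      simp

end Vale.Agent.P031
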