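import Vale.Agent.P031.Collide1

namespace Vale.Agent.P031

open Finset Filter Real

section
variable {ι : Type} [Fintype ι] [DecidableEq ι]

/-- number of prime slots on side `s` of level at least `t` -/
def czP (sd : ι → Bool) (lv : ι → ℕ) (P : Finset ι) (s : Bool) (t : ℕ) : ℕ :=
  (P.filter fun i => sd i = s ∧ t ≤ lv i).card

noncomputable def cu (sd : ι → Bool) (lv : ι → ℕ) (P : Finset ι) (T₀ : ℕ) (c₀ : ℝ) (l : ℕ) : ℝ :=
  -((if blk l < T₀ + 1 then c₀ else 0) + log (max (czP sd lv P true (blk l) : ℝ) 1) / 2 +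
    log (max (czP sd lv P false (blk l) : ℝ) 1) / 2)

noncomputable def cS (sd : ι → Bool) (lv : ι → ℕ) (P : Finset ι) (τ : ℕ) (s : Bool) : ℝ :=
  ∑ t ∈ range (τ + 1), (czP sd lv P s t : ℝ) * log (czP sd lv P s t)

noncomputable def cB (sd : ι → Bool) (lv : ι → ℕ) (P : Finset ι) (s : Bool) : ℝ :=
  ∑ i ∈ P.filter (fun i => sd i = s), (lv i : ℝ)

omit [Fintype ι] [DecidableEq ι] in
lemma col_cB_add (sd : ι → Bool) (lv : ι → ℕ) (P : Finset ι) :
    cB sd lv P true + cB sd lv P false = ∑ i ∈ P, (lv i : ℝ) := by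
  unfold cB
  rw [← Finset.sum_filter_add_sum_filter_not P (fun i => sd i = true)]
  congr 2
  ext i; simp

omit [DecidableEq ι] in
lemma col_czP_le (sd : ι → Bool) (lv : ι → ℕ) (P : Finset ι) (s : Bool) (t : ℕ) :
    czP sd lv P s t ≤ Fintype.card ι :=
  (Finset.card_filter_le _ _).trans (Finset.card_le_univ P)

lemma col_sqrt_aux {a b : ℝ} (ha : 0 ≤ a) (hb : 0 ≤ b) (ha' : a = 0 ∨ 1 ≤ a) (hb' : b = 0 ∨ 1 ≤ b) :
    exp (-(log (max a 1) / 2 + log (max b 1) / 2)) * a * b ≤ (a + b) / 2 := by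
  rcases ha' with rfl | ha'
  · simp; positivity
  rcases hb' with rfl | hb'
  · simp; positivity
  rw [max_eq_left ha', max_eq_left hb']
  have ha0 : 0 < a := by linarith
  have hb0 : 0 < b := by linarith
  set u := exp (log a / 2) with hu
  set v := exp (log b / 2) with hv
  have hu0 : 0 < u := exp_pos _
  have hv0 : 0 < v := exp_pos _
  have hua : u * u = a := by rw [hu, ← Real.exp_add, add_halves, Real.exp_log ha0]
  have hvb : v * v = b := by rw [hv, ← Real.exp_add, add_halves, Real.exp_log hb0]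
  have h1 : exp (-(log a / 2 + log b / 2)) = (u * v)⁻¹ := by
    rw [Real.exp_neg, Real.exp_add]
  rw [h1, ← hua, ← hvb]
  have h2 : (u * v)⁻¹ * (u * u) * (v * v) = u * v := by field_simp
  rw [h2]
  nlinarith [sq_nonneg (u - v)]

omit [Fintype ι] [DecidableEq ι] in
lemma col_lin (F : Facts) (sd : ι → Bool) (lv : ι → ℕ) (P : Finset ι) (s : Bool) (τ : ℕ) :
    ∑ l ∈ blkLe τ, (czP sd lv P s (blk l) : ℝ) / l ≤
      cB sd lv P s + (P.filter fun i => sd i = s).card := by
  classical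
  have h1 : ∀ l ∈ blkLe τ, (czP sd lv P s (blk l) : ℝ) / l =
      ∑ i ∈ P.filter (fun i => sd i = s), if blk l ≤ lv i then (1 : ℝ) / l else 0 := by
    intro l _
    rw [← Finset.sum_filter, Finset.sum_const, nsmul_eq_mul, Finset.filter_filter]
    unfold czP
    ring
  rw [Finset.sum_congr rfl h1, Finset.sum_comm]
  unfold cB
  rw [Finset.card_eq_sum_ones, Nat.cast_sum, ← Finset.sum_add_distrib]
  refine Finset.sum_le_sum fun i _ => ?_
  rw [← Finset.sum_filter]
  have := F.sum_lt_le (lv i + 1) ((blkLe τ).filter fun l => blk l ≤ lv i) fun l hl => by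
    have h2 := Finset.mem_filter.mp hl
    exact ⟨(Finset.mem_filter.mp h2.1).2.1, Nat.lt_succ_of_le h2.2⟩
  push_cast at this ⊢
  exact this

lemma col_free (F : Facts) (Fr : FreeStmt) (sd : ι → Bool) (lv : ι → ℕ) (P : Finset ι)
    (M τ T₀ m : ℕ) (hP : ∀ i ∈ P, lv i ≤ τ) (hN : ∀ i, i ∉ P → lv i ≤ T₀) (hT : T₀ ≤ τ)
    (hn : 1 ≤ Fintype.card ι) (hm : (Fintype.card ι) ^ 2 ≤ m) (hm2 : 2 * Fintype.card ι ≤ m)
    (hbig : ∀ l : ℕ, l.Prime → T₀ < blk l → m < l) :
    ∑ x ∈ Conf sd lv M ∅,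
      cm (fun l => exp (cu sd lv P T₀ (2 * log (Fintype.card ι)) l)) (wt sd x true) /
        (wt sd x true : ℝ) ≤
      exp ((cB sd lv P true + cB sd lv P false) / 2 + T₀ + 1 + Fintype.card ι + 8) := by
  set n := Fintype.card ι with hndef
  have hn' : (1 : ℝ) ≤ n := by exact_mod_cast hn
  set g : ℕ → ℝ := fun l => if blk l < T₀ + 1 then 1 else
    ((czP sd lv P true (blk l) : ℝ) + czP sd lv P false (blk l)) / 2 with hg
  have hzle : ∀ s t, (czP sd lv P s t : ℝ) ≤ n := fun s t => by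
    exact_mod_cast col_czP_le sd lv P s t
  have hzc : ∀ s t, T₀ < t → zc sd lv s t = czP sd lv P s t := by
    intro s t ht
    unfold zc czP
    congr 1
    ext i
    simp only [Finset.mem_filter, Finset.mem_univ, true_and]
    constructor
    · rintro ⟨a, b⟩
      refine ⟨?_, a, b⟩
      by_contra hi
      have := hN i hi
      omega
    · rintro ⟨_, a, b⟩; exact ⟨a, b⟩
  have hzcle : ∀ s t, (zc sd lv s t : ℝ) ≤ n := fun s t => by
    have : zc sd lv s t ≤ n := (Finset.card_filter_le _ _).trans (by simp [hndef])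
    exact_mod_cast this
  have hFr := Fr ι sd lv M τ (fun l => exp (cu sd lv P T₀ (2 * log n) l)) g
    (fun i => by
      by_cases hi : i ∈ P
      · exact hP i hi
      · exact (hN i hi).trans hT)
    (fun l => (exp_pos _).le)
    (fun l hl => by
      have hl2 : (2 : ℝ) ≤ l := by exact_mod_cast hl.two_le
      by_cases hb : blk l < T₀ + 1
      · have e1 : g l = 1 := by simp only [hg, if_pos hb]
        rw [e1]
        refine ⟨?_, by linarith⟩
        have a1 : exp (cu sd lv P T₀ (2 * log n) l) ≤ exp (-(2 * log n)) := by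
          refine Real.exp_le_exp.mpr ?_
          unfold cu
          rw [if_pos hb]
          have b1 := Real.log_nonneg (le_max_right (czP sd lv P true (blk l) : ℝ) 1)
          have b2 := Real.log_nonneg (le_max_right (czP sd lv P false (blk l) : ℝ) 1)
          linarith
        have a2 : exp (-(2 * log n)) * n * n = 1 := by
          rw [Real.exp_neg, show (2 : ℝ) * log n = log n + log n by ring, Real.exp_add,
            Real.exp_log (by linarith)]
          field_simp
        calc exp (cu sd lv P T₀ (2 * log n) l) * zc sd lv true (blk l) * zc sd lv false (blk l)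
            ≤ exp (-(2 * log n)) * n * n := by
              have := hzcle true (blk l)
              have := hzcle false (blk l)
              gcongr
          _ = 1 := a2
      · have hb' : T₀ < blk l := by omega
        have e1 : g l = ((czP sd lv P true (blk l) : ℝ) + czP sd lv P false (blk l)) / 2 := by
          simp only [hg, if_neg hb]
        rw [e1, hzc _ _ hb', hzc _ _ hb']
        constructor
        · have hcase : ∀ k : ℕ, (k : ℝ) = 0 ∨ 1 ≤ (k : ℝ) := fun k => by
            rcases Nat.eq_zero_or_pos k with h | h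
            · left; exact_mod_cast h
            · right; exact_mod_cast h
          have := col_sqrt_aux (Nat.cast_nonneg (czP sd lv P true (blk l)))
            (Nat.cast_nonneg (czP sd lv P false (blk l))) (hcase _) (hcase _)
          unfold cu
          rw [if_neg hb, zero_add]
          exact this
        · have a1 := hzle true (blk l)
          have a2 := hzle false (blk l)
          have a3 : (m : ℝ) < l := by exact_mod_cast hbig l hl hb'
          have a4 : 2 * (n : ℝ) ≤ m := by exact_mod_cast hm2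
          linarith)
  refine hFr.trans (Real.exp_le_exp.mpr ?_)
  rw [Finset.sum_add_distrib]
  have hpr : ∀ l ∈ blkLe τ, l.Prime := fun l hl => (Finset.mem_filter.mp hl).2.1
  have s1 : ∑ l ∈ blkLe τ, g l / l ≤
      (cB sd lv P true + cB sd lv P false) / 2 + T₀ + 1 + n := by
    have a1 : ∑ l ∈ blkLe τ, g l / l ≤ ∑ l ∈ blkLe τ, ((if blk l < T₀ + 1 then (1 : ℝ) / l else 0) +
        ((czP sd lv P true (blk l) : ℝ) / l + (czP sd lv P false (blk l) : ℝ) / l) / 2) := by
      refine Finset.sum_le_sum fun l _ => ?_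
      simp only [hg]
      split_ifs with hb
      · have : 0 ≤ ((czP sd lv P true (blk l) : ℝ) / l + (czP sd lv P false (blk l) : ℝ) / l) / 2 := by
          positivity
        linarith
      · rw [zero_add]; apply le_of_eq; ring
    rw [Finset.sum_add_distrib, ← Finset.sum_div, Finset.sum_add_distrib, ← Finset.sum_filter] at a1
    have a2 := F.sum_lt_le (T₀ + 1) ((blkLe τ).filter fun l => blk l < T₀ + 1) fun l hl =>
      ⟨hpr l (Finset.mem_filter.mp hl).1, (Finset.mem_filter.mp hl).2⟩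
    have a3 := col_lin F sd lv P true τ
    have a4 := col_lin F sd lv P false τ
    have a5 : ∀ s, ((P.filter fun i => sd i = s).card : ℝ) ≤ n := fun s => by
      exact_mod_cast (Finset.card_filter_le _ _).trans (Finset.card_le_univ P)
    have a6 := a5 true
    have a7 := a5 false
    push_cast at a2
    linarith
  have s2 : ∑ l ∈ blkLe τ, 4 * (g l / l) ^ 2 ≤ 8 := by
    have hm1 : 1 ≤ m := by omega
    have a1 : ∑ l ∈ blkLe τ, 4 * (g l / l) ^ 2 ≤
        ∑ l ∈ blkLe τ, (4 * (1 / (l : ℝ)) ^ 2 +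
          4 * (n : ℝ) ^ 2 * if m < l then (1 / (l : ℝ)) ^ 2 else 0) := by
      refine Finset.sum_le_sum fun l hl => ?_
      simp only [hg]
      by_cases hb : blk l < T₀ + 1
      · rw [if_pos hb]
        have : 0 ≤ 4 * (n : ℝ) ^ 2 * if m < l then (1 / (l : ℝ)) ^ 2 else 0 := by
          split_ifs <;> positivity
        linarith
      · rw [if_neg hb, if_pos (hbig l (hpr l hl) (by omega))]
        have b1 := hzle true (blk l)
        have b2 := hzle false (blk l)
        have b3 : ((czP sd lv P true (blk l) : ℝ) + czP sd lv P false (blk l)) / 2 ≤ n := by linarith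
        have b4 : (((czP sd lv P true (blk l) : ℝ) + czP sd lv P false (blk l)) / 2 / l) ^ 2 ≤
            ((n : ℝ) / l) ^ 2 := by gcongr
        have b5 : ((n : ℝ) / l) ^ 2 = (n : ℝ) ^ 2 * (1 / (l : ℝ)) ^ 2 := by ring
        have b6 : 0 ≤ 4 * (1 / (l : ℝ)) ^ 2 := by positivity
        linarith
    rw [Finset.sum_add_distrib, ← Finset.mul_sum (blkLe τ) (fun l : ℕ => (1 / (l : ℝ)) ^ 2),
      ← Finset.mul_sum (blkLe τ) (fun l : ℕ => if m < l then (1 / (l : ℝ)) ^ 2 else 0),
      ← Finset.sum_filter] at a1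
    have a2 := F.sum_sq (blkLe τ) 1 le_rfl fun l hl => (hpr l hl).one_lt
    have a3 := F.sum_sq ((blkLe τ).filter fun l => m < l) m hm1 fun l hl =>
      (Finset.mem_filter.mp hl).2
    have a4 : (n : ℝ) ^ 2 ≤ m := by exact_mod_cast hm
    have a5 : (0 : ℝ) < m := by exact_mod_cast hm1
    have a6 : 4 * (n : ℝ) ^ 2 * ∑ l ∈ (blkLe τ).filter (fun l => m < l), (1 / (l : ℝ)) ^ 2 ≤ 4 := by
      calc 4 * (n : ℝ) ^ 2 * ∑ l ∈ (blkLe τ).filter (fun l => m < l), (1 / (l : ℝ)) ^ 2
          ≤ 4 * (m : ℝ) * (1 / m) := by gcongr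
        _ = 4 := by field_simp
    rw [Nat.cast_one, div_one] at a2
    linarith
  linarith

/-- counting configurations that satisfy the Rankin inequality -/
lemma col_count (F : Facts) (Fr : FreeStmt) {C b₀ : ℕ}
    (hC : ∀ (sd : ι → Bool) (lv : ι → ℕ) (M σ : ℕ)
      (P : Finset ι) (f : ℕ → ℝ), (∀ i ∈ P, b₀ ≤ lv i ∧ lv i ≤ σ) → (∀ l, 0 ≤ f l ∧ f l ≤ 1) →
      ∀ i₀ ∈ P, ∀ y : ℝ, 0 ≤ y →
      ∑ x ∈ (Conf sd lv M P).filter (fun x => (wt sd x true : ℝ) ≤ y), cm f (wt sd x true) ≤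
        y * exp (-(lv i₀ : ℝ)) *
          (∏ i ∈ P, ((Fintype.card ι : ℝ) ^ 2 * (σ : ℝ) ^ C * exp (-(lv i : ℝ)))) *
          ∑ x ∈ Conf sd lv M ∅, cm f (wt sd x true) / (wt sd x true : ℝ))
    (sd : ι → Bool) (lv : ι → ℕ) (P : Finset ι)
    (M τ T₀ m : ℕ) (hP : ∀ i ∈ P, b₀ ≤ lv i ∧ lv i ≤ τ) (hN : ∀ i, i ∉ P → lv i ≤ T₀) (hT : T₀ ≤ τ)
    (hτ : 1 ≤ τ) (hm : (Fintype.card ι) ^ 2 ≤ m) (hm2 : 2 * Fintype.card ι ≤ m)
    (hbig : ∀ l : ℕ, l.Prime → T₀ < blk l → m < l) {i₀ : ι} (hi₀ : i₀ ∈ P) {Y E₀ G : ℝ}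
    (hY : 0 ≤ Y) (hG : ∀ s, cS sd lv P τ s - cB sd lv P s ≤ G) (X : Finset (ι → ℕ))
    (hX : ∀ x ∈ X, x ∈ Conf sd lv M P ∧ (wt sd x true : ℝ) ≤ Y ∧
      1 ≤ cm (fun l => exp (cu sd lv P T₀ (2 * log (Fintype.card ι)) l)) (wt sd x true) *
        exp ((cS sd lv P τ true + cS sd lv P τ false) / 2 + E₀)) :
    (X.card : ℝ) ≤ Y * exp (-(lv i₀ : ℝ)) *
      ((Fintype.card ι : ℝ) ^ 2 * (τ : ℝ) ^ C) ^ (Fintype.card ι) *
        exp (G + E₀ + T₀ + 1 + Fintype.card ι + 8) := by
  classical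
  set n := Fintype.card ι with hndef
  have hn : 1 ≤ n := Fintype.card_pos_iff.mpr ⟨i₀⟩
  have hn' : (1 : ℝ) ≤ n := by exact_mod_cast hn
  have hτ' : (1 : ℝ) ≤ τ := by exact_mod_cast hτ
  set f : ℕ → ℝ := fun l => exp (cu sd lv P T₀ (2 * log n) l) with hf
  have hf01 : ∀ l, 0 ≤ f l ∧ f l ≤ 1 := by
    intro l
    refine ⟨(exp_pos _).le, Real.exp_le_one_iff.mpr ?_⟩
    unfold cu
    have b1 := Real.log_nonneg (le_max_right (czP sd lv P true (blk l) : ℝ) 1)
    have b2 := Real.log_nonneg (le_max_right (czP sd lv P false (blk l) : ℝ) 1)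
    have b3 := Real.log_nonneg hn'
    split_ifs <;> linarith
  set Ec := exp ((cS sd lv P τ true + cS sd lv P τ false) / 2 + E₀) with hEc
  have h1 : (X.card : ℝ) ≤ (∑ x ∈ (Conf sd lv M P).filter (fun x => (wt sd x true : ℝ) ≤ Y),
      cm f (wt sd x true)) * Ec := by
    calc (X.card : ℝ) = ∑ x ∈ X, (1 : ℝ) := by simp
      _ ≤ ∑ x ∈ X, cm f (wt sd x true) * Ec := Finset.sum_le_sum fun x hx => (hX x hx).2.2
      _ = (∑ x ∈ X, cm f (wt sd x true)) * Ec := by rw [Finset.sum_mul]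
      _ ≤ _ := by
        refine mul_le_mul_of_nonneg_right ?_ (exp_pos _).le
        refine Finset.sum_le_sum_of_subset_of_nonneg
          (fun x hx => Finset.mem_filter.mpr ⟨(hX x hx).1, (hX x hx).2.1⟩) fun x _ _ => ?_
        exact cm_nonneg fun l _ => (hf01 l).1
  have h2 := hC sd lv M τ P f hP hf01 i₀ hi₀ Y hY
  have h3 := col_free F Fr sd lv P M τ T₀ m (fun i hi => (hP i hi).2) hN hT hn hm hm2 hbig
  set Kc := (n : ℝ) ^ 2 * (τ : ℝ) ^ C with hKc
  have hKc1 : 1 ≤ Kc := one_le_mul_of_one_le_of_one_le (one_le_pow₀ hn') (one_le_pow₀ hτ')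
  have h4 : ∏ i ∈ P, (Kc * exp (-(lv i : ℝ))) ≤
      Kc ^ n * exp (-(cB sd lv P true + cB sd lv P false)) := by
    rw [Finset.prod_mul_distrib, Finset.prod_const, ← Real.exp_sum, col_cB_add,
      Finset.sum_neg_distrib]
    exact mul_le_mul_of_nonneg_right (pow_le_pow_right₀ hKc1 (Finset.card_le_univ P))
      (exp_pos _).le
  have h5 : 0 ≤ ∑ x ∈ Conf sd lv M ∅, cm f (wt sd x true) / (wt sd x true : ℝ) :=
    Finset.sum_nonneg fun x _ => div_nonneg (cm_nonneg fun l _ => (hf01 l).1) (Nat.cast_nonneg _)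
  have h6 : 0 ≤ Y * exp (-(lv i₀ : ℝ)) := by positivity
  calc (X.card : ℝ) ≤ _ := h1
    _ ≤ (Y * exp (-(lv i₀ : ℝ)) * (Kc ^ n * exp (-(cB sd lv P true + cB sd lv P false))) *
        exp ((cB sd lv P true + cB sd lv P false) / 2 + T₀ + 1 + n + 8)) * Ec := by
      refine mul_le_mul_of_nonneg_right (h2.trans ?_) (exp_pos _).le
      exact mul_le_mul (mul_le_mul_of_nonneg_left h4 h6) h3 h5 (by positivity)
    _ = Y * exp (-(lv i₀ : ℝ)) * Kc ^ n * exp (-(cB sd lv P true + cB sd lv P false) +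
        ((cB sd lv P true + cB sd lv P false) / 2 + T₀ + 1 + n + 8) +
        ((cS sd lv P τ true + cS sd lv P τ false) / 2 + E₀)) := by
      have e : ∀ a b c : ℝ, exp (a + b + c) = exp a * exp b * exp c := fun a b c => by
        rw [Real.exp_add, Real.exp_add]
      rw [hEc, e (-(cB sd lv P true + cB sd lv P false))]; ring
    _ ≤ _ := by
      refine mul_le_mul_of_nonneg_left (Real.exp_le_exp.mpr ?_) (by positivity)
      have := hG true
      have := hG false
      linarith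

end

end Vale.Agent.P031
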