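import Vale.Agent.P031.Collide2

namespace Vale.Agent.P031

open Finset Filter Real

lemma col_mem_Conf {ι : Type} [Fintype ι] [DecidableEq ι] {sd : ι → Bool} {lv : ι → ℕ} {M : ℕ}
    {P : Finset ι} {x : ι → ℕ} : x ∈ Conf sd lv M P ↔ (∀ i, x i ∈ Icc 1 M) ∧
    wt sd x true = wt sd x false ∧ (∀ i, ∀ l ∈ (x i).primeFactors, blk l ≤ lv i) ∧
      (∀ i ∈ P, (x i + 1).Prime ∧ (x i : ℝ) ≤ Ub (lv i) ∧
        ∃ l : ℕ, l.Prime ∧ l ∣ x i ∧ Lb (lv i) ≤ l) ∧
      ∀ i ∈ P, ∀ j ∈ P, sd i ≠ sd j → x i ≠ x j := by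
  unfold Conf
  simp only [Finset.mem_filter, Fintype.mem_piFinset]

lemma col_place (F : Facts) {K T₀ τ M b₁ : ℕ} (L : Bool → Finset ℕ) (μ : Bool → ℕ)
    (hK : ∀ s, (L s).card ≤ K) (hL : ∀ s, ∀ q ∈ L s, Normal q ∧ b₁ ≤ blk q ∧ blk q ≤ τ)
    (hμ : ∀ s, 1 ≤ μ s ∧ ∀ l ∈ (μ s).primeFactors, blk l ≤ T₀)
    (heq : μ true * val (L true) = μ false * val (L false)) (hM : μ true * val (L true) ≤ M)
    (hdis : Disjoint (L true) (L false)) :
    ∃ (P : Finset (Bool × Option (Fin K))) (lv x : Bool × Option (Fin K) → ℕ),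
      x ∈ Conf Prod.fst lv M P ∧ (∀ s, wt Prod.fst x s = μ s * val (L s)) ∧
      (∀ i ∈ P, b₁ ≤ lv i ∧ lv i ≤ τ) ∧ (∀ i, i ∉ P → lv i ≤ T₀) ∧
      (∀ s t, czP Prod.fst lv P s t = zge (L s) t) ∧
      (∀ s, cB Prod.fst lv P s = ∑ q ∈ L s, (blk q : ℝ)) ∧
      (∀ s, ∀ q ∈ L s, ∃ i ∈ P, lv i = blk q) ∧ x (true, none) = μ true ∧
      (P.filter fun i => i.1 = true).image (fun i => x i + 1) = L true := by
  classical
  choose I e hinj himg using fun s => col_slots (L s) K (hK s)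
  set P : Finset (Bool × Option (Fin K)) :=
    univ.filter fun i => ∃ j, i.2 = some j ∧ j ∈ I i.1 with hP
  set x : Bool × Option (Fin K) → ℕ := fun i =>
    i.2.elim (μ i.1) fun j => if j ∈ I i.1 then e i.1 j - 1 else 1 with hx
  set lv : Bool × Option (Fin K) → ℕ := fun i =>
    i.2.elim T₀ fun j => if j ∈ I i.1 then blk (e i.1 j) else 0 with hlv
  have memP : ∀ i, i ∈ P ↔ ∃ j, i.2 = some j ∧ j ∈ I i.1 := fun i => by simp [hP]
  have heL : ∀ s, ∀ j ∈ I s, e s j ∈ L s := fun s j hj => by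
    rw [← himg s]; exact Finset.mem_image_of_mem _ hj
  have hxP : ∀ s, ∀ j ∈ I s, x (s, some j) + 1 = e s j := fun s j hj => by
    have := (hL s _ (heL s j hj)).1.1.two_le
    simp only [hx, Option.elim, hj, if_true]; omega
  have hlvP : ∀ s, ∀ j ∈ I s, lv (s, some j) = blk (e s j) := fun s j hj => by
    simp only [hlv, Option.elim, hj, if_true]
  have hP1 : ∀ i ∈ P, x i + 1 ∈ L i.1 ∧ lv i = blk (x i + 1) := by
    rintro ⟨s, o⟩ hi
    obtain ⟨j, h1, h2⟩ := (memP _).mp hi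
    simp only at h1 h2
    subst h1
    rw [hxP s j h2, hlvP s j h2]
    exact ⟨heL s j h2, rfl⟩
  have hN1 : ∀ i, i ∉ P → (i.2 = none ∧ x i = μ i.1 ∧ lv i = T₀) ∨ (x i = 1 ∧ lv i = 0) := by
    rintro ⟨s, o⟩ hi
    cases o with
    | none => left; exact ⟨rfl, rfl, rfl⟩
    | some j =>
      right
      have : j ∉ I s := fun h => hi ((memP _).mpr ⟨j, rfl, h⟩)
      simp only [hx, hlv, Option.elim, this, if_false, and_self]
  have hinj' : ∀ s, Set.InjOn (fun i => x i + 1) (P.filter fun i => i.1 = s) := by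
    rintro s ⟨s1, o1⟩ h1 ⟨s2, o2⟩ h2 h12
    obtain ⟨a1, b1⟩ := Finset.mem_filter.mp (Finset.mem_coe.mp h1)
    obtain ⟨a2, b2⟩ := Finset.mem_filter.mp (Finset.mem_coe.mp h2)
    obtain ⟨j1, c1, d1⟩ := (memP _).mp a1
    obtain ⟨j2, c2, d2⟩ := (memP _).mp a2
    simp only at b1 b2 c1 c2 d1 d2 h12
    subst b1 b2 c1 c2
    rw [hxP _ j1 d1, hxP _ j2 d2] at h12
    rw [hinj _ d1 d2 h12]
  have himg' : ∀ s, (P.filter fun i => i.1 = s).image (fun i => x i + 1) = L s := by
    intro s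
    ext q
    simp only [Finset.mem_image, Finset.mem_filter]
    constructor
    · rintro ⟨i, ⟨h1, rfl⟩, rfl⟩; exact (hP1 i h1).1
    · intro hq
      rw [← himg s] at hq
      obtain ⟨j, hj, rfl⟩ := Finset.mem_image.mp hq
      exact ⟨(s, some j), ⟨(memP _).mpr ⟨j, rfl, hj⟩, rfl⟩, hxP s j hj⟩
  have hwt : ∀ s, wt Prod.fst x s = μ s * val (L s) := by
    intro s
    have h1 : (s, none) ∉ P.filter fun i => i.1 = s := by
      intro h
      obtain ⟨j, h1, _⟩ := (memP _).mp (Finset.mem_filter.mp h).1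
      simp at h1
    have h2 : wt Prod.fst x s = ∏ i ∈ insert (s, none) (P.filter fun i => i.1 = s), x i := by
      unfold wt
      symm
      refine Finset.prod_subset ?_ ?_
      · intro i hi
        rcases Finset.mem_insert.mp hi with rfl | h
        · simp
        · simp [(Finset.mem_filter.mp h).2]
      · intro i hi hi'
        have h3 : i.1 = s := (Finset.mem_filter.mp hi).2
        have h4 : i ∉ P := fun h => hi' (Finset.mem_insert_of_mem (Finset.mem_filter.mpr ⟨h, h3⟩))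
        rcases hN1 i h4 with h5 | h5
        · exact absurd (Finset.mem_insert.mpr (Or.inl (Prod.ext h3 h5.1))) hi'
        · exact h5.1
    rw [h2, Finset.prod_insert h1, ← himg' s]
    unfold val
    rw [Finset.prod_image (hinj' s)]
    simp only [Nat.add_sub_cancel]
    rfl
  have hval : ∀ s, 0 < μ s * val (L s) := fun s =>
    Nat.mul_pos (hμ s).1 (val_pos fun q hq => (hL s q hq).1.1)
  have hwM : ∀ s, μ s * val (L s) ≤ M := by
    intro s; cases s
    · rw [← heq]; exact hM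
    · exact hM
  refine ⟨P, lv, x, ?_, hwt, ?_, ?_, ?_, ?_, ?_, rfl, himg' true⟩
  · refine col_mem_Conf.mpr ⟨fun i => ?_, ?_, ?_, ?_, ?_⟩
    · have h1 : x i ∣ μ i.1 * val (L i.1) := by
        rw [← hwt]; unfold wt
        exact Finset.dvd_prod_of_mem _ (by simp)
      exact Finset.mem_Icc.mpr ⟨Nat.pos_of_dvd_of_pos h1 (hval _),
        (Nat.le_of_dvd (hval _) h1).trans (hwM _)⟩
    · rw [hwt, hwt, heq]
    · intro i l hl
      by_cases hi : i ∈ P
      · rw [(hP1 i hi).2]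
        exact blk_mono ((Nat.le_of_mem_primeFactors hl).trans (Nat.le_succ _))
      · rcases hN1 i hi with h | h
        · rw [h.2.2]; rw [h.2.1] at hl; exact (hμ _).2 l hl
        · rw [h.1] at hl; simp at hl
    · intro i hi
      obtain ⟨h1, h2⟩ := hP1 i hi
      have h3 := (hL _ _ h1).1
      refine ⟨h3.1, ?_, ?_⟩
      · have := F.le_Ub (x i + 1) (lv i) h3.1.two_le h2.ge
        push_cast at this; linarith
      · obtain ⟨l, a1, a2, a3⟩ := h3.2.2
        exact ⟨l, a1, by simpa using a2, by rw [h2]; exact a3⟩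
    · intro i hi j hj hij hxij
      have h1 := (hP1 i hi).1
      have h2 := (hP1 j hj).1
      rw [← hxij] at h2
      rcases i with ⟨si, oi⟩
      rcases j with ⟨sj, oj⟩
      cases si <;> cases sj
      · exact hij rfl
      · exact Finset.disjoint_left.mp hdis h2 h1
      · exact Finset.disjoint_left.mp hdis h1 h2
      · exact hij rfl
  · intro i hi
    rw [(hP1 i hi).2]
    exact (hL _ _ (hP1 i hi).1).2
  · intro i hi
    rcases hN1 i hi with h | h
    · exact h.2.2.le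
    · omega
  · intro s t
    unfold czP zge
    rw [← himg' s, Finset.filter_image, Finset.card_image_of_injOn
      ((hinj' s).mono (Finset.coe_subset.mpr (Finset.filter_subset _ _)))]
    congr 1
    ext i
    simp only [Finset.mem_filter]
    constructor
    · rintro ⟨a, b, c⟩
      exact ⟨⟨a, b⟩, by rwa [← (hP1 i a).2]⟩
    · rintro ⟨⟨a, b⟩, c⟩
      exact ⟨a, b, by rwa [(hP1 i a).2]⟩
  · intro s
    unfold cB
    rw [← himg' s, Finset.sum_image (hinj' s)]
    refine Finset.sum_congr rfl fun i hi => ?_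
    rw [(hP1 i (Finset.mem_filter.mp hi).1).2]
  · intro s q hq
    rw [← himg' s] at hq
    obtain ⟨i, hi, rfl⟩ := Finset.mem_image.mp hq
    exact ⟨i, (Finset.mem_filter.mp hi).1, (hP1 i (Finset.mem_filter.mp hi).1).2⟩

/-- the Rankin inequality for a placed configuration -/
lemma col_rankin (P : Prof) {ι : Type} {sd : ι → Bool} {lv : ι → ℕ} {Ps : Finset ι}
    {K T₀ τ : ℕ} (L : Bool → Finset ℕ) (μ : Bool → ℕ) {c₀ m₀ : ℝ} (hc₀ : 0 ≤ c₀) (hK1 : 1 ≤ K)
    (hK : ∀ s, (L s).card ≤ K) (hL : ∀ s, ∀ q ∈ L s, Normal q ∧ blk q ≤ τ)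
    (hμ : ∀ s, 1 ≤ μ s ∧ log (μ s) ≤ m₀)
    (heq : μ true * val (L true) = μ false * val (L false))
    (hz : ∀ s t, czP sd lv Ps s t = zge (L s) t) :
    1 ≤ cm (fun l => exp (cu sd lv Ps T₀ c₀ l)) (μ true * val (L true)) *
      exp ((cS sd lv Ps τ true + cS sd lv Ps τ false) / 2 +
        (c₀ * (K * (T₀ + 1 + h0 τ) + 2 * m₀) + log K * (K * h0 τ + 2 * m₀))) := by
  rw [cm_exp, ← Real.exp_add]
  refine Real.one_le_exp ?_
  set w := μ true * val (L true) with hw
  have h1 : (w.factorization.sum fun l e => (e : ℝ) * cu sd lv Ps T₀ c₀ l) =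
      -(c₀ * NN (T₀ + 1) w +
        (w.factorization.sum fun l e => (e : ℝ) * log (max (zge (L true) (blk l) : ℝ) 1)) / 2 +
        (w.factorization.sum fun l e => (e : ℝ) * log (max (zge (L false) (blk l) : ℝ) 1)) / 2) := by
    rw [NN_eq_sum]
    simp only [Finsupp.sum, Nat.support_factorization]
    push_cast
    rw [Finset.mul_sum, Finset.sum_div, Finset.sum_div, ← Finset.sum_add_distrib,
      ← Finset.sum_add_distrib, ← Finset.sum_neg_distrib]
    refine Finset.sum_congr rfl fun l _ => ?_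
    unfold cu
    rw [hz, hz]
    split_ifs <;> ring
  have hlK : 0 ≤ log (K : ℝ) := Real.log_nonneg (by exact_mod_cast hK1)
  have hside : ∀ s, ((μ s * val (L s)).factorization.sum
      fun l e => (e : ℝ) * log (max (zge (L s) (blk l) : ℝ) 1)) ≤
      cS sd lv Ps τ s + log K * (K * h0 τ + 2 * m₀) := by
    intro s
    refine (col_side P (hL s) (hμ s).1 (hK s) hK1).trans ?_
    unfold cS
    simp only [hz]
    have := (hμ s).2
    gcongr
  have h2 := hside true
  have h3 := hside false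
  rw [← heq] at h3
  have h4 : (NN (T₀ + 1) w : ℝ) ≤ K * (T₀ + 1 + h0 τ) + 2 * m₀ := by
    have a1 := col_nn_le P (hL true) (hμ true).1 (T₀ + 1)
    have a2 : ∑ q ∈ L true, min ((T₀ + 1 : ℕ) : ℝ) ((blk q : ℝ) + 1) ≤ (L true).card * (T₀ + 1 : ℝ) := by
      have := Finset.sum_le_card_nsmul (L true)
        (fun q => min ((T₀ + 1 : ℕ) : ℝ) ((blk q : ℝ) + 1)) (T₀ + 1 : ℝ) fun q _ => by
          push_cast; exact min_le_left _ _
      rwa [nsmul_eq_mul] at this
    have a3 : ((L true).card : ℝ) ≤ K := by exact_mod_cast hK true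
    have a4 : 0 ≤ h0 τ := col_h0_nonneg (Nat.cast_nonneg _)
    have a5 : ((L true).card : ℝ) * (T₀ + 1 : ℝ) ≤ K * (T₀ + 1 : ℝ) := by gcongr
    have a6 : ((L true).card : ℝ) * h0 τ ≤ K * h0 τ := by gcongr
    have a7 := (hμ true).2
    linarith
  have h5 := mul_le_mul_of_nonneg_left h4 hc₀
  rw [h1]
  linarith

end Vale.Agent.P031
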