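import Vale.Agent.P031.Collide3

namespace Vale.Agent.P031

open Finset Filter Real

lemma col_num1 (D : ℝ) : ∀ᶠ u : ℝ in atTop, D * (log u) ^ 2 * h0 u ≤ hh u / 2 := by
  have h1 : (fun s : ℝ => log s ^ (2 : ℝ)) =o[atTop] fun s : ℝ => s ^ (1 / 12 : ℝ) :=
    isLittleO_log_rpow_rpow_atTop 2 (by norm_num)
  have hpos : 0 < 1 / (2 * (|D| + 1)) := by positivity
  filter_upwards [h1.bound hpos, eventually_gt_atTop 1] with s h hs
  have hs0 : 0 < s := by linarith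
  have hl : 0 < log s := Real.log_pos hs
  rw [Real.norm_of_nonneg (by positivity), Real.norm_of_nonneg (by positivity)] at h
  have e3 : log s ^ (2 : ℝ) = log s ^ 2 := by exact_mod_cast Real.rpow_natCast (log s) 2
  rw [e3] at h
  have e1 : hh s = s ^ (1 / 12 : ℝ) * h0 s := by
    unfold hh h0; rw [← Real.rpow_add hs0]; norm_num
  have h0p : 0 ≤ h0 s := col_h0_nonneg hs0.le
  have hD : D ≤ |D| + 1 := by have := le_abs_self D; linarith
  calc D * (log s) ^ 2 * h0 s ≤ (|D| + 1) * (1 / (2 * (|D| + 1)) * s ^ (1 / 12 : ℝ)) * h0 s := by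
        gcongr
    _ = hh s / 2 := by rw [e1]; field_simp

lemma col_num2 : ∀ᶠ u : ℝ in atTop, 26 * log u + 30 ≤ √u := by
  have h1 : (fun s : ℝ => log s) =o[atTop] fun s : ℝ => s ^ (1 / 2 : ℝ) :=
    isLittleO_log_rpow_atTop (by norm_num)
  filter_upwards [h1.bound (show (0 : ℝ) < 1 / 52 by norm_num), eventually_ge_atTop 3600] with x h hx
  have hl : 0 < log x := Real.log_pos (by linarith)
  rw [Real.norm_of_nonneg hl.le, Real.norm_of_nonneg (by positivity), ← Real.sqrt_eq_rpow] at h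
  have : 60 ≤ √x := Real.le_sqrt_of_sq_le (by linarith)
  linarith

set_option maxHeartbeats 1000000 in
lemma col_num3 (C : ℕ) : ∀ᶠ σ : ℕ in atTop, ∀ K n τ T₀ : ℕ, K = ⌊11 * log σ⌋₊ + 1 →
    n = 2 * (K + 1) → τ = σ + 30 → T₀ = ⌈√σ⌉₊ →
    (1 + 2 * ((σ : ℝ) + 1)) ^ K * ((2 : ℝ) ^ n * ((τ : ℝ) + 1) ^ n) *
      (exp (30 - σ) * ((n : ℝ) ^ 2 * (τ : ℝ) ^ C) ^ n *
        exp ((K * log K - hh σ / 2 + 30) +
          (2 * log n * (K * (T₀ + 1 + h0 τ) + 2 * (σ : ℝ) ^ (1 / 10 : ℝ)) +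
            log K * (K * h0 τ + 2 * (σ : ℝ) ^ (1 / 10 : ℝ))) + T₀ + 1 + n + 8)) ≤
      exp (-(σ : ℝ)) * eps σ := by
  filter_upwards [tendsto_natCast_atTop_atTop.eventually (col_num1 (414 + 52 * C)),
    tendsto_natCast_atTop_atTop.eventually col_num2,
    (Real.tendsto_log_atTop.comp tendsto_natCast_atTop_atTop).eventually_ge_atTop 2,
    eventually_ge_atTop 31] with σ h1 h2 h3 h4 K n τ T₀ hK hn hτ hT
  simp only [Function.comp] at h3
  have hσ : (31 : ℝ) ≤ σ := by exact_mod_cast h4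
  set Λ := log (σ : ℝ) with hΛ
  set h := h0 σ with hh'
  have hK1 : (1 : ℝ) ≤ K := by rw [hK]; push_cast; linarith [Nat.cast_nonneg (α := ℝ) ⌊11 * Λ⌋₊]
  have hK2 : (K : ℝ) ≤ 12 * Λ := by
    rw [hK]; push_cast
    have := Nat.floor_le (show 0 ≤ 11 * Λ by linarith)
    linarith
  have hn' : (n : ℝ) = 2 * (K + 1) := by rw [hn]; push_cast; ring
  have hn2 : (n : ℝ) ≤ 26 * Λ := by linarith
  have hsq : √(σ : ℝ) ≤ σ := Real.sqrt_le_iff.mpr ⟨by linarith, by nlinarith⟩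
  have hnσ : (n : ℝ) ≤ σ := by linarith
  have hln : log n ≤ Λ := Real.log_le_log (by linarith) hnσ
  have hln0 : 0 ≤ log (n : ℝ) := Real.log_nonneg (by linarith)
  have hlK : log K ≤ Λ := Real.log_le_log (by linarith) (by linarith)
  have hlK0 : 0 ≤ log (K : ℝ) := Real.log_nonneg hK1
  have hτ' : (τ : ℝ) = σ + 30 := by rw [hτ]; push_cast; ring
  have hl2 : ∀ v : ℝ, 0 < v → v ≤ (σ : ℝ) ^ 2 → log v ≤ 2 * Λ := fun v hv hv' => by
    have := Real.log_le_log hv hv'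
    rwa [Real.log_pow] at this
  have hlτ : log τ ≤ 2 * Λ := hl2 _ (by linarith) (by nlinarith)
  have hlτ0 : 0 ≤ log (τ : ℝ) := Real.log_nonneg (by linarith)
  have hlτ1 : log (τ + 1) ≤ 2 * Λ := hl2 _ (by linarith) (by nlinarith)
  have hlσ : log (1 + 2 * ((σ : ℝ) + 1)) ≤ 2 * Λ := hl2 _ (by linarith) (by nlinarith)
  have hlog2 : log 2 ≤ 1 := by have := Real.log_two_lt_d9; linarith
  have hpow : ∀ a : ℝ, a ≤ 2 / 3 → (σ : ℝ) ^ a ≤ h := fun a ha =>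
    Real.rpow_le_rpow_of_exponent_le (by linarith) ha
  have hh1 : 1 ≤ h := by have := hpow 0 (by norm_num); rwa [Real.rpow_zero] at this
  have hsq2 : √(σ : ℝ) ≤ h := by rw [Real.sqrt_eq_rpow]; exact hpow _ (by norm_num)
  have hT' : (T₀ : ℝ) + 1 ≤ 3 * h := by
    have := Nat.ceil_lt_add_one (Real.sqrt_nonneg (σ : ℝ))
    rw [hT]; linarith
  have hhτ : h0 τ ≤ 2 * h := by
    have a1 : h0 τ ≤ h0 (2 * σ) := col_h0_mono (by linarith) (by linarith)
    have a2 : h0 (2 * σ) = h0 2 * h := Real.mul_rpow (by norm_num) (by linarith)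
    have a3 : h0 2 ≤ 2 := by
      unfold h0
      calc (2 : ℝ) ^ (2 / 3 : ℝ) ≤ 2 ^ (1 : ℝ) :=
            Real.rpow_le_rpow_of_exponent_le (by norm_num) (by norm_num)
        _ = 2 := Real.rpow_one 2
    nlinarith
  have hhτ0 : 0 ≤ h0 τ := col_h0_nonneg (by linarith)
  have hm := hpow (1 / 10) (by norm_num)
  have hm0 : 0 ≤ (σ : ℝ) ^ (1 / 10 : ℝ) := by positivity
  have hq := hpow (1 / 4) (by norm_num)
  have e1 : (1 + 2 * ((σ : ℝ) + 1)) ^ K = exp (K * log (1 + 2 * ((σ : ℝ) + 1))) := by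
    rw [Real.exp_nat_mul, Real.exp_log (by linarith)]
  have e2 : (2 : ℝ) ^ n = exp (n * log 2) := by
    rw [Real.exp_nat_mul, Real.exp_log (by norm_num)]
  have e3 : ((τ : ℝ) + 1) ^ n = exp (n * log (τ + 1)) := by
    rw [Real.exp_nat_mul, Real.exp_log (by linarith)]
  have e4 : ((n : ℝ) ^ 2 * (τ : ℝ) ^ C) ^ n = exp (n * (2 * log n + C * log τ)) := by
    rw [Real.exp_nat_mul, Real.exp_add, Real.exp_nat_mul, Real.exp_log (by linarith),
      show (2 : ℝ) * log n = ((2 : ℕ) : ℝ) * log n by norm_num, Real.exp_nat_mul,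
      Real.exp_log (by linarith)]
  unfold eps
  rw [e1, e2, e3, e4, ← Real.exp_add, ← Real.exp_add, ← Real.exp_add, ← Real.exp_add,
    ← Real.exp_add, ← Real.exp_add]
  refine Real.exp_le_exp.mpr ?_
  set W := Λ ^ 2 * h with hW
  have hC0 : (0 : ℝ) ≤ C := Nat.cast_nonneg _
  have w1 : Λ ^ 2 ≤ W := le_mul_of_one_le_right (by positivity) hh1
  have w2 : Λ ≤ Λ ^ 2 := by nlinarith
  have w3 : h ≤ Λ * h := le_mul_of_one_le_left (by linarith) (by linarith)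
  have w4 : Λ * h ≤ W := by rw [hW]; gcongr
  have t1 : K * log (1 + 2 * ((σ : ℝ) + 1)) ≤ 12 * Λ * (2 * Λ) :=
    mul_le_mul hK2 hlσ (Real.log_nonneg (by linarith)) (by linarith)
  have t2 : n * log 2 ≤ 26 * Λ * 1 :=
    mul_le_mul hn2 hlog2 (Real.log_nonneg (by norm_num)) (by linarith)
  have t3 : n * log (τ + 1) ≤ 26 * Λ * (2 * Λ) :=
    mul_le_mul hn2 hlτ1 (Real.log_nonneg (by linarith)) (by linarith)
  have t4 : n * (2 * log n + C * log τ) ≤ 26 * Λ * (2 * Λ + C * (2 * Λ)) := by gcongr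
  have t5 : K * log K ≤ 12 * Λ * Λ := by gcongr
  have t6 : 2 * log n * (K * (T₀ + 1 + h0 τ) + 2 * (σ : ℝ) ^ (1 / 10 : ℝ)) ≤
      2 * Λ * (12 * Λ * (3 * h + 2 * h) + 2 * h) := by gcongr
  have t7 : log K * (K * h0 τ + 2 * (σ : ℝ) ^ (1 / 10 : ℝ)) ≤ Λ * (12 * Λ * (2 * h) + 2 * h) := by
    gcongr
  have t8 : C * Λ ^ 2 ≤ C * W := by gcongr
  have t9 : (414 + 52 * C) * W ≤ hh σ / 2 := by rw [hW, ← mul_assoc]; exact h1
  nlinarith

end Vale.Agent.P031
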