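import Vale.Agent.P031.Defs

/-! Removing the primality conditions one largest prime factor at a time. -/

namespace Vale.Agent.P031

open Finset Filter Real

theorem core_sum_le {α β : Type*} (s : Finset α) (t : Finset β) (φ : β → α) (F : α → ℝ)
    (G : β → ℝ) (hG : ∀ b ∈ t, 0 ≤ G b) (h : ∀ a ∈ s, ∃ b ∈ t, φ b = a ∧ F a ≤ G b) :
    ∑ a ∈ s, F a ≤ ∑ b ∈ t, G b := by
  classical
  rcases s.eq_empty_or_nonempty with rfl | ⟨a₀, ha₀⟩
  · exact Finset.sum_nonneg hG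
  have : Nonempty β := ⟨(h a₀ ha₀).choose⟩
  choose! g hg using h
  calc ∑ a ∈ s, F a ≤ ∑ a ∈ s, G (g a) := Finset.sum_le_sum fun a ha => (hg a ha).2.2
    _ = ∑ b ∈ s.image g, G b := by
        rw [Finset.sum_image]
        intro a ha a' ha' haa
        rw [← (hg a ha).2.1, ← (hg a' ha').2.1, haa]
    _ ≤ _ := Finset.sum_le_sum_of_subset_of_nonneg
        (Finset.image_subset_iff.2 fun a ha => (hg a ha).1) fun b hb _ => hG b hb

variable {ι : Type} [Fintype ι] [DecidableEq ι]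

/-- multiply the slots `i` and `j` by `l` -/
def coreMul (i j : ι) (l : ℕ) (x : ι → ℕ) : ι → ℕ := fun k => x k * if k = i ∨ k = j then l else 1

theorem core_wt_mul {sd : ι → Bool} {i j : ι} (hij : sd j ≠ sd i) (l : ℕ) (x : ι → ℕ) (s : Bool) :
    wt sd (coreMul i j l x) s = l * wt sd x s := by
  unfold wt coreMul
  rw [Finset.prod_mul_distrib, mul_comm]
  congr 1
  by_cases hs : sd i = s
  · rw [Finset.prod_eq_single i]
    · simp
    · intro k hk hki
      rw [if_neg]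
      rintro (h | h)
      · exact hki h
      · exact hij (by rw [← h, (Finset.mem_filter.1 hk).2, hs])
    · intro h
      exact absurd (by simpa using hs) h
  · have hj : sd j = s := by
      revert hij hs
      cases sd i <;> cases sd j <;> cases s <;> simp
    rw [Finset.prod_eq_single j]
    · simp
    · intro k hk hkj
      rw [if_neg]
      rintro (h | h)
      · exact hs (by rw [← h, (Finset.mem_filter.1 hk).2])
      · exact hkj h
    · intro h
      exact absurd (by simpa using hj) h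

theorem core_mem_Conf {sd : ι → Bool} {lv : ι → ℕ} {M : ℕ} {P : Finset ι} {x : ι → ℕ} :
    x ∈ Conf sd lv M P ↔ (∀ i, 1 ≤ x i ∧ x i ≤ M) ∧ wt sd x true = wt sd x false ∧
      (∀ i, ∀ l ∈ (x i).primeFactors, blk l ≤ lv i) ∧
      (∀ i ∈ P, (x i + 1).Prime ∧ (x i : ℝ) ≤ Ub (lv i) ∧
        ∃ l : ℕ, l.Prime ∧ l ∣ x i ∧ Lb (lv i) ≤ l) ∧
      ∀ i ∈ P, ∀ j ∈ P, sd i ≠ sd j → x i ≠ x j := by
  classical
  unfold Conf
  simp only [Finset.mem_filter, Fintype.mem_piFinset, Finset.mem_Icc]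

theorem core_wt_pos {sd : ι → Bool} {lv : ι → ℕ} {M : ℕ} {P : Finset ι} {x : ι → ℕ}
    (hx : x ∈ Conf sd lv M P) (s : Bool) : 0 < wt sd x s :=
  Finset.prod_pos fun i _ => ((core_mem_Conf.1 hx).1 i).1

/-- the admissible primes -/
def coreAdm (lv : ι → ℕ) (P : Finset ι) (i j : ι) (x : ι → ℕ) (l : ℕ) : Prop :=
  l.Prime ∧ (∀ k ∈ P, Lb (lv k) ≤ l) ∧ (x i * l + 1).Prime ∧ ((x i * l : ℕ) : ℝ) ≤ Ub (lv i) ∧
    (j ∈ P → (x j * l + 1).Prime ∧ ((x j * l : ℕ) : ℝ) ≤ Ub (lv j) ∧ x i ≠ x j)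

theorem core_decomp {sd : ι → Bool} {lv : ι → ℕ} {M : ℕ} {P : Finset ι} (hP : P.Nonempty)
    {x : ι → ℕ} (hx : x ∈ Conf sd lv M P) :
    ∃ i ∈ P, ∃ j, sd j ≠ sd i ∧ ∃ x' ∈ Conf sd lv M ((P.erase i).erase j), ∃ l ∈ Icc 1 M,
      coreAdm lv P i j x' l ∧ coreMul i j l x' = x := by
  obtain ⟨h1, h2, h3, h4, h5⟩ := core_mem_Conf.1 hx
  obtain ⟨⟨i, l⟩, hil, hmax⟩ := Finset.exists_max_image
    (P.sigma fun i => (x i).primeFactors) (fun p => p.2) (by
      obtain ⟨i, hi⟩ := hP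
      obtain ⟨l, hl, hlx, -⟩ := (h4 i hi).2.2
      exact ⟨⟨i, l⟩, Finset.mem_sigma.2 ⟨hi, hl.mem_primeFactors hlx (Nat.one_le_iff_ne_zero.1 (h1 i).1)⟩⟩)
  obtain ⟨hi, hl⟩ := Finset.mem_sigma.1 hil
  simp only at hi hl hmax
  have hlp : l.Prime := Nat.prime_of_mem_primeFactors hl
  have hli : l ∣ x i := Nat.dvd_of_mem_primeFactors hl
  obtain ⟨j, hj, hlj⟩ : ∃ j, sd j ≠ sd i ∧ l ∣ x j := by
    have h6 : l ∣ wt sd x (sd i) :=
      hli.trans (Finset.dvd_prod_of_mem _ (Finset.mem_filter.2 ⟨Finset.mem_univ _, rfl⟩))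
    have h7 : wt sd x (sd i) = wt sd x (!sd i) := by
      cases sd i
      · exact h2.symm
      · exact h2
    rw [h7] at h6
    obtain ⟨j, hj, hlj⟩ := (Prime.dvd_finsetProd_iff hlp.prime _).1 h6
    refine ⟨j, ?_, hlj⟩
    rw [(Finset.mem_filter.1 hj).2]
    cases sd i <;> simp
  set x' : ι → ℕ := fun k => if k = i ∨ k = j then x k / l else x k with hx'
  have hmul : coreMul i j l x' = x := by
    funext k
    simp only [coreMul, hx']
    split_ifs with hk
    · rcases hk with rfl | rfl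
      · exact Nat.div_mul_cancel hli
      · exact Nat.div_mul_cancel hlj
    · exact mul_one _
  have hdvd : ∀ k, x' k ∣ x k := fun k => ⟨_, (congrFun hmul k).symm⟩
  have hxi : x' i * l = x i := by simpa [coreMul] using congrFun hmul i
  have hxj : x' j * l = x j := by simpa [coreMul] using congrFun hmul j
  have hxk : ∀ k ∈ (P.erase i).erase j, x' k = x k ∧ k ∈ P := fun k hk => by
    simp only [Finset.mem_erase] at hk
    exact ⟨if_neg (by tauto), hk.2.2⟩
  refine ⟨i, hi, j, hj, x', core_mem_Conf.2 ⟨fun k => ?_, ?_, fun k q hq => ?_, fun k hk => ?_,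
    fun k hk k' hk' => ?_⟩, l, Finset.mem_Icc.2 ⟨hlp.one_le, ?_⟩, ⟨hlp, fun k hk => ?_, ?_, ?_,
    fun hjP => ⟨?_, ?_, fun h => ?_⟩⟩, hmul⟩
  · exact ⟨Nat.pos_of_dvd_of_pos (hdvd k) (h1 k).1,
      (Nat.le_of_dvd (h1 k).1 (hdvd k)).trans (h1 k).2⟩
  · rw [← hmul, core_wt_mul hj, core_wt_mul hj] at h2
    exact Nat.eq_of_mul_eq_mul_left hlp.pos h2
  · exact h3 k q (Nat.primeFactors_mono (hdvd k) (by have := h1 k; omega) hq)
  · rw [(hxk k hk).1]
    exact h4 k (hxk k hk).2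
  · rw [(hxk k hk).1, (hxk k' hk').1]
    exact h5 k (hxk k hk).2 k' (hxk k' hk').2
  · exact (Nat.le_of_dvd (h1 i).1 hli).trans (h1 i).2
  · obtain ⟨q, hq, hqx, hq'⟩ := (h4 k hk).2.2
    have := hmax ⟨k, q⟩ (Finset.mem_sigma.2 ⟨hk, hq.mem_primeFactors hqx
      (Nat.one_le_iff_ne_zero.1 (h1 k).1)⟩)
    exact hq'.trans (by exact_mod_cast this)
  · rw [hxi]
    exact (h4 i hi).1
  · rw [hxi]
    exact (h4 i hi).2.1
  · rw [hxj]
    exact (h4 j hjP).1
  · rw [hxj]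
    exact (h4 j hjP).2.1
  · exact h5 i hi j hjP hj.symm (by rw [← hxi, ← hxj, h])

theorem core_step {sd : ι → Bool} {lv : ι → ℕ} {M : ℕ} {P : Finset ι} (hP : P.Nonempty)
    {f : ℕ → ℝ} (hf : ∀ l, 0 ≤ f l ∧ f l ≤ 1) {Wt : ℕ → ℝ} (hW : ∀ n, 0 ≤ Wt n) {c : ι → ι → ℝ}
    (hc : ∀ i ∈ P, ∀ j, ∀ (x : ι → ℕ) (w : ℕ) (Λ : Finset ℕ), 0 < w → (∀ k, 1 ≤ x k) →
      (∀ l ∈ Λ, coreAdm lv P i j x l) → ∑ l ∈ Λ, Wt (l * w) ≤ c i j / w) :
    ∑ x ∈ Conf sd lv M P, cm f (wt sd x true) * Wt (wt sd x true) ≤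
      ∑ i ∈ P, ∑ j ∈ univ.filter (fun j => sd j ≠ sd i), c i j *
        ∑ x ∈ Conf sd lv M ((P.erase i).erase j), cm f (wt sd x true) / (wt sd x true : ℝ) := by
  classical
  have hcm : ∀ n, 0 ≤ cm f n := fun n => cm_nonneg fun l _ => (hf l).1
  refine (core_sum_le _ (P.sigma fun i => (univ.filter fun j => sd j ≠ sd i).sigma fun j =>
      (Conf sd lv M ((P.erase i).erase j)).sigma fun x => (Icc 1 M).filter (coreAdm lv P i j x))
    (fun t => coreMul t.1 t.2.1 t.2.2.2 t.2.2.1) _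
    (fun t => cm f (wt sd t.2.2.1 true) * Wt (t.2.2.2 * wt sd t.2.2.1 true))
    (fun t _ => mul_nonneg (hcm _) (hW _)) fun x hx => ?_).trans ?_
  · obtain ⟨i, hi, j, hj, x', hx', l, hl, hadm, rfl⟩ := core_decomp hP hx
    refine ⟨⟨i, j, x', l⟩, ?_, rfl, ?_⟩
    · simp only [Finset.mem_sigma, Finset.mem_filter, Finset.mem_univ, true_and]
      exact ⟨hi, hj, hx', hl, hadm⟩
    · simp only
      rw [core_wt_mul hj, cm_mul _ hadm.1.ne_zero (core_wt_pos hx' _).ne', cm_prime _ hadm.1]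
      exact mul_le_mul_of_nonneg_right (mul_le_of_le_one_left (hcm _) (hf l).2) (hW _)
  · simp only [Finset.sum_sigma]
    refine Finset.sum_le_sum fun i hi => Finset.sum_le_sum fun j _ => ?_
    rw [Finset.mul_sum]
    refine Finset.sum_le_sum fun x hx => ?_
    rw [← Finset.mul_sum]
    refine (mul_le_mul_of_nonneg_left (hc i hi j x _ _ (core_wt_pos hx _)
      (fun k => ((core_mem_Conf.1 hx).1 k).1) fun l hl => (Finset.mem_filter.1 hl).2)
      (hcm _)).trans (le_of_eq ?_)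
    ring

theorem core_combine {sd : ι → Bool} {lv : ι → ℕ} {P : Finset ι} {s a S₀ : ℝ}
    {S : Finset ι → ℝ} (hs : 1 ≤ s) (ha : 0 ≤ a) (hS₀ : 0 ≤ S₀)
    (hS : ∀ i ∈ P, ∀ j, S ((P.erase i).erase j) ≤
      (∏ k ∈ (P.erase i).erase j, ((Fintype.card ι : ℝ) ^ 2 * s * exp (-(lv k : ℝ)))) * S₀) :
    ∑ i ∈ P, ∑ j ∈ univ.filter (fun j => sd j ≠ sd i),
      (a * (s * exp (-(lv i : ℝ)) * if j ∈ P.erase i then exp (-(lv j : ℝ)) else 1)) *
        S ((P.erase i).erase j) ≤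
      a * (∏ k ∈ P, ((Fintype.card ι : ℝ) ^ 2 * s * exp (-(lv k : ℝ)))) * S₀ := by
  set n : ℝ := ((Fintype.card ι : ℕ) : ℝ) with hn
  set T : ℝ := a * (∏ k ∈ P, (n ^ 2 * s * exp (-(lv k : ℝ)))) * S₀ with hT
  rcases P.eq_empty_or_nonempty with rfl | ⟨i₀, -⟩
  · simp only [Finset.sum_empty, hT]
    positivity
  have hn1 : 1 ≤ n := by
    have : 0 < Fintype.card ι := Fintype.card_pos_iff.2 ⟨i₀⟩
    rw [hn]
    exact_mod_cast this
  have hT0 : 0 ≤ T := by positivity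
  have h1 : ∀ i ∈ P, ∀ j,
      (a * (s * exp (-(lv i : ℝ)) * if j ∈ P.erase i then exp (-(lv j : ℝ)) else 1)) *
        S ((P.erase i).erase j) ≤ T / n ^ 2 := by
    intro i hi j
    refine (mul_le_mul_of_nonneg_left (hS i hi j) (by split_ifs <;> positivity)).trans ?_
    rw [le_div_iff₀ (by positivity), hT, ← Finset.mul_prod_erase P _ hi]
    split_ifs with hj
    · rw [← Finset.mul_prod_erase _ _ hj]
      have h2 : exp (-(lv j : ℝ)) ≤ n ^ 2 * s * exp (-(lv j : ℝ)) :=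
        le_mul_of_one_le_left (exp_pos _).le (one_le_mul_of_one_le_of_one_le (one_le_pow₀ hn1) hs)
      have h3 := mul_le_mul_of_nonneg_right h2 (show 0 ≤ a * (n ^ 2 * s * exp (-(lv i : ℝ))) *
        ((∏ k ∈ (P.erase i).erase j, (n ^ 2 * s * exp (-(lv k : ℝ)))) * S₀) by positivity)
      linarith
    · rw [Finset.erase_eq_of_notMem hj]
      exact le_of_eq (by ring)
  calc _ ≤ ∑ _i ∈ P, ∑ _j : ι, T / n ^ 2 := by
        refine Finset.sum_le_sum fun i hi => ?_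
        exact (Finset.sum_le_sum fun j _ => h1 i hi j).trans
          (Finset.sum_le_sum_of_subset_of_nonneg (Finset.subset_univ _) fun _ _ _ => by positivity)
    _ ≤ ∑ _i : ι, ∑ _j : ι, T / n ^ 2 :=
        Finset.sum_le_sum_of_subset_of_nonneg (Finset.subset_univ _) fun _ _ _ => by positivity
    _ = T := by
        simp only [Finset.sum_const, Finset.card_univ, nsmul_eq_mul, ← hn]
        field_simp

omit [Fintype ι] in
theorem core_count {C b₀ : ℕ}
    (hS : ∀ b : ℕ, b₀ ≤ b → ∀ α α' : ℕ, 1 ≤ α → 1 ≤ α' → (α : ℝ) ≤ Ub b → (α' : ℝ) ≤ Ub b →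
      ∀ X : ℝ, 0 ≤ X →
      ((((range (⌊X⌋₊ + 1)).filter fun l : ℕ =>
          l.Prime ∧ Lb b ≤ l ∧ (α * l + 1).Prime).card : ℝ) ≤ X * exp (-(2 * b : ℝ)) * (b : ℝ) ^ C) ∧
      (α ≠ α' → (((range (⌊X⌋₊ + 1)).filter fun l : ℕ =>
          l.Prime ∧ Lb b ≤ l ∧ (α * l + 1).Prime ∧ (α' * l + 1).Prime).card : ℝ) ≤
            X * exp (-(3 * b : ℝ)) * (b : ℝ) ^ C))
    {lv : ι → ℕ} {P : Finset ι} (hP : ∀ k ∈ P, b₀ ≤ lv k) {i j k : ι} (hk : k ∈ P)
    (hik : lv i ≤ lv k) (hjk : j ∈ P → lv j ≤ lv k) {x : ι → ℕ} (hx : ∀ k, 1 ≤ x k)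
    {Λ : Finset ℕ} (hΛ : ∀ l ∈ Λ, coreAdm lv P i j x l) {X : ℝ} (hX : 0 ≤ X) :
    ((Λ.filter fun l : ℕ => (l : ℝ) ≤ X).card : ℝ) ≤ X * (exp (-(lv k : ℝ)) * (lv k : ℝ) ^ C *
      (exp (-(lv k : ℝ)) * if j ∈ P.erase i then exp (-(lv j : ℝ)) else 1)) := by
  rcases Λ.eq_empty_or_nonempty with rfl | ⟨l₀, hl₀⟩
  · simp only [Finset.filter_empty, Finset.card_empty, Nat.cast_zero]
    split_ifs <;> positivity
  have hle : ∀ m : ι, ((x m * l₀ : ℕ) : ℝ) ≤ Ub (lv m) → lv m ≤ lv k → (x m : ℝ) ≤ Ub (lv k) :=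
    fun m h1 h2 => le_trans (by
      exact_mod_cast Nat.le_mul_of_pos_right _ (hΛ l₀ hl₀).1.pos) (h1.trans (Ub_mono h2))
  have hi := hle i (hΛ l₀ hl₀).2.2.2.1 hik
  split_ifs with hj
  · have hjP := Finset.mem_of_mem_erase hj
    have hj' := (hΛ l₀ hl₀).2.2.2.2 hjP
    have h1 := (hS (lv k) (hP k hk) (x i) (x j) (hx i) (hx j) hi (hle j hj'.2.1 (hjk hjP)) X hX).2
      hj'.2.2
    refine le_trans (Nat.cast_le.2 (Finset.card_le_card fun l hl => ?_)) (h1.trans ?_)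
    · obtain ⟨hl1, hl2⟩ := Finset.mem_filter.1 hl
      have h2 := hΛ l hl1
      exact Finset.mem_filter.2 ⟨Finset.mem_range.2 (Nat.lt_succ_of_le (Nat.le_floor hl2)),
        h2.1, h2.2.1 k hk, h2.2.2.1, (h2.2.2.2.2 hjP).1⟩
    · have h2 : exp (-(3 * lv k : ℝ)) ≤
          exp (-(lv k : ℝ)) * (exp (-(lv k : ℝ)) * exp (-(lv j : ℝ))) := by
        rw [← exp_add, ← exp_add]
        have : (lv j : ℝ) ≤ lv k := by exact_mod_cast hjk hjP
        exact exp_le_exp.2 (by linarith)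
      have h3 := mul_le_mul_of_nonneg_left h2 (show 0 ≤ X * (lv k : ℝ) ^ C by positivity)
      linarith
  · have h1 := (hS (lv k) (hP k hk) (x i) (x i) (hx i) (hx i) hi hi X hX).1
    refine le_trans (Nat.cast_le.2 (Finset.card_le_card fun l hl => ?_)) (h1.trans (le_of_eq ?_))
    · obtain ⟨hl1, hl2⟩ := Finset.mem_filter.1 hl
      have h2 := hΛ l hl1
      exact Finset.mem_filter.2 ⟨Finset.mem_range.2 (Nat.lt_succ_of_le (Nat.le_floor hl2)),
        h2.1, h2.2.1 k hk, h2.2.2.1⟩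
    · have h2 : exp (-(2 * lv k : ℝ)) = exp (-(lv k : ℝ)) * exp (-(lv k : ℝ)) := by
        rw [← exp_add]
        congr 1
        ring
      rw [h2]
      ring

theorem core (F : Facts) (S : SieveStmt) : CoreStmt := by
  obtain ⟨C, b₀, hS⟩ := S
  refine ⟨C + 1, max b₀ (2 * 3 ^ 11), fun ι _ _ sd lv M σ P f hP hf i₀ hi₀ y hy => ?_⟩
  have hcm : ∀ n, 0 ≤ cm f n := fun n => cm_nonneg fun l _ => (hf l).1
  set S' : Finset ι → ℝ := fun P => ∑ x ∈ Conf sd lv M P, cm f (wt sd x true) / (wt sd x true : ℝ)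
    with hS'
  have hS0 : 0 ≤ S' ∅ := Finset.sum_nonneg fun x _ => div_nonneg (hcm _) (Nat.cast_nonneg _)
  have hσ : (1 : ℝ) ≤ σ := by
    have := hP i₀ hi₀
    have h : 1 ≤ σ := by omega
    exact_mod_cast h
  have hs : (1 : ℝ) ≤ (σ : ℝ) ^ (C + 1) := one_le_pow₀ hσ
  have hite : ∀ (Q : Finset ι) (i j : ι),
      (0 : ℝ) ≤ if j ∈ Q.erase i then exp (-(lv j : ℝ)) else 1 := fun Q i j => by
    split_ifs <;> positivity
  have hw : ∀ Q : Finset ι, Q ⊆ P → S' Q ≤
      (∏ k ∈ Q, ((Fintype.card ι : ℝ) ^ 2 * (σ : ℝ) ^ (C + 1) * exp (-(lv k : ℝ)))) * S' ∅ := by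
    intro Q
    induction Q using Finset.strongInduction with
    | H Q ih =>
      intro hQ
      rcases Q.eq_empty_or_nonempty with rfl | hne
      · simp
      have h1 := core_step (sd := sd) (lv := lv) (M := M) hne hf (Wt := fun n => (n : ℝ)⁻¹)
        (fun n => by positivity) (c := fun i j => 1 * ((σ : ℝ) ^ (C + 1) * exp (-(lv i : ℝ)) *
          if j ∈ Q.erase i then exp (-(lv j : ℝ)) else 1)) (by
          intro i hi j x w Λ hw hx hΛ
          obtain ⟨k, hk, hkmax⟩ := Finset.exists_max_image Q lv hne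
          have hk0 := hP k (hQ hk)
          have hkb : (2 * 3 ^ 11 : ℝ) ≤ lv k := by exact_mod_cast (le_max_right _ _).trans hk0.1
          have hkσ : (lv k : ℝ) ≤ σ := by exact_mod_cast hk0.2
          have hU : 1 ≤ Ub (lv k) := one_le_exp (exp_pos _).le
          have h2 := F.abel Λ (fun l => l) (exp (-(lv k : ℝ)) * (lv k : ℝ) ^ C *
            (exp (-(lv k : ℝ)) * if j ∈ Q.erase i then exp (-(lv j : ℝ)) else 1)) (Ub (lv k)) hU
            (mul_nonneg (by positivity) (mul_nonneg (exp_pos _).le (hite _ _ _)))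
            (fun l hl => ⟨(hΛ l hl).1.one_le, le_trans (by
              exact_mod_cast Nat.le_mul_of_pos_left _ (hx i))
              ((hΛ l hl).2.2.2.1.trans (Ub_mono (hkmax i hi)))⟩)
            (fun m => by
              have h3 := core_count hS (fun k hk => (le_max_left _ _).trans (hP k (hQ hk)).1) hk
                (hkmax i hi) (hkmax j) hx hΛ (Nat.cast_nonneg m)
              simp only [Nat.cast_le] at h3
              rwa [mul_comm] at h3)
          have h3 : exp (-(lv k : ℝ)) * (1 + log (Ub (lv k))) ≤ σ := by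
            rw [Ub, log_exp, exp_add, mul_add, ← mul_assoc, ← exp_add, neg_add_cancel, exp_zero]
            have h4 : exp (-(lv k : ℝ)) ≤ 1 := exp_le_one_iff.2 (by linarith)
            have h5 : exp 11 ≤ 3 ^ 11 := by
              rw [show (11 : ℝ) = (11 : ℕ) * 1 by norm_num, exp_nat_mul]
              exact pow_le_pow_left₀ (exp_pos _).le (exp_one_lt_d9.le.trans (by norm_num)) _
            linarith
          have h4 : exp (-(lv k : ℝ)) ≤ exp (-(lv i : ℝ)) := by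
            have : (lv i : ℝ) ≤ lv k := by exact_mod_cast hkmax i hi
            exact exp_le_exp.2 (by linarith)
          have h5 : (lv k : ℝ) ^ C ≤ (σ : ℝ) ^ C := pow_le_pow_left₀ (Nat.cast_nonneg _) hkσ _
          have h6 : ∑ l ∈ Λ, ((l * w : ℕ) : ℝ)⁻¹ = (∑ l ∈ Λ, (1 : ℝ) / l) / w := by
            rw [Finset.sum_div]
            refine Finset.sum_congr rfl fun l _ => ?_
            push_cast
            ring
          rw [h6]
          refine div_le_div_of_nonneg_right (h2.trans ?_) (Nat.cast_nonneg _)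
          have h7 := hite Q i j
          have h8 : 0 ≤ 1 + log (Ub (lv k)) := by linarith [log_nonneg hU]
          calc _ = (lv k : ℝ) ^ C * (exp (-(lv k : ℝ)) * (1 + log (Ub (lv k)))) *
                exp (-(lv k : ℝ)) * (if j ∈ Q.erase i then exp (-(lv j : ℝ)) else 1) := by ring
            _ ≤ (σ : ℝ) ^ C * σ * exp (-(lv i : ℝ)) *
                (if j ∈ Q.erase i then exp (-(lv j : ℝ)) else 1) := by gcongr
            _ = _ := by ring)
      have h2 := core_combine (sd := sd) (lv := lv) (P := Q) (S := S') hs zero_le_one hS0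
        fun i hi j => ih _ ((Finset.erase_subset _ _).trans_ssubset (Finset.erase_ssubset hi))
          ((Finset.erase_subset _ _).trans ((Finset.erase_subset _ _).trans hQ))
      rw [one_mul] at h2
      exact h1.trans h2
  have h1 := core_step (sd := sd) (lv := lv) (M := M) ⟨i₀, hi₀⟩ hf
    (Wt := fun n => if (n : ℝ) ≤ y then 1 else 0) (fun n => by split_ifs <;> norm_num)
    (c := fun i j => y * exp (-(lv i₀ : ℝ)) * ((σ : ℝ) ^ (C + 1) * exp (-(lv i : ℝ)) *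
      if j ∈ P.erase i then exp (-(lv j : ℝ)) else 1)) (by
      intro i hi j x w Λ hw hx hΛ
      obtain ⟨k, hk, hkmax⟩ := Finset.exists_max_image P lv ⟨i₀, hi₀⟩
      have hkσ : (lv k : ℝ) ≤ σ := by exact_mod_cast (hP k hk).2
      have hw' : (0 : ℝ) < w := by exact_mod_cast hw
      have h2 := core_count hS (fun k hk => (le_max_left _ _).trans (hP k hk).1) hk
        (hkmax i hi) (hkmax j) hx hΛ (div_nonneg hy hw'.le)
      have h3 : ∑ l ∈ Λ, (if ((l * w : ℕ) : ℝ) ≤ y then (1 : ℝ) else 0) =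
          (Λ.filter fun l : ℕ => (l : ℝ) ≤ y / w).card := by
        rw [Finset.card_filter]
        push_cast
        simp only [le_div_iff₀ hw']
      rw [h3]
      refine h2.trans ?_
      have h4 : ∀ m ∈ P, exp (-(lv k : ℝ)) ≤ exp (-(lv m : ℝ)) := fun m hm => by
        have : (lv m : ℝ) ≤ lv k := by exact_mod_cast hkmax m hm
        exact exp_le_exp.2 (by linarith)
      have h5 : (lv k : ℝ) ^ C ≤ (σ : ℝ) ^ (C + 1) :=
        (pow_le_pow_left₀ (Nat.cast_nonneg _) hkσ _).trans (pow_le_pow_right₀ hσ (Nat.le_succ C))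
      have h6 := h4 i hi
      have h7 := h4 i₀ hi₀
      have h8 := hite P i j
      calc _ ≤ y / w * (exp (-(lv i₀ : ℝ)) * (σ : ℝ) ^ (C + 1) *
            (exp (-(lv i : ℝ)) * if j ∈ P.erase i then exp (-(lv j : ℝ)) else 1)) := by gcongr
        _ = _ := by ring)
  have h2 := core_combine (sd := sd) (lv := lv) (P := P) (S := S') hs
    (show 0 ≤ y * exp (-(lv i₀ : ℝ)) by positivity) hS0
    fun i _ j => hw _ ((Finset.erase_subset _ _).trans (Finset.erase_subset _ _))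
  refine le_trans (le_of_eq ?_) (h1.trans h2)
  rw [Finset.sum_filter]
  refine Finset.sum_congr rfl fun x _ => ?_
  split_ifs <;> simp

end Vale.Agent.P031
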