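import Mathlib

/-!
Definitions and intermediate statements for P031 (distinct totient values, `V(cx)/V(x) → c`).
Every intermediate result is a `Prop` here, so that the parts can be proved independently.
-/

namespace Vale.Agent.P031

open Finset Filter Real

/-- `v` is a value of Euler's function. -/
def IsTot (v : ℕ) : Prop := ∃ n : ℕ, 1 ≤ n ∧ Nat.totient n = v

open Classical in
/-- totient values in `[1, x]` -/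
noncomputable def tots (x : ℝ) : Finset ℕ := (Icc 1 ⌊x⌋₊).filter IsTot

/-- sum of reciprocals of the primes up to `n` (about `log log n`) -/
noncomputable def A (n : ℕ) : ℝ := ∑ p ∈ (range (n + 1)).filter Nat.Prime, (1 : ℝ) / p

/-- block index -/
noncomputable def blk (p : ℕ) : ℕ := ⌊A p⌋₊

/-- the completely multiplicative function with the values `g l` at primes `l` -/
noncomputable def cm (g : ℕ → ℝ) (n : ℕ) : ℝ := n.factorization.prod fun l e => g l ^ e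

/-- number of prime factors (with multiplicity) of `n` in blocks `< T` -/
noncomputable def NN (T n : ℕ) : ℕ := n.factorization.sum fun l e => if blk l < T then e else 0

noncomputable def Lb (b : ℕ) : ℝ := exp (exp b / (b : ℝ) ^ 2)
noncomputable def Ub (b : ℕ) : ℝ := exp (exp ((b : ℝ) + 11))
noncomputable def h0 (u : ℝ) : ℝ := u ^ (2 / 3 : ℝ)
noncomputable def hh (u : ℝ) : ℝ := u ^ (3 / 4 : ℝ)
noncomputable def eps (u : ℝ) : ℝ := exp (-(u ^ (1 / 4 : ℝ)))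

/-- the primes of block `b` -/
noncomputable def blkSet (b : ℕ) : Finset ℕ :=
  (range (⌊Ub b⌋₊ + 1)).filter fun p => p.Prime ∧ blk p = b

/-- the primes of blocks `≤ b` -/
noncomputable def blkLe (b : ℕ) : Finset ℕ :=
  (range (⌊Ub b⌋₊ + 1)).filter fun p => p.Prime ∧ blk p ≤ b

/-- normal primes -/
def Normal (p : ℕ) : Prop :=
  p.Prime ∧ (∀ T : ℕ, T ≤ blk p + 1 → |(NN T (p - 1) : ℝ) - T| ≤ h0 (blk p)) ∧
    ∃ l : ℕ, l.Prime ∧ l ∣ p - 1 ∧ Lb (blk p) ≤ l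

noncomputable def psi (z : ℝ) : ℝ := z * log z - z

/-- Ford's coefficients `a_r = psi (r+1) - psi r` -/
noncomputable def aa (r : ℕ) : ℝ := ((r : ℝ) + 1) * log ((r : ℝ) + 1) - r * log r - 1

/-- `∑ a_r * (block of the r-th largest element of Q)` -/
noncomputable def Phi (Q : Finset ℕ) : ℝ :=
  ∑ p ∈ Q, aa (Q.filter fun q => p ≤ q).card * (blk p : ℝ)

/-- number of elements of `Q` in blocks `> t` -/
noncomputable def zz (Q : Finset ℕ) (t : ℕ) : ℕ := (Q.filter fun q => t < blk q).card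

/-- Euler's function of the product of the primes in `Q` -/
def val (Q : Finset ℕ) : ℕ := ∏ p ∈ Q, (p - 1)

/-- good sets of large primes (the enlarged region) -/
structure Good (B : ℕ) (Q : Finset ℕ) : Prop where
  normal : ∀ p ∈ Q, Normal p
  big : ∀ p ∈ Q, B ≤ blk p
  con : ∀ p ∈ Q, Phi (Q.filter fun q => q < p) ≤ blk p + hh (blk p)

/-- totients of numbers made of small primes, of bounded size -/
def Small (B μ : ℕ) : Prop :=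
  (∃ m : ℕ, 1 ≤ m ∧ (∀ l ∈ m.primeFactors, blk l < B) ∧ Nat.totient m = μ) ∧
    (μ : ℝ) ≤ exp (exp B * (B : ℝ) ^ 2)

open Classical in
/-- the set `D` of cofactors -/
noncomputable def DD (B : ℕ) (x : ℝ) : Finset ℕ :=
  (Icc 1 ⌊x ^ (1 / 10 : ℝ)⌋₊).filter fun d => ∃ (Q : Finset ℕ) (μ : ℕ), Good B Q ∧ Small B μ ∧
    Phi Q ≤ A ⌊x⌋₊ - hh (A ⌊x⌋₊) ∧ (∀ q ∈ Q, (blk q : ℝ) ≤ A ⌊x⌋₊ - hh (A ⌊x⌋₊)) ∧ d = μ * val Q

/-- vector form of `Phi` for the first `j` coordinates (coordinates increase with the index) -/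
noncomputable def PhiV {k : ℕ} (b : Fin k → ℕ) (j : ℕ) : ℝ :=
  ∑ i : Fin k, if (i : ℕ) < j then aa (j - i) * (b i : ℝ) else 0

open Classical in
/-- lattice points of the enlarged region whose top functional lies in `(lo, hi]` -/
noncomputable def Rp (B k : ℕ) (lo hi : ℝ) : Finset (Fin k → ℕ) :=
  (Fintype.piFinset fun _ : Fin k => range (⌊hi⌋₊ + 1)).filter fun b =>
    Monotone b ∧ (∀ i, B ≤ b i) ∧ (∀ j : Fin k, PhiV b j ≤ b j + hh (b j)) ∧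
      PhiV b k ≤ hi ∧ (lo < PhiV b k ∨ ∃ i, lo < (b i : ℝ))

open Classical in
/-- lattice points of the shrunken region -/
noncomputable def Rm (B k : ℕ) (s : ℝ) : Finset (Fin k → ℕ) :=
  (Fintype.piFinset fun _ : Fin k => range (⌊s⌋₊ + 1)).filter fun c =>
    (∀ i, B ≤ c i) ∧ (∀ j : Fin k, PhiV c j ≤ c j - hh (c j)) ∧
      (∀ i j : Fin k, i < j → (c i : ℝ) ≤ c j - hh (c j)) ∧
      PhiV c k ≤ s - hh s ∧ ∀ i, (c i : ℝ) ≤ s - hh s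

/-- block vector of a finite set with `k` elements, in increasing order -/
noncomputable def vec (Q : Finset ℕ) {k : ℕ} (h : Q.card = k) : Fin k → ℕ :=
  fun i => blk (Q.orderEmbOfFin h i)

/-! ### Elementary prime number facts -/

structure Facts : Prop where
  mertens : ∀ n : ℕ, 2 ≤ n → |A n - log (log n)| ≤ 10
  le_Ub : ∀ p b : ℕ, 2 ≤ p → blk p ≤ b → (p : ℝ) ≤ Ub b
  ge_blk : ∀ p b : ℕ, 2 ≤ p → b ≤ blk p → exp (exp ((b : ℝ) - 10)) ≤ p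
  sum_lt_le : ∀ (T : ℕ) (S : Finset ℕ), (∀ l ∈ S, l.Prime ∧ blk l < T) →
    ∑ l ∈ S, (1 : ℝ) / l ≤ T
  sum_lt_ge : ∀ T b : ℕ, T ≤ b + 1 →
    (T : ℝ) - 1 ≤ ∑ l ∈ (blkLe b).filter (fun l => blk l < T), (1 : ℝ) / l
  block : ∃ b₀ : ℕ, ∀ b : ℕ, b₀ ≤ b →
    (∑ p ∈ blkSet b, (1 : ℝ) / ((p : ℝ) - 1) ≤ 1 + exp (-(b : ℝ))) ∧
    (1 - exp (-(b : ℝ)) ≤ ∑ p ∈ blkSet b, (1 : ℝ) / p)
  euler : ∀ (g : ℕ → ℝ) (P S : Finset ℕ), (∀ l ∈ P, l.Prime ∧ 0 ≤ g l ∧ g l ≤ 3 / 4 * l) →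
    (∀ n ∈ S, n ≠ 0 ∧ n.primeFactors ⊆ P) →
    ∑ n ∈ S, cm g n / n ≤ exp (∑ l ∈ P, (g l / l + 4 * (g l / l) ^ 2))
  sum_sq : ∀ (S : Finset ℕ) (m : ℕ), 1 ≤ m → (∀ l ∈ S, m < l) → ∑ l ∈ S, (1 / (l : ℝ)) ^ 2 ≤ (1 : ℝ) / m
  count_cm : ∀ (F : ℕ → ℝ) (P : Finset ℕ) (y : ℝ), 0 ≤ y →
    (∀ l ∈ P, l.Prime ∧ 1 ≤ F l ∧ 2 * F l ≤ l) → (∀ l, l ∉ P → F l = 1) →
    ∑ n ∈ Icc 1 ⌊y⌋₊, cm F n ≤ y * exp (∑ l ∈ P, ((F l - 1) / l + 2 * (F l / l) ^ 2))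
  smooth : ∀ L W y : ℝ, 16 ≤ L → 1 ≤ W → 0 ≤ y →
    (((Icc 1 ⌊y⌋₊).filter fun n : ℕ => W ≤ n ∧ ∀ l ∈ n.primeFactors, (l : ℝ) ≤ L).card : ℝ) ≤
      y * exp (-(log W / log L) + 3 * log (log L) + 100)
  recip_div : ∀ (Δ : ℕ) (w : ℝ), Δ ≠ 0 → 16 ≤ w → log Δ ≤ w →
    ∑ q ∈ Δ.primeFactors, (1 : ℝ) / q ≤ log (log w) + 12
  abel : ∀ {ι : Type} (S : Finset ι) (f : ι → ℕ) (κ U : ℝ), 1 ≤ U → 0 ≤ κ →
    (∀ i ∈ S, 1 ≤ f i ∧ (f i : ℝ) ≤ U) →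
    (∀ m : ℕ, ((S.filter fun i => f i ≤ m).card : ℝ) ≤ κ * m) →
    ∑ i ∈ S, (1 : ℝ) / f i ≤ κ * (1 + log U)
  primes_ge : ∀ X W : ℝ, 1 ≤ X → 1 < W →
    (((range (⌊X⌋₊ + 2)).filter fun p : ℕ => p.Prime ∧ W ≤ p).card : ℝ) ≤ 3 * X / log W
  subsets : ∀ (P : Finset ℕ) (w : ℕ → ℝ) (K : ℕ), (∀ p ∈ P, 0 ≤ w p) →
    ∑ Q ∈ P.powerset.filter (fun Q => Q.card ≤ K), ∏ p ∈ Q, w p ≤ (1 + ∑ p ∈ P, w p) ^ K

/-! ### Combinatorics of `Phi` -/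

structure Prof : Prop where
  aa_nonneg : ∀ r : ℕ, 1 ≤ r → 0 ≤ aa r
  aa_le : ∀ r : ℕ, aa r ≤ log ((r : ℝ) + 1)
  phi_eq : ∀ (Q : Finset ℕ) (σ : ℕ), (∀ q ∈ Q, blk q ≤ σ) →
    Phi Q = ∑ t ∈ range σ, (psi ((zz Q t : ℝ) + 1) + 1)
  sum_zz : ∀ (Q : Finset ℕ) (σ : ℕ), (∀ q ∈ Q, blk q ≤ σ) →
    ∑ t ∈ range σ, (zz Q t : ℝ) = ∑ q ∈ Q, (blk q : ℝ)
  psi_mono : ∀ u v : ℝ, 1 ≤ u → u ≤ v → psi u ≤ psi v
  abel_id : ∀ (lam : ℕ → ℝ) (σ n : ℕ), (∀ t, σ ≤ t → lam t = 0) →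
    (n.factorization.sum fun l e => (e : ℝ) * lam (blk l)) =
      ∑ T ∈ range σ, (lam T - lam (T + 1)) * (NN (T + 1) n : ℝ)
  nn_le : ∀ p T : ℕ, Normal p → (NN T (p - 1) : ℝ) ≤ min (T : ℝ) (blk p + 1) + h0 (blk p)
  nn_ge : ∀ p T : ℕ, Normal p → min (T : ℝ) (blk p) - h0 (blk p) ≤ (NN T (p - 1) : ℝ)
  nn_val : ∀ (Q : Finset ℕ) (T : ℕ), (∀ q ∈ Q, q.Prime) → NN T (val Q) = ∑ q ∈ Q, NN T (q - 1)
  nn_log : ∀ T n : ℕ, n ≠ 0 → (NN T n : ℝ) ≤ 2 * log n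
  good_lower : ∀ (B : ℕ) (Q : Finset ℕ) (p : ℕ), Good B Q → Good B (Q.filter fun q => q < p)
  growth : ∃ B₀ : ℕ, ∀ B : ℕ, B₀ ≤ B → ∀ (Q : Finset ℕ) (σ : ℝ), 1 ≤ σ → Good B Q →
    (∀ q ∈ Q, (blk q : ℝ) ≤ σ) →
      (Q.card : ℝ) ≤ 10 * log σ ∧ ∑ q ∈ Q, exp (-(blk q : ℝ)) ≤ 1
  vec_phi : ∀ (Q : Finset ℕ) (k : ℕ) (h : Q.card = k),
    Phi Q = PhiV (vec Q h) k ∧
      ∀ j : Fin k, Phi (Q.filter fun q => q < Q.orderEmbOfFin h j) = PhiV (vec Q h) j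
  profiles : ∀ K σ : ℕ, ∃ Z : Finset (ℕ → ℕ), Z.card ≤ (σ + 1) ^ K ∧
    ∀ Q : Finset ℕ, Q.card ≤ K → (∀ q ∈ Q, blk q ≤ σ) → zz Q ∈ Z
  tot_val : ∀ (Q : Finset ℕ) (m : ℕ), (∀ q ∈ Q, q.Prime ∧ ¬ q ∣ m) →
    Nat.totient (m * ∏ q ∈ Q, q) = Nat.totient m * val Q
  small_primes : ∀ B μ : ℕ, Small B μ → μ ≠ 0 ∧ ∀ l ∈ μ.primeFactors, blk l < B

/-! ### The main intermediate statements -/

/-- upper bound sieve for two and for three linear forms -/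
def SieveStmt : Prop :=
  ∃ C b₀ : ℕ, ∀ b : ℕ, b₀ ≤ b → ∀ α α' : ℕ, 1 ≤ α → 1 ≤ α' → (α : ℝ) ≤ Ub b → (α' : ℝ) ≤ Ub b →
    ∀ X : ℝ, 0 ≤ X →
      ((((range (⌊X⌋₊ + 1)).filter fun l : ℕ =>
          l.Prime ∧ Lb b ≤ l ∧ (α * l + 1).Prime).card : ℝ) ≤ X * exp (-(2 * b : ℝ)) * (b : ℝ) ^ C) ∧
      (α ≠ α' → (((range (⌊X⌋₊ + 1)).filter fun l : ℕ =>
          l.Prime ∧ Lb b ≤ l ∧ (α * l + 1).Prime ∧ (α' * l + 1).Prime).card : ℝ) ≤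
            X * exp (-(3 * b : ℝ)) * (b : ℝ) ^ C)

open Classical in
/-- few primes are abnormal -/
def NormalStmt : Prop :=
  ∃ b₀ : ℕ, ∀ b : ℕ, b₀ ≤ b → ∀ y : ℝ, 0 ≤ y →
    (((range (⌊y⌋₊ + 2)).filter fun p : ℕ => p.Prime ∧ blk p = b ∧ ¬ Normal p).card : ℝ) ≤
      y * exp (-(b : ℝ)) * eps b

open Classical in
/-- few integers come from a violated constraint -/
def ViolateStmt : Prop :=
  ∃ B₀ : ℕ, ∀ B : ℕ, B₀ ≤ B → ∀ b : ℕ, B ≤ b → ∀ y : ℝ, 0 ≤ y →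
    (((Icc 1 ⌊y⌋₊).filter fun w : ℕ => ∃ (p : ℕ) (Q : Finset ℕ) (μ : ℕ), Normal p ∧ blk p = b ∧
        Good B Q ∧ (∀ q ∈ Q, q < p) ∧ 1 ≤ μ ∧ (b : ℝ) + hh b < Phi Q ∧
        w = μ * (p - 1) * val Q).card : ℝ) ≤ y * exp (-(b : ℝ)) * eps b

/-- product of the slots on side `s` -/
def wt {ι : Type} [Fintype ι] (sd : ι → Bool) (x : ι → ℕ) (s : Bool) : ℕ :=
  ∏ i ∈ univ.filter (fun i => sd i = s), x i

/-- number of slots on side `s` of level at least `t` -/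
def zc {ι : Type} [Fintype ι] (sd : ι → Bool) (lv : ι → ℕ) (s : Bool) (t : ℕ) : ℕ :=
  (univ.filter fun i => sd i = s ∧ t ≤ lv i).card

open Classical in
/-- two factorizations of the same number; the slots in `P` are shifted primes -/
noncomputable def Conf {ι : Type} [Fintype ι] [DecidableEq ι] (sd : ι → Bool) (lv : ι → ℕ) (M : ℕ)
    (P : Finset ι) : Finset (ι → ℕ) :=
  (Fintype.piFinset fun _ : ι => Icc 1 M).filter fun x =>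
    wt sd x true = wt sd x false ∧ (∀ i, ∀ l ∈ (x i).primeFactors, blk l ≤ lv i) ∧
      (∀ i ∈ P, (x i + 1).Prime ∧ (x i : ℝ) ≤ Ub (lv i) ∧
        ∃ l : ℕ, l.Prime ∧ l ∣ x i ∧ Lb (lv i) ≤ l) ∧
      ∀ i ∈ P, ∀ j ∈ P, sd i ≠ sd j → x i ≠ x j

/-- removing the primality conditions one largest prime factor at a time -/
def CoreStmt : Prop :=
  ∃ C b₀ : ℕ, ∀ (ι : Type) [Fintype ι] [DecidableEq ι] (sd : ι → Bool) (lv : ι → ℕ) (M σ : ℕ)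
    (P : Finset ι) (f : ℕ → ℝ), (∀ i ∈ P, b₀ ≤ lv i ∧ lv i ≤ σ) → (∀ l, 0 ≤ f l ∧ f l ≤ 1) →
    ∀ i₀ ∈ P, ∀ y : ℝ, 0 ≤ y →
      ∑ x ∈ (Conf sd lv M P).filter (fun x => (wt sd x true : ℝ) ≤ y), cm f (wt sd x true) ≤
        y * exp (-(lv i₀ : ℝ)) *
          (∏ i ∈ P, ((Fintype.card ι : ℝ) ^ 2 * (σ : ℝ) ^ C * exp (-(lv i : ℝ)))) *
          ∑ x ∈ Conf sd lv M ∅, cm f (wt sd x true) / (wt sd x true : ℝ)

/-- the sum without primality conditions is at most an Euler product -/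
def FreeStmt : Prop :=
  ∀ (ι : Type) [Fintype ι] [DecidableEq ι] (sd : ι → Bool) (lv : ι → ℕ) (M σ : ℕ) (f g : ℕ → ℝ),
    (∀ i, lv i ≤ σ) → (∀ l, 0 ≤ f l) →
    (∀ l : ℕ, l.Prime → f l * zc sd lv true (blk l) * zc sd lv false (blk l) ≤ g l ∧
      g l ≤ 3 / 4 * l) →
      ∑ x ∈ Conf sd lv M ∅, cm f (wt sd x true) / (wt sd x true : ℝ) ≤
        exp (∑ l ∈ blkLe σ, (g l / l + 4 * (g l / l) ^ 2))

/-- a top prime `p` near block `σ`, lower primes `Q` with slack, and a small factor `μ` -/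
structure Top (b₁ σ p : ℕ) (Q : Finset ℕ) (μ : ℕ) : Prop where
  np : Normal p
  nq : ∀ q ∈ Q, Normal q ∧ b₁ ≤ blk q ∧ (blk q : ℝ) ≤ σ - hh σ / 2
  lo : σ ≤ blk p + 30
  hi : blk p ≤ σ + 30
  phi : Phi Q ≤ σ - hh σ / 2
  card : (Q.card : ℝ) ≤ 11 * log σ
  mu : 1 ≤ μ ∧ (μ : ℝ) ≤ exp ((σ : ℝ) ^ (1 / 10 : ℝ))

/-- collisions with a different top prime are rare -/
def CollideStmt : Prop :=
  ∃ b₁ σ₀ : ℕ, ∀ σ : ℕ, σ₀ ≤ σ → ∀ y : ℝ, 0 ≤ y → ∀ S : Finset (ℕ × Finset ℕ × ℕ),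
    (∀ T ∈ S, Top b₁ σ T.1 T.2.1 T.2.2 ∧ ((T.2.2 * (T.1 - 1) * val T.2.1 : ℕ) : ℝ) ≤ y ∧
      ∃ (p' : ℕ) (Q' : Finset ℕ) (μ' : ℕ), Top b₁ σ p' Q' μ' ∧ p' ≠ T.1 ∧
        μ' * (p' - 1) * val Q' = T.2.2 * (T.1 - 1) * val T.2.1) →
    (S.card : ℝ) ≤ y * exp (-(σ : ℝ)) * eps σ

open Classical in
/-- almost all totients have a good preimage -/
def BadStmt : Prop :=
  ∃ B₀ : ℕ, ∀ B : ℕ, B₀ ≤ B → ∀ t Z : ℝ, 16 ≤ t → 1 ≤ Z →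
    (∀ y : ℝ, 2 ≤ y → y ≤ t → ((tots y).card : ℝ) ≤ Z * y / log y) →
    (((tots t).filter fun v => ¬ ∃ (Q : Finset ℕ) (μ : ℕ), Good B Q ∧ Small B μ ∧
        v = μ * val Q).card : ℝ) ≤ Z * t / log t / (B : ℝ) ^ 3

/-- comparison of the enlarged and the shrunken lattice regions -/
def LatticeStmt : Prop :=
  ∃ (C : ℝ) (B₀ : ℕ) (s₀ : ℝ), 0 < C ∧ ∀ B : ℕ, B₀ ≤ B → ∀ s : ℝ, s₀ ≤ s → ∀ k : ℕ,
    (((Rp B k (-1) (s + 2 * hh s)).card : ℝ) ≤ C * (Rm (B / 3) k s).card) ∧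
    (((Rp B k (s - hh s) (s + 2 * hh s)).card : ℝ) ≤
      C * (k + 1) * s ^ (-(1 / 4) : ℝ) * (Rm (B / 3) k s).card)

/-- counting good totients by block vectors -/
def UpperStmt : Prop :=
  ∃ (C : ℝ) (B₀ : ℕ), 0 < C ∧ ∀ B : ℕ, B₀ ≤ B → ∀ (y lo hi : ℝ) (K : ℕ), 16 ≤ y →
    exp (exp B * (B : ℝ) ^ 2) ≤ y ^ (1 / 4 : ℝ) → ∀ S : Finset ℕ,
    (∀ v ∈ S, √y < v ∧ (v : ℝ) ≤ y ∧ ∃ (p : ℕ) (Q : Finset ℕ) (μ : ℕ), p.Prime ∧ (∀ q ∈ Q, q < p) ∧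
      Good B Q ∧ Small B μ ∧ Q.card ≤ K ∧ Phi Q ≤ hi ∧ (∀ q ∈ Q, (blk q : ℝ) ≤ hi) ∧
      (lo < Phi Q ∨ ∃ q ∈ Q, lo < (blk q : ℝ)) ∧ v = μ * (p - 1) * val Q) →
    (S.card : ℝ) ≤ C * (K + 1) * exp B * (y / log y) * ∑ k ∈ range (K + 1), ((Rp B k lo hi).card : ℝ)

/-- the cofactors are small -/
def SizeStmt : Prop :=
  ∃ B₀ : ℕ, ∀ᶠ x : ℝ in atTop, ∀ B : ℕ, B₀ ≤ B → (B : ℝ) ≤ log (A ⌊x⌋₊) / 20 + 1 →
    ∀ (Q : Finset ℕ) (μ : ℕ), Good B Q → Small B μ →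
      (∀ q ∈ Q, (blk q : ℝ) ≤ A ⌊x⌋₊ - hh (A ⌊x⌋₊)) → ((μ * val Q : ℕ) : ℝ) ≤ x ^ (1 / 10 : ℝ)

/-- almost all products `(p-1) d` with `d ∈ D` are distinct totients -/
def LowerStmt : Prop :=
  ∃ B₀ : ℕ, ∀ c : ℝ, 1 ≤ c → ∀ η : ℝ, 0 < η → ∀ᶠ x : ℝ in atTop, ∀ B : ℕ, B₀ ≤ B →
    (B : ℝ) ≤ log (A ⌊x⌋₊) / 20 + 1 → ∀ t : ℝ, x ≤ t → t ≤ c * x →
      ∑ d ∈ DD B x, (Nat.primeCounting (⌊t / d⌋₊ + 1) : ℝ) ≤ (tots t).card + η * x / log x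

/-- the shrunken region gives many distinct cofactors -/
def CleanStmt : Prop :=
  ∃ B₀ : ℕ, ∀ᶠ x : ℝ in atTop, ∀ B : ℕ, B₀ ≤ B → (B : ℝ) ≤ log (A ⌊x⌋₊) / 20 + 1 → ∀ k : ℕ,
    ((Rm B k (A ⌊x⌋₊)).card : ℝ) ≤ 2 * ∑ d ∈ DD B x, (1 : ℝ) / d

/-- the prime number theorem -/
def PNTStmt : Prop :=
  Tendsto (fun x : ℝ => (Nat.primeCounting ⌊x⌋₊ : ℝ) * log x / x) atTop (nhds 1)

/-- the goal -/
def GoalStmt : Prop :=
  ∀ c : ℝ, 1 < c → Tendsto (fun x : ℝ => ((tots (c * x)).card : ℝ) / (tots x).card) atTop (nhds c)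

/-! ### Basic lemmas -/

lemma A_mono : Monotone A := by
  intro m n h
  unfold A
  apply Finset.sum_le_sum_of_subset_of_nonneg
  · exact Finset.filter_subset_filter _ (Finset.range_mono (by omega))
  · intro i _ _; positivity

lemma A_nonneg (n : ℕ) : 0 ≤ A n := Finset.sum_nonneg fun _ _ => by positivity

lemma blk_mono : Monotone blk := fun _ _ h => Nat.floor_mono (A_mono h)

lemma lt_of_blk_lt {p q : ℕ} (h : blk p < blk q) : p < q := by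
  by_contra hc
  exact absurd (blk_mono (not_lt.mp hc)) (not_le.mpr h)

lemma blk_le_A (p : ℕ) : (blk p : ℝ) ≤ A p := Nat.floor_le (A_nonneg p)

lemma A_lt_blk (p : ℕ) : A p < blk p + 1 := Nat.lt_floor_add_one _

lemma cm_one (g : ℕ → ℝ) : cm g 1 = 1 := by simp [cm]

lemma cm_mul (g : ℕ → ℝ) {a b : ℕ} (ha : a ≠ 0) (hb : b ≠ 0) : cm g (a * b) = cm g a * cm g b := by
  unfold cm
  rw [Nat.factorization_mul ha hb, Finsupp.prod_add_index']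
  · intro l; simp
  · intro l e₁ e₂; rw [pow_add]

lemma cm_prime (g : ℕ → ℝ) {l : ℕ} (hl : l.Prime) : cm g l = g l := by
  unfold cm
  rw [hl.factorization, Finsupp.prod_single_index] <;> simp

lemma cm_eq_prod (g : ℕ → ℝ) (n : ℕ) : cm g n = ∏ l ∈ n.primeFactors, g l ^ n.factorization l := rfl

lemma cm_nonneg {g : ℕ → ℝ} {n : ℕ} (h : ∀ l ∈ n.primeFactors, 0 ≤ g l) : 0 ≤ cm g n :=
  Finset.prod_nonneg fun l hl => pow_nonneg (h l hl) _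

lemma cm_le_cm {g g' : ℕ → ℝ} {n : ℕ} (h : ∀ l ∈ n.primeFactors, 0 ≤ g l ∧ g l ≤ g' l) :
    cm g n ≤ cm g' n :=
  Finset.prod_le_prod (fun l hl => pow_nonneg (h l hl).1 _)
    fun l hl => pow_le_pow_left₀ (h l hl).1 (h l hl).2 _

lemma cm_mul_fun (g g' : ℕ → ℝ) (n : ℕ) : cm (fun l => g l * g' l) n = cm g n * cm g' n := by
  simp only [cm_eq_prod, mul_pow, Finset.prod_mul_distrib]

lemma cm_exp (u : ℕ → ℝ) (n : ℕ) :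
    cm (fun l => exp (u l)) n = exp (n.factorization.sum fun l e => (e : ℝ) * u l) := by
  rw [cm_eq_prod, Finsupp.sum, Real.exp_sum]
  refine Finset.prod_congr rfl fun l _ => ?_
  rw [← Real.exp_nat_mul]

lemma NN_eq_sum (T n : ℕ) :
    NN T n = ∑ l ∈ n.primeFactors, if blk l < T then n.factorization l else 0 := rfl

lemma NN_mul (T : ℕ) {a b : ℕ} (ha : a ≠ 0) (hb : b ≠ 0) : NN T (a * b) = NN T a + NN T b := by
  unfold NN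
  rw [Nat.factorization_mul ha hb, Finsupp.sum_add_index']
  · intro l; simp
  · intro l e₁ e₂; split_ifs <;> simp

lemma NN_one (T : ℕ) : NN T 1 = 0 := by simp [NN]

lemma NN_prime (T : ℕ) {l : ℕ} (hl : l.Prime) : NN T l = if blk l < T then 1 else 0 := by
  unfold NN
  rw [hl.factorization, Finsupp.sum_single_index]; simp

lemma NN_mono {T T' : ℕ} (h : T ≤ T') (n : ℕ) : NN T n ≤ NN T' n := by
  rw [NN_eq_sum, NN_eq_sum]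
  refine Finset.sum_le_sum fun l _ => ?_
  split_ifs <;> omega

lemma cm_ite (z : ℝ) (T n : ℕ) : cm (fun l => if blk l < T then z else 1) n = z ^ NN T n := by
  rw [cm_eq_prod, NN_eq_sum, ← Finset.prod_pow_eq_pow_sum]
  refine Finset.prod_congr rfl fun l _ => ?_
  split_ifs <;> simp

lemma val_pos {Q : Finset ℕ} (h : ∀ q ∈ Q, q.Prime) : 0 < val Q :=
  Finset.prod_pos fun q hq => by have := (h q hq).two_le; omega

lemma Ub_mono : Monotone Ub := by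
  intro a b h
  unfold Ub
  have : (a : ℝ) ≤ b := by exact_mod_cast h
  gcongr

lemma mem_tots {x : ℝ} {v : ℕ} (hx : 0 ≤ x) : v ∈ tots x ↔ IsTot v ∧ (v : ℝ) ≤ x := by
  classical
  unfold tots
  rw [Finset.mem_filter, Finset.mem_Icc, Nat.le_floor_iff hx]
  constructor
  · rintro ⟨⟨_, h2⟩, h3⟩; exact ⟨h3, h2⟩
  · rintro ⟨h3, h2⟩
    refine ⟨⟨?_, h2⟩, h3⟩
    obtain ⟨n, hn, rfl⟩ := h3
    exact Nat.totient_pos.mpr hn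

end Vale.Agent.P031
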