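import Vale.Agent.P031.Defs

/-! Euler product bounds, Rankin's trick, Abel summation (for P031). -/

namespace Vale.Agent.P031

open Finset Filter Real

lemma factsB_filter_dvd (l N : ℕ) (hl : 0 < l) :
    (Icc 1 N).filter (fun n => l ∣ n) = (Icc 1 (N / l)).image (fun m => l * m) := by
  ext n
  simp only [Finset.mem_filter, Finset.mem_Icc, Finset.mem_image]
  constructor
  · rintro ⟨⟨h1, h2⟩, m, rfl⟩
    refine ⟨m, ⟨?_, ?_⟩, rfl⟩
    · rcases Nat.eq_zero_or_pos m with h | h
      · subst h; simp at h1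
      · exact h
    · rw [Nat.le_div_iff_mul_le hl]; linarith [mul_comm l m]
  · rintro ⟨m, ⟨h1, h2⟩, rfl⟩
    rw [Nat.le_div_iff_mul_le hl] at h2
    exact ⟨⟨Nat.mul_pos hl h1, by linarith [mul_comm l m]⟩, dvd_mul_right _ _⟩

lemma factsB_sum_dvd (l N : ℕ) (hl : 0 < l) (φ : ℕ → ℝ) :
    ∑ n ∈ (Icc 1 N).filter (fun n => l ∣ n), φ n = ∑ m ∈ Icc 1 (N / l), φ (l * m) := by
  rw [factsB_filter_dvd l N hl, Finset.sum_image]
  intro a _ b _ h
  exact Nat.eq_of_mul_eq_mul_left hl h

theorem facts_euler : ∀ (g : ℕ → ℝ) (P S : Finset ℕ),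
    (∀ l ∈ P, l.Prime ∧ 0 ≤ g l ∧ g l ≤ 3 / 4 * l) →
    (∀ n ∈ S, n ≠ 0 ∧ n.primeFactors ⊆ P) →
    ∑ n ∈ S, cm g n / n ≤ exp (∑ l ∈ P, (g l / l + 4 * (g l / l) ^ 2)) := by
  intro g P
  induction P using Finset.induction_on with
  | empty =>
    intro S _ hS
    have : S ⊆ {1} := by
      intro n hn
      obtain ⟨h1, h2⟩ := hS n hn
      rw [Finset.subset_empty, Nat.primeFactors_eq_empty] at h2
      rw [Finset.mem_singleton]; omega
    rcases Finset.subset_singleton_iff.mp this with h | h <;> simp [h, cm_one]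
  | insert l P hlP ih =>
    intro S hP hS
    obtain ⟨hl, hg0, hg1⟩ := hP l (Finset.mem_insert_self _ _)
    have hl0 : (0 : ℝ) < l := by exact_mod_cast hl.pos
    set x := g l / l with hx
    have hx0 : 0 ≤ x := by positivity
    have hx1 : x ≤ 3 / 4 := by rw [hx, div_le_iff₀ hl0]; exact hg1
    set E := exp (∑ l ∈ P, (g l / l + 4 * (g l / l) ^ 2)) with hE
    have hE0 : 0 < E := exp_pos _
    obtain ⟨N, hN⟩ := Finset.exists_nat_subset_range S
    let φ : ℕ → ℝ := fun n => if n.primeFactors ⊆ insert l P then cm g n / n else 0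
    have hφ0 : ∀ n, 0 ≤ φ n := by
      intro n
      simp only [φ]
      split_ifs with h
      · exact div_nonneg (cm_nonneg fun q hq => (hP q (h hq)).2.1) (Nat.cast_nonneg _)
      · exact le_rfl
    have h1 : ∑ n ∈ S, cm g n / n ≤ ∑ n ∈ Icc 1 N, φ n := by
      have : ∑ n ∈ S, cm g n / n = ∑ n ∈ S, φ n :=
        Finset.sum_congr rfl fun n hn => by simp only [φ]; rw [if_pos (hS n hn).2]
      rw [this]
      refine Finset.sum_le_sum_of_subset_of_nonneg (fun n hn => ?_) fun n _ _ => hφ0 n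
      have := Finset.mem_range.mp (hN hn)
      have := (hS n hn).1
      rw [Finset.mem_Icc]; omega
    have h2 : ∑ n ∈ (Icc 1 N).filter (fun n => ¬ l ∣ n), φ n ≤ E := by
      have := ih (((Icc 1 N).filter (fun n => ¬ l ∣ n)).filter
        (fun n => n.primeFactors ⊆ insert l P))
        (fun q hq => hP q (Finset.mem_insert_of_mem hq)) (by
          intro n hn
          simp only [Finset.mem_filter, Finset.mem_Icc] at hn
          refine ⟨by omega, fun q hq => ?_⟩
          rcases Finset.mem_insert.mp (hn.2 hq) with h | h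
          · subst h; exact absurd (Nat.dvd_of_mem_primeFactors hq) hn.1.2
          · exact h)
      rwa [Finset.sum_filter] at this
    have h3 : ∑ n ∈ (Icc 1 N).filter (fun n => l ∣ n), φ n ≤ x * ∑ n ∈ Icc 1 N, φ n := by
      rw [factsB_sum_dvd l N hl.pos]
      have e : ∀ m ∈ Icc 1 (N / l), φ (l * m) = x * φ m := by
        intro m hm
        have hm0 : m ≠ 0 := by have := (Finset.mem_Icc.mp hm).1; omega
        simp only [φ]
        have : (l * m).primeFactors ⊆ insert l P ↔ m.primeFactors ⊆ insert l P := by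
          rw [Nat.primeFactors_mul hl.ne_zero hm0, hl.primeFactors, Finset.union_subset_iff]
          simp
        by_cases h : m.primeFactors ⊆ insert l P
        · rw [if_pos h, if_pos (this.mpr h), cm_mul g hl.ne_zero hm0, cm_prime g hl, hx]
          push_cast; ring
        · rw [if_neg h, if_neg (fun h' => h (this.mp h')), mul_zero]
      rw [Finset.sum_congr rfl e, ← Finset.mul_sum]
      refine mul_le_mul_of_nonneg_left ?_ hx0
      exact Finset.sum_le_sum_of_subset_of_nonneg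
        (Finset.Icc_subset_Icc_right (Nat.div_le_self _ _)) fun n _ _ => hφ0 n
    have h4 := Finset.sum_filter_add_sum_filter_not (Icc 1 N) (fun n => l ∣ n) φ
    set T := ∑ n ∈ Icc 1 N, φ n
    have hT0 : 0 ≤ T := Finset.sum_nonneg fun n _ => hφ0 n
    have h5 : (1 - x) * T ≤ E := by linarith
    rw [Finset.sum_insert hlP, exp_add, ← hE, ← hx]
    have h6 : x + 4 * x ^ 2 + 1 ≤ exp (x + 4 * x ^ 2) := add_one_le_exp _
    have h7 : 1 ≤ (x + 4 * x ^ 2 + 1) * (1 - x) := by nlinarith [sq_nonneg x]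
    have h8 : T ≤ (x + 4 * x ^ 2 + 1) * E := by
      have := mul_le_mul_of_nonneg_left h5 (show 0 ≤ x + 4 * x ^ 2 + 1 by positivity)
      nlinarith
    nlinarith

lemma factsB_count_nat : ∀ (P : Finset ℕ) (F : ℕ → ℝ),
    (∀ l ∈ P, l.Prime ∧ 1 ≤ F l ∧ 2 * F l ≤ l) → (∀ l, l ∉ P → F l = 1) → ∀ N : ℕ,
    ∑ n ∈ Icc 1 N, cm F n ≤ N * exp (∑ l ∈ P, ((F l - 1) / l + 2 * (F l / l) ^ 2)) := by
  intro P
  induction P using Finset.induction_on with
  | empty =>
    intro F _ hF N
    have : ∀ n, cm F n = 1 := fun n => by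
      rw [cm_eq_prod]; exact Finset.prod_eq_one fun l _ => by rw [hF l (by simp), one_pow]
    simp [this]
  | insert l P hlP ih =>
    intro F hP hF
    obtain ⟨hl, hF1, hF2⟩ := hP l (Finset.mem_insert_self _ _)
    have hl0 : (0 : ℝ) < l := by exact_mod_cast hl.pos
    set F' := Function.update F l 1 with hF'
    have hFF : ∀ q, q ≠ l → F' q = F q := fun q hq => Function.update_of_ne hq _ _
    have hne : ∀ q ∈ P, q ≠ l := fun q hq h => hlP (h ▸ hq)
    have ih' := ih F' (fun q hq => by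
        rw [hFF q (hne q hq)]; exact hP q (Finset.mem_insert_of_mem hq))
      (fun q hq => by
        by_cases h : q = l
        · subst h; exact Function.update_self _ _ _
        · rw [hFF q h]; exact hF q (by simp [h, hq]))
    have e0 : ∑ q ∈ P, ((F' q - 1) / q + 2 * (F' q / q) ^ 2) =
        ∑ q ∈ P, ((F q - 1) / q + 2 * (F q / q) ^ 2) :=
      Finset.sum_congr rfl fun q hq => by rw [hFF q (hne q hq)]
    rw [e0] at ih'
    set E := exp (∑ q ∈ P, ((F q - 1) / q + 2 * (F q / q) ^ 2)) with hE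
    have hE0 : 0 < E := exp_pos _
    have hlF : 0 < (l : ℝ) - F l := by linarith
    set c := (F l - 1) / (l - F l) with hc
    have hc0 : 0 ≤ c := div_nonneg (by linarith) hlF.le
    have hcc : c * (l - F l) = F l - 1 := by rw [hc]; field_simp
    have hrec : ∀ N : ℕ, ∑ n ∈ Icc 1 N, cm F n - ∑ n ∈ Icc 1 N, cm F' n =
        F l * ∑ n ∈ Icc 1 (N / l), cm F n - ∑ n ∈ Icc 1 (N / l), cm F' n := by
      intro N
      have a1 := Finset.sum_filter_add_sum_filter_not (Icc 1 N) (fun n => l ∣ n) (cm F)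
      have a2 := Finset.sum_filter_add_sum_filter_not (Icc 1 N) (fun n => l ∣ n) (cm F')
      rw [factsB_sum_dvd l N hl.pos] at a1 a2
      have a3 : ∑ n ∈ (Icc 1 N).filter (fun n => ¬ l ∣ n), cm F n =
          ∑ n ∈ (Icc 1 N).filter (fun n => ¬ l ∣ n), cm F' n := by
        refine Finset.sum_congr rfl fun n hn => ?_
        rw [cm_eq_prod, cm_eq_prod]
        refine Finset.prod_congr rfl fun q hq => ?_
        rw [hFF q]
        rintro rfl
        exact (Finset.mem_filter.mp hn).2 (Nat.dvd_of_mem_primeFactors hq)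
      have a4 : ∀ G : ℕ → ℝ, ∑ m ∈ Icc 1 (N / l), cm G (l * m) =
          G l * ∑ m ∈ Icc 1 (N / l), cm G m := by
        intro G
        rw [Finset.mul_sum]
        refine Finset.sum_congr rfl fun m hm => ?_
        have hm0 : m ≠ 0 := by have := (Finset.mem_Icc.mp hm).1; omega
        rw [cm_mul G hl.ne_zero hm0, cm_prime G hl]
      rw [a4] at a1 a2
      have a5 : F' l = 1 := Function.update_self _ _ _
      rw [a5] at a2
      linarith
    have key : ∀ N : ℕ, ∑ n ∈ Icc 1 N, cm F n - ∑ n ∈ Icc 1 N, cm F' n ≤ c * N * E := by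
      intro N
      induction N using Nat.strong_induction_on with
      | _ N ihN =>
        rcases Nat.eq_zero_or_pos N with h | h
        · subst h; simp
        · have b1 := ihN (N / l) (Nat.div_lt_self h hl.one_lt)
          have b2 := ih' (N / l)
          have b3 : ((N / l : ℕ) : ℝ) * l ≤ N := by exact_mod_cast Nat.div_mul_le_self N l
          rw [hrec N]
          have b4 := mul_le_mul_of_nonneg_left b1 (show 0 ≤ F l by linarith)
          have b5 := mul_le_mul_of_nonneg_left b2 (show 0 ≤ F l - 1 by linarith)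
          have b6 := mul_le_mul_of_nonneg_left b3 (mul_nonneg hc0 hE0.le)
          have b7 : F l * (c * ((N / l : ℕ) : ℝ) * E) + (F l - 1) * (((N / l : ℕ) : ℝ) * E) =
              c * E * (((N / l : ℕ) : ℝ) * l) := by
            rw [← hcc]; ring
          nlinarith
    intro N
    rw [Finset.sum_insert hlP, exp_add, ← hE]
    have d1 := key N
    have d2 := ih' N
    have d3 : c ≤ (F l - 1) / l + 2 * (F l / l) ^ 2 := by
      rw [hc, div_le_iff₀ hlF]
      have : ((F l - 1) / l + 2 * (F l / l) ^ 2) * (l - F l) =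
          ((F l - 1) * l + 2 * F l ^ 2) * (l - F l) / l ^ 2 := by field_simp
      rw [this, le_div_iff₀ (by positivity)]
      have t1 : 0 ≤ F l ^ 2 * (l - 2 * F l) := mul_nonneg (sq_nonneg _) (by linarith)
      have t2 : 0 ≤ F l * l := by positivity
      nlinarith
    have d4 := add_one_le_exp ((F l - 1) / l + 2 * (F l / l) ^ 2)
    have d5 : 0 ≤ (N : ℝ) * E := by positivity
    nlinarith [mul_le_mul_of_nonneg_left (show c + 1 ≤ exp ((F l - 1) / l + 2 * (F l / l) ^ 2) by
      linarith) d5]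

theorem facts_count_cm : ∀ (F : ℕ → ℝ) (P : Finset ℕ) (y : ℝ), 0 ≤ y →
    (∀ l ∈ P, l.Prime ∧ 1 ≤ F l ∧ 2 * F l ≤ l) → (∀ l, l ∉ P → F l = 1) →
    ∑ n ∈ Icc 1 ⌊y⌋₊, cm F n ≤ y * exp (∑ l ∈ P, ((F l - 1) / l + 2 * (F l / l) ^ 2)) := by
  intro F P y hy h1 h2
  exact (factsB_count_nat P F h1 h2 _).trans
    (mul_le_mul_of_nonneg_right (Nat.floor_le hy) (exp_pos _).le)

lemma factsB_recip (n N : ℕ) (hn : 1 ≤ n) (h : n ≤ N) :
    (1 : ℝ) / n = 1 / N + ∑ m ∈ Ico 1 N, if n ≤ m then 1 / ((m : ℝ) * (m + 1)) else 0 := by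
  induction N, h using Nat.le_induction with
  | base =>
    rw [Finset.sum_eq_zero, add_zero]
    intro m hm
    rw [if_neg (by have := (Finset.mem_Ico.mp hm).2; omega)]
  | succ N hN ih =>
    rw [Finset.sum_Ico_succ_top (by omega), if_pos hN, ih]
    have : (0 : ℝ) < N := by exact_mod_cast (by omega : 0 < N)
    push_cast
    field_simp
    ring

theorem facts_abel : ∀ {ι : Type} (S : Finset ι) (f : ι → ℕ) (κ U : ℝ), 1 ≤ U → 0 ≤ κ →
    (∀ i ∈ S, 1 ≤ f i ∧ (f i : ℝ) ≤ U) →
    (∀ m : ℕ, ((S.filter fun i => f i ≤ m).card : ℝ) ≤ κ * m) →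
    ∑ i ∈ S, (1 : ℝ) / f i ≤ κ * (1 + log U) := by
  intro ι S f κ U hU hκ h1 h2
  set N := ⌊U⌋₊ with hN
  have hN1 : 1 ≤ N := Nat.one_le_floor_iff _ |>.mpr hU
  have hN0 : (0 : ℝ) < N := by exact_mod_cast hN1
  have hf : ∀ i ∈ S, f i ≤ N := fun i hi => Nat.le_floor (h1 i hi).2
  rw [Finset.sum_congr rfl fun i hi => factsB_recip (f i) N (h1 i hi).1 (hf i hi),
    Finset.sum_add_distrib, Finset.sum_comm]
  have a1 : ∑ _i ∈ S, (1 : ℝ) / N ≤ κ := by
    have := h2 N
    rw [Finset.filter_true_of_mem hf] at this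
    rw [Finset.sum_const, nsmul_eq_mul, mul_one_div, div_le_iff₀ hN0]
    exact this
  have a2 : ∑ m ∈ Ico 1 N, ∑ i ∈ S, (if f i ≤ m then 1 / ((m : ℝ) * (m + 1)) else 0) ≤
      ∑ m ∈ Ico 1 N, κ * (1 / ((m : ℝ) + 1)) := by
    refine Finset.sum_le_sum fun m hm => ?_
    have hm0 : (0 : ℝ) < m := by exact_mod_cast (Finset.mem_Ico.mp hm).1
    rw [← Finset.sum_filter, Finset.sum_const, nsmul_eq_mul]
    refine (mul_le_mul_of_nonneg_right (h2 m) (by positivity)).trans (le_of_eq ?_)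
    field_simp
  have a3 : ∀ M : ℕ, 1 ≤ M → ∑ m ∈ Ico 1 M, (1 / ((m : ℝ) + 1)) ≤ log M := by
    intro M hM
    induction M, hM using Nat.le_induction with
    | base => simp
    | succ M hM ih =>
      rw [Finset.sum_Ico_succ_top hM]
      have hM0 : (0 : ℝ) < M := by exact_mod_cast hM
      have b1 := Real.log_le_sub_one_of_pos (show 0 < (M : ℝ) / (M + 1) by positivity)
      rw [Real.log_div hM0.ne' (by positivity)] at b1
      have b2 : (M : ℝ) / (M + 1) - 1 = - (1 / ((M : ℝ) + 1)) := by field_simp; ring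
      push_cast
      linarith
  have a4 : log N ≤ log U := Real.log_le_log hN0 (Nat.floor_le (by linarith))
  rw [← Finset.mul_sum] at a2
  have a5 := mul_le_mul_of_nonneg_left ((a3 N hN1).trans a4) hκ
  linarith

theorem facts_subsets : ∀ (P : Finset ℕ) (w : ℕ → ℝ) (K : ℕ), (∀ p ∈ P, 0 ≤ w p) →
    ∑ Q ∈ P.powerset.filter (fun Q => Q.card ≤ K), ∏ p ∈ Q, w p ≤ (1 + ∑ p ∈ P, w p) ^ K := by
  intro P w
  induction P using Finset.induction_on with
  | empty => intro K _; simp [Finset.filter_singleton]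
  | insert p P hp ih =>
    intro K hw
    have hw' : ∀ q ∈ P, 0 ≤ w q := fun q hq => hw q (Finset.mem_insert_of_mem hq)
    have hp0 := hw p (Finset.mem_insert_self _ _)
    have hW : 0 ≤ ∑ q ∈ P, w q := Finset.sum_nonneg hw'
    rw [Finset.sum_filter, Finset.sum_powerset_insert hp, ← Finset.sum_filter, Finset.sum_insert hp]
    have e : ∀ Q ∈ P.powerset, (if (insert p Q).card ≤ K then ∏ q ∈ insert p Q, w q else 0) =
        w p * (if Q.card + 1 ≤ K then ∏ q ∈ Q, w q else 0) := by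
      intro Q hQ
      have : p ∉ Q := fun h => hp (Finset.mem_powerset.mp hQ h)
      rw [Finset.card_insert_of_notMem this, Finset.prod_insert this]
      split_ifs <;> simp
    rw [Finset.sum_congr rfl e, ← Finset.mul_sum]
    rcases K with _ | K
    · have := ih 0 hw'
      simpa using this
    · simp only [Nat.add_le_add_iff_right]
      rw [← Finset.sum_filter]
      have i1 := ih (K + 1) hw'
      have i2 := mul_le_mul_of_nonneg_left (ih K hw') hp0
      have i3 : (1 + ∑ q ∈ P, w q) ^ K ≤ (1 + (w p + ∑ q ∈ P, w q)) ^ K :=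
        pow_le_pow_left₀ (by positivity) (by linarith) K
      have i4 := mul_le_mul_of_nonneg_right i3
        (show 0 ≤ 1 + (w p + ∑ q ∈ P, w q) by positivity)
      rw [pow_succ] at i1 ⊢
      nlinarith

lemma factsB_cm_rpow (η : ℝ) (n : ℕ) (hn : n ≠ 0) :
    cm (fun l => (l : ℝ) ^ η) n = (n : ℝ) ^ η := by
  induction n using Nat.recOnMul with
  | zero => exact absurd rfl hn
  | one => simp [cm_one]
  | prime p hp => exact cm_prime _ hp
  | mul a b iha ihb =>
    have ha : a ≠ 0 := left_ne_zero_of_mul hn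
    have hb : b ≠ 0 := right_ne_zero_of_mul hn
    rw [cm_mul _ ha hb, iha ha, ihb hb, Nat.cast_mul,
      Real.mul_rpow (Nat.cast_nonneg _) (Nat.cast_nonneg _)]

theorem facts_smooth (hm : ∀ n : ℕ, 2 ≤ n → |A n - log (log n)| ≤ 10)
    (hs : ∀ (S : Finset ℕ) (m : ℕ), 1 ≤ m → (∀ l ∈ S, m < l) →
      ∑ l ∈ S, (1 / (l : ℝ)) ^ 2 ≤ (1 : ℝ) / m) :
    ∀ L W y : ℝ, 16 ≤ L → 1 ≤ W → 0 ≤ y →
    (((Icc 1 ⌊y⌋₊).filter fun n : ℕ => W ≤ n ∧ ∀ l ∈ n.primeFactors, (l : ℝ) ≤ L).card : ℝ) ≤
      y * exp (-(log W / log L) + 3 * log (log L) + 100) := by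
  intro L W y hL hW hy
  have hlog : 2 ≤ log L := by
    rw [Real.le_log_iff_exp_le (by linarith)]
    have h1 := Real.exp_one_lt_d9
    have : exp 2 = exp 1 * exp 1 := by rw [← exp_add]; norm_num
    nlinarith [exp_pos 1]
  set η := 1 / log L with hη
  have hη0 : 0 < η := by positivity
  have hη1 : η ≤ 1 / 2 := by rw [hη]; exact one_div_le_one_div_of_le (by norm_num) hlog
  set P := (range (⌊L⌋₊ + 1)).filter Nat.Prime with hP
  set S := (Icc 1 ⌊y⌋₊).filter fun n : ℕ => W ≤ n ∧ ∀ l ∈ n.primeFactors, (l : ℝ) ≤ L with hS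
  have hg3 : ∀ l ∈ P, (l : ℝ) ^ η ≤ 3 := by
    intro l hl
    obtain ⟨h1, h2⟩ := Finset.mem_filter.mp hl
    have h3 : (l : ℝ) ≤ L := by
      have := Finset.mem_range.mp h1
      exact (Nat.le_floor_iff (by linarith)).mp (by omega)
    refine (Real.rpow_le_rpow (Nat.cast_nonneg _) h3 hη0.le).trans ?_
    rw [Real.rpow_def_of_pos (by linarith), hη, mul_one_div, div_self (by linarith)]
    linarith [Real.exp_one_lt_d9]
  have he := facts_euler (fun l => (l : ℝ) ^ η) P S (by
      intro l hl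
      have h2 := (Finset.mem_filter.mp hl).2
      have h3 : (2 : ℝ) ≤ l := by exact_mod_cast h2.two_le
      refine ⟨h2, by positivity, ?_⟩
      refine (Real.rpow_le_rpow_of_exponent_le (by linarith) hη1).trans ?_
      rw [← Real.sqrt_eq_rpow, Real.sqrt_le_left (by linarith)]
      nlinarith) (by
      intro n hn
      obtain ⟨h1, _, h3⟩ := Finset.mem_filter.mp hn
      refine ⟨by have := (Finset.mem_Icc.mp h1).1; omega, fun l hl => ?_⟩
      refine Finset.mem_filter.mpr ⟨Finset.mem_range.mpr ?_, Nat.prime_of_mem_primeFactors hl⟩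
      have := Nat.le_floor (h3 l hl)
      omega)
  have hsum : ∑ l ∈ P, ((l : ℝ) ^ η / l + 4 * ((l : ℝ) ^ η / l) ^ 2) ≤ 3 * log (log L) + 100 := by
    have a1 : ∑ l ∈ P, ((l : ℝ) ^ η / l + 4 * ((l : ℝ) ^ η / l) ^ 2) ≤
        ∑ l ∈ P, (3 * (1 / (l : ℝ)) + 36 * (1 / (l : ℝ)) ^ 2) := by
      refine Finset.sum_le_sum fun l hl => ?_
      have b1 : (l : ℝ) ^ η / l ≤ 3 * (1 / (l : ℝ)) := by
        rw [mul_one_div]
        exact div_le_div_of_nonneg_right (hg3 l hl) (Nat.cast_nonneg _)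
      have b2 : 0 ≤ (l : ℝ) ^ η / l := by positivity
      have := pow_le_pow_left₀ b2 b1 2
      nlinarith
    have a0 : ∑ l ∈ P, (3 * (1 / (l : ℝ)) + 36 * (1 / (l : ℝ)) ^ 2) =
        3 * ∑ l ∈ P, 1 / (l : ℝ) + 36 * ∑ l ∈ P, (1 / (l : ℝ)) ^ 2 := by
      rw [Finset.sum_add_distrib, ← Finset.mul_sum, ← Finset.mul_sum]
    rw [a0] at a1
    have a2 := hs P 1 le_rfl fun l hl => (Finset.mem_filter.mp hl).2.one_lt
    have hfl : 2 ≤ ⌊L⌋₊ := Nat.le_floor (by push_cast; linarith)
    have a3 := (abs_le.mp (hm _ hfl)).2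
    have hfl' : (2 : ℝ) ≤ ⌊L⌋₊ := by exact_mod_cast hfl
    have a4 : log (log (⌊L⌋₊ : ℝ)) ≤ log (log L) :=
      Real.log_le_log (Real.log_pos (by linarith))
        (Real.log_le_log (by linarith) (Nat.floor_le (by linarith)))
    have a5 : A ⌊L⌋₊ = ∑ l ∈ P, 1 / (l : ℝ) := rfl
    simp only [Nat.cast_one, div_one] at a2
    linarith
  have hpt : ∀ n ∈ S, (1 : ℝ) ≤ y * exp (-(log W / log L)) * (cm (fun l => (l : ℝ) ^ η) n / n) := by
    intro n hn
    obtain ⟨h1, h2, _⟩ := Finset.mem_filter.mp hn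
    obtain ⟨h3, h4⟩ := Finset.mem_Icc.mp h1
    have hn0 : (0 : ℝ) < n := by exact_mod_cast h3
    have h5 : (n : ℝ) ≤ y := (Nat.le_floor_iff hy).mp h4
    rw [factsB_cm_rpow η n (by omega), Real.rpow_def_of_pos hn0]
    have h6 : 1 ≤ exp (-(log W / log L)) * exp (log n * η) := by
      rw [← exp_add]
      apply Real.one_le_exp
      have := Real.log_le_log (by linarith) h2
      have e : log W / log L = log W * η := by rw [hη]; ring
      rw [e]; nlinarith
    have h7 : 1 ≤ y / n := by rw [le_div_iff₀ hn0]; linarith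
    have e2 : y * exp (-(log W / log L)) * (exp (log n * η) / n) =
        (y / n) * (exp (-(log W / log L)) * exp (log n * η)) := by ring
    rw [e2]
    nlinarith
  have h1 := Finset.sum_le_sum hpt
  rw [Finset.sum_const, nsmul_eq_mul, mul_one, ← Finset.mul_sum] at h1
  refine h1.trans ?_
  rw [add_assoc, exp_add, mul_assoc]
  refine mul_le_mul_of_nonneg_left (mul_le_mul_of_nonneg_left ?_ (exp_pos _).le) hy
  exact he.trans (exp_le_exp.mpr hsum)

end Vale.Agent.P031
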