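import Vale.Agent.P031.FactsA
import Vale.Agent.P031.FactsB

/-! Assembly of the elementary prime number facts (for P031). -/

namespace Vale.Agent.P031

theorem facts : Facts where
  mertens := facts_mertens
  le_Ub := facts_le_Ub
  ge_blk := facts_ge_blk
  sum_lt_le := facts_sum_lt_le
  sum_lt_ge := facts_sum_lt_ge
  block := facts_block
  euler := facts_euler
  sum_sq := facts_sum_sq
  count_cm := facts_count_cm
  smooth := facts_smooth facts_mertens facts_sum_sq
  recip_div := facts_recip_div
  abel := facts_abel
  primes_ge := facts_primes_ge
  subsets := facts_subsets

end Vale.Agent.P031
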