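import Vale.Agent.P031.Final2

namespace Vale.Agent.P031

open Finset Filter Real

/-- common upper bound: for `y ≤ c x` the totients split into four kinds -/
lemma final_split (F : Facts) (P : Prof) (Ba : BadStmt) (Up : UpperStmt) (c : ℝ) (hc : 1 < c) :
    ∃ (C : ℝ) (B₂ : ℕ), 0 < C ∧ ∀ᶠ x : ℝ in atTop, ∃ K : ℕ, ((K : ℝ) + 1 ≤ 20 * log (A ⌊x⌋₊)) ∧
      ∀ B : ℕ, B₂ ≤ B → ∀ y Z lo : ℝ, 16 ≤ y → y ≤ c * x →
      exp (exp B * (B : ℝ) ^ 2) ≤ y ^ (1 / 4 : ℝ) → 1 ≤ Z →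
      (∀ u : ℝ, 2 ≤ u → u ≤ c * x → ((tots u).card : ℝ) ≤ Z * u / log u) →
      ∃ R : Finset ℕ, (∀ v ∈ R, (v : ℝ) ≤ y ∧ ∃ (p : ℕ) (Q : Finset ℕ) (μ : ℕ), p.Prime ∧
        Good B Q ∧ Small B μ ∧ Phi Q ≤ lo ∧ (∀ q ∈ Q, (blk q : ℝ) ≤ lo) ∧
        v = μ * (p - 1) * val Q) ∧
      ((tots y).card : ℝ) ≤ √y + Z * y / log y / (B : ℝ) ^ 3 +
        C * (K + 1) * exp B * (y / log y) *
          ∑ k ∈ range (K + 1), ((Rp B k lo (A ⌊x⌋₊ + 2 * hh (A ⌊x⌋₊))).card : ℝ) + R.card := by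
  classical
  obtain ⟨Bg, hg⟩ := P.growth
  obtain ⟨Bb, hb⟩ := Ba
  obtain ⟨C, Bu, hC, hu⟩ := Up
  refine ⟨C, max Bg (max Bb Bu), hC, ?_⟩
  have hs := final_s_tendsto F
  filter_upwards [hs.eventually final_fs1, hs.eventually final_fs2, hs.eventually_ge_atTop 1,
    final_blk_le F c hc] with x f1 f2 f3 f4
  set s := A ⌊x⌋₊ with hsdef
  have hh0 := final_hh_nonneg (show 0 ≤ s by linarith)
  have hlog : 0 ≤ 10 * log (s + 2 * hh s) := by
    have := Real.log_nonneg (show 1 ≤ s + 2 * hh s by linarith); linarith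
  refine ⟨⌊10 * log (s + 2 * hh s)⌋₊, ?_, ?_⟩
  · have := Nat.floor_le hlog; linarith
  intro B hB y Z lo hy hyx hBy hZ hZ'
  have hBg : Bg ≤ B := le_trans (le_max_left _ _) hB
  have hBb : Bb ≤ B := le_trans (le_trans (le_max_left _ _) (le_max_right _ _)) hB
  have hBu : Bu ≤ B := le_trans (le_trans (le_max_right _ _) (le_max_right _ _)) hB
  obtain ⟨R, hR1, hR2⟩ := final_decomp P (K := ⌊10 * log (s + 2 * hh s)⌋₊) (lo := lo)
    (hi := s + 2 * hh s) hy hBy
    (fun Q hQ hQ' => Nat.le_floor (hg B hBg Q _ (by linarith) hQ hQ').1)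
    (fun p hp hpy => by
      have h1 := f4 p hp (by linarith)
      have h2 : hh (blk p) ≤ hh (s + 21) := final_hh_mono (Nat.cast_nonneg _) h1
      linarith)
    (fun S hS => hu B hBu y lo _ _ hy hBy S hS)
  refine ⟨R, hR1, ?_⟩
  have h3 := hb B hBb y Z hy hZ fun u hu1 hu2 => hZ' u hu1 (hu2.trans hyx)
  linarith

set_option maxHeartbeats 1000000 in
/-- stage A: a uniform bound for `V(y) log y / y` in terms of `V(x) log x / x` -/
lemma final_stageA (F : Facts) (P : Prof) (Ba : BadStmt) (La : LatticeStmt) (Up : UpperStmt)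
    (Lo : LowerStmt) (Cl : CleanStmt) (Pn : PNTStmt) (c : ℝ) (hc : 1 < c) :
    ∃ C₁ : ℝ, 0 < C₁ ∧ ∀ᶠ x : ℝ in atTop, ∃ Z : ℝ, 1 ≤ Z ∧
      (∀ u : ℝ, 2 ≤ u → u ≤ c * x → ((tots u).card : ℝ) ≤ Z * u / log u) ∧
      Z * (x / log x) ≤ C₁ * (log (A ⌊x⌋₊)) ^ 2 * (tots x).card := by
  classical
  obtain ⟨C, B₂, hC, hsp⟩ := final_split F P Ba Up c hc
  obtain ⟨CL, BL, s₀, hCL, hLa⟩ := La
  obtain ⟨BC, hCl⟩ := Cl
  obtain ⟨B₁, hD⟩ := final_dsum F Lo Pn
  obtain ⟨B, hBdef⟩ : ∃ B, B = 3 * (B₂ + BL + BC + B₁ + 2) := ⟨_, rfl⟩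
  have hB3 : B / 3 = B₂ + BL + BC + B₁ + 2 := by omega
  set y₀ : ℝ := max 16 (exp (4 * (exp B * (B : ℝ) ^ 2))) with hy₀
  have hy₀16 : 16 ≤ y₀ := le_max_left _ _
  have hly₀ : 0 ≤ log y₀ := Real.log_nonneg (by linarith)
  refine ⟨8 * (3 + log y₀) + 2 * (C * 400 * exp B * CL * 8), by positivity, ?_⟩
  have hs := final_s_tendsto F
  have hls := Real.tendsto_log_atTop.comp hs
  filter_upwards [hsp, hCl, hD, hs.eventually_ge_atTop s₀, hls.eventually_ge_atTop (20 * B),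
    hls.eventually_ge_atTop 1, eventually_ge_atTop 2] with x h1 h2 h3 h4 h5 h6 hx
  simp only [Function.comp] at h5 h6
  set s := A ⌊x⌋₊ with hsdef
  obtain ⟨K, hK, h1⟩ := h1
  have hB3le : ((B / 3 : ℕ) : ℝ) ≤ log s / 20 + 1 := by
    have : ((B / 3 : ℕ) : ℝ) ≤ B := by exact_mod_cast Nat.div_le_self _ _
    linarith
  obtain ⟨hD1, hD2⟩ := h3 (B / 3) (by omega) hB3le
  set D := ∑ d ∈ DD (B / 3) x, (1 : ℝ) / d with hDdef
  set 𝒵 : Set ℝ := {z | ∃ u : ℝ, 2 ≤ u ∧ u ≤ c * x ∧ z = (tots u).card * log u / u} with h𝒵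
  have hcx : x ≤ c * x := by nlinarith
  have hbdd : BddAbove 𝒵 := by
    refine ⟨log (c * x), ?_⟩
    rintro z ⟨u, hu1, hu2, rfl⟩
    have hu0 : 0 < u := by linarith
    rw [div_le_iff₀ hu0]
    have a1 := final_card_tots_le hu0.le
    have a2 : log u ≤ log (c * x) := Real.log_le_log hu0 hu2
    have a3 : 0 ≤ log u := Real.log_nonneg (by linarith)
    calc ((tots u).card : ℝ) * log u ≤ u * log (c * x) := by gcongr
      _ = log (c * x) * u := by ring
  have hne : 𝒵.Nonempty := ⟨_, 2, le_rfl, by linarith, rfl⟩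
  set Z := max 1 (sSup 𝒵) with hZdef
  have hZ1 : 1 ≤ Z := le_max_left _ _
  have hZ2 : ∀ u : ℝ, 2 ≤ u → u ≤ c * x → ((tots u).card : ℝ) ≤ Z * u / log u := by
    intro u hu1 hu2
    have hu0 : 0 < u := by linarith
    have a1 : (tots u).card * log u / u ≤ Z :=
      (le_csSup hbdd ⟨u, hu1, hu2, rfl⟩).trans (le_max_right _ _)
    have a3 : 0 < log u := Real.log_pos (by linarith)
    rw [div_le_iff₀ hu0] at a1
    rw [le_div_iff₀ a3]; exact a1
  refine ⟨Z, hZ1, hZ2, ?_⟩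
  set Rr := C * (K + 1) * exp B * ∑ k ∈ range (K + 1),
    ((Rp B k (-1) (s + 2 * hh s)).card : ℝ) with hRr
  have hRr0 : 0 ≤ Rr := mul_nonneg (mul_nonneg (mul_nonneg hC.le (by positivity)) (exp_pos _).le)
    (Finset.sum_nonneg fun _ _ => Nat.cast_nonneg _)
  have hsup : sSup 𝒵 ≤ log y₀ + 2 + Z / 2 + Rr := by
    refine csSup_le hne ?_
    rintro z ⟨u, hu1, hu2, rfl⟩
    have hu0 : 0 < u := by linarith
    have a3 : 0 < log u := Real.log_pos (by linarith)
    by_cases hu : u ≤ y₀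
    · have a1 := final_card_tots_le hu0.le
      have a2 : log u ≤ log y₀ := Real.log_le_log hu0 hu
      have : ((tots u).card : ℝ) * log u / u ≤ log y₀ := by
        rw [div_le_iff₀ hu0]
        calc ((tots u).card : ℝ) * log u ≤ u * log y₀ := by gcongr
          _ = log y₀ * u := by ring
      linarith
    push Not at hu
    have hu16 : 16 ≤ u := by linarith
    have hBu : exp (exp B * (B : ℝ) ^ 2) ≤ u ^ (1 / 4 : ℝ) := by
      have a1 : exp (4 * (exp B * (B : ℝ) ^ 2)) ≤ u := (le_max_right _ _).trans hu.le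
      calc exp (exp B * (B : ℝ) ^ 2) = (exp (4 * (exp B * (B : ℝ) ^ 2))) ^ (1 / 4 : ℝ) := by
            rw [← Real.exp_mul]; congr 1; ring
        _ ≤ u ^ (1 / 4 : ℝ) := Real.rpow_le_rpow (by positivity) a1 (by norm_num)
    obtain ⟨R, hR1, hR2⟩ := h1 B (by omega) u Z (-1) hu16 hu2 hBu hZ1 hZ2
    have hRe : R = ∅ := by
      rw [Finset.eq_empty_iff_forall_notMem]
      intro v hv
      obtain ⟨_, p, Q, μ, _, _, _, a1, _⟩ := hR1 v hv
      have := final_phi_nonneg P Q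
      linarith
    rw [hRe] at hR2
    simp only [Finset.card_empty, Nat.cast_zero, add_zero] at hR2
    have b1 : √u ≤ 2 * (u / log u) := by
      have a1 : log u ≤ 2 * √u := by
        have a2 : log √u ≤ √u - 1 := Real.log_le_sub_one_of_pos (by positivity)
        rw [Real.log_sqrt hu0.le] at a2
        linarith
      rw [← mul_div_assoc, le_div_iff₀ a3]
      calc √u * log u ≤ √u * (2 * √u) := by gcongr
        _ = 2 * (√u * √u) := by ring
        _ = 2 * u := by rw [Real.mul_self_sqrt hu0.le]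
    have b2 : Z * u / log u / (B : ℝ) ^ 3 ≤ Z / 2 * (u / log u) := by
      have a1 : (2 : ℝ) ≤ (B : ℝ) ^ 3 := by
        have a2 : (2 : ℝ) ≤ B := by exact_mod_cast (by omega : 2 ≤ B)
        nlinarith [sq_nonneg (B : ℝ)]
      calc Z * u / log u / (B : ℝ) ^ 3 ≤ Z * u / log u / 2 := by gcongr
        _ = Z / 2 * (u / log u) := by ring
    have b3 : ((tots u).card : ℝ) ≤ (2 + Z / 2 + Rr) * (u / log u) := by
      have : C * (K + 1) * exp B * (u / log u) * ∑ k ∈ range (K + 1),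
        ((Rp B k (-1) (s + 2 * hh s)).card : ℝ) = Rr * (u / log u) := by rw [hRr]; ring
      rw [this] at hR2
      linarith
    have b4 : ((tots u).card : ℝ) * log u / u ≤ 2 + Z / 2 + Rr := by
      rw [div_le_iff₀ hu0]
      calc ((tots u).card : ℝ) * log u ≤ (2 + Z / 2 + Rr) * (u / log u) * log u := by gcongr
        _ = (2 + Z / 2 + Rr) * u := by field_simp
    linarith
  have hZ3 : Z ≤ 2 * (3 + log y₀) + 2 * Rr := by
    have : Z ≤ 1 + (log y₀ + 2 + Z / 2 + Rr) := max_le (by linarith) (by linarith)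
    linarith
  have hRr2 : Rr ≤ C * 400 * exp B * CL * 2 * (log s) ^ 2 * D := by
    have a1 : ∑ k ∈ range (K + 1), ((Rp B k (-1) (s + 2 * hh s)).card : ℝ) ≤
        (K + 1) * (CL * (2 * D)) := by
      have := Finset.sum_le_card_nsmul (range (K + 1))
        (fun k => ((Rp B k (-1) (s + 2 * hh s)).card : ℝ)) (CL * (2 * D)) fun k _ =>
          (hLa B (by omega) s h4 k).1.trans
            (mul_le_mul_of_nonneg_left (h2 (B / 3) (by omega) hB3le k) hCL.le)
      simpa using this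
    calc Rr ≤ C * (K + 1) * exp B * ((K + 1) * (CL * (2 * D))) := by rw [hRr]; gcongr
      _ ≤ C * (20 * log s) * exp B * ((20 * log s) * (CL * (2 * D))) := by gcongr
      _ = C * 400 * exp B * CL * 2 * (log s) ^ 2 * D := by ring
  have hxl : 0 < x / log x := div_pos (by linarith) (Real.log_pos (by linarith))
  have hl2 : 1 ≤ (log s) ^ 2 := by nlinarith
  have hZ4 : Z ≤ (2 * (3 + log y₀) + 2 * (C * 400 * exp B * CL * 2)) * (log s) ^ 2 * D := by
    have a1 : 2 * (3 + log y₀) ≤ 2 * (3 + log y₀) * (log s) ^ 2 * D := by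
      have a2 : 1 ≤ (log s) ^ 2 * D := one_le_mul_of_one_le_of_one_le hl2 hD1
      nlinarith
    nlinarith
  calc Z * (x / log x) ≤ (2 * (3 + log y₀) + 2 * (C * 400 * exp B * CL * 2)) * (log s) ^ 2 * D *
        (x / log x) := by gcongr
    _ = (2 * (3 + log y₀) + 2 * (C * 400 * exp B * CL * 2)) * (log s) ^ 2 * (D * (x / log x)) := by
      ring
    _ ≤ (2 * (3 + log y₀) + 2 * (C * 400 * exp B * CL * 2)) * (log s) ^ 2 *
        (4 * (tots x).card) := by gcongr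
    _ = _ := by ring

set_option maxHeartbeats 1000000 in
/-- stage B: the main term -/
lemma final_stageB (F : Facts) (P : Prof) (Ba : BadStmt) (La : LatticeStmt) (Up : UpperStmt)
    (Sz : SizeStmt) (Lo : LowerStmt) (Cl : CleanStmt) (Pn : PNTStmt) (c : ℝ) (hc : 1 < c)
    (δ : ℝ) (hδ : 0 < δ) :
    ∀ᶠ x : ℝ in atTop, 0 < ((tots x).card : ℝ) ∧ ∃ B : ℕ, ∀ t : ℝ, x ≤ t → t ≤ c * x →
      |((tots t).card : ℝ) - ∑ d ∈ DD B x, (Nat.primeCounting (⌊t / d⌋₊ + 1) : ℝ)| ≤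
        δ * (tots x).card := by
  classical
  obtain ⟨C₁, hC₁, hA⟩ := final_stageA F P Ba La Up Lo Cl Pn c hc
  obtain ⟨C, B₂, hC, hsp⟩ := final_split F P Ba Up c hc
  obtain ⟨CL, BL, s₀, hCL, hLa⟩ := La
  obtain ⟨BC, hCl⟩ := Cl
  obtain ⟨B₁, hD⟩ := final_dsum F Lo Pn
  obtain ⟨BS, hSz⟩ := Sz
  obtain ⟨BO, hLo⟩ := Lo
  have hs := final_s_tendsto F
  have hls := Real.tendsto_log_atTop.comp hs
  have hc0 : 0 < c := by linarith
  filter_upwards [hA, hsp, hCl, hD, hSz, hLo c hc.le (δ / 4) (by positivity),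
    hs.eventually_ge_atTop s₀,
    hls.eventually_ge_atTop (20 * (3 * (B₂ + BL + BC + B₁ + BS + BO + 2) : ℕ)),
    hls.eventually_ge_atTop (c * C₁ * 8000 * 3 / δ), hls.eventually_ge_atTop 1,
    hs.eventually final_fs3, hs.eventually (final_fs4 (c * C * 8000 * CL * 8) (δ / 3) (by positivity)),
    final_s_le F, final_sqrt c (δ / 12) hc (by positivity), eventually_ge_atTop 16,
    hs.eventually_gt_atTop 0]
    with x h0 h1 h2 h3 h4 h5 h6 h7 h8 h9 h10 h11 h12 h13 hx hs0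
  simp only [Function.comp] at h7 h8 h9
  set s := A ⌊x⌋₊ with hsdef
  obtain ⟨K, hK, h1⟩ := h1
  obtain ⟨Z, hZ1, hZ2, hZ3⟩ := h0
  set B := ⌈log s / 20⌉₊ with hBdef
  have hBge : log s / 20 ≤ B := Nat.le_ceil _
  have hBle : (B : ℝ) ≤ log s / 20 + 1 := (Nat.ceil_lt_add_one (by positivity)).le
  have hBn : 3 * (B₂ + BL + BC + B₁ + BS + BO + 2) ≤ B := by
    have : ((3 * (B₂ + BL + BC + B₁ + BS + BO + 2) : ℕ) : ℝ) ≤ B := by linarith
    exact_mod_cast this
  have hB3le : ((B / 3 : ℕ) : ℝ) ≤ log s / 20 + 1 := by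
    have : ((B / 3 : ℕ) : ℝ) ≤ B := by exact_mod_cast Nat.div_le_self _ _
    linarith
  obtain ⟨hD1, hD2⟩ := h3 (B / 3) (by omega) hB3le
  set D := ∑ d ∈ DD (B / 3) x, (1 : ℝ) / d with hDdef
  have hx0 : 0 < x := by linarith
  have hlx : 0 < log x := Real.log_pos (by linarith)
  have hxl : 0 < x / log x := div_pos hx0 hlx
  set V := ((tots x).card : ℝ) with hV
  have hV1 : x / log x ≤ 4 * V := (le_mul_of_one_le_left hxl.le hD1).trans hD2
  have hVpos : 0 < V := by linarith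
  refine ⟨hVpos, B, fun t ht1 ht2 => ?_⟩
  have ht0 : 0 < t := by linarith
  have hlt : 0 < log t := Real.log_pos (by linarith)
  have hlow := h5 B (by omega) hBle t ht1 ht2
  have hBt : exp (exp B * (B : ℝ) ^ 2) ≤ t ^ (1 / 4 : ℝ) := by
    have a1 : exp B * (B : ℝ) ^ 2 ≤ log t * (1 / 4) := by
      have := h10 B hBle
      have a2 : log x ≤ log t := Real.log_le_log hx0 ht1
      linarith
    rw [Real.rpow_def_of_pos ht0]
    exact Real.exp_le_exp.mpr a1
  obtain ⟨R, hR1, hR2⟩ := h1 B (by omega) t Z (s - hh s) (by linarith) ht2 hBt hZ1 hZ2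
  have hR3 := final_rest P ht0.le R (h4 B (by omega) hBle) hR1
  have htl : t / log t ≤ c * (x / log x) := by
    have a2 : log x ≤ log t := Real.log_le_log hx0 ht1
    calc t / log t ≤ c * x / log x := by gcongr
      _ = c * (x / log x) := by ring
  have e1 : √t ≤ δ / 3 * V := by
    have a1 : √t ≤ √(c * x) := Real.sqrt_le_sqrt ht2
    have a2 : δ / 12 * (x / log x) ≤ δ / 12 * (4 * V) := by gcongr
    linarith
  have e2 : Z * t / log t / (B : ℝ) ^ 3 ≤ δ / 3 * V := by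
    have a1 : (log s / 20) ^ 3 ≤ (B : ℝ) ^ 3 := by gcongr
    have a2 : Z * t / log t ≤ c * (C₁ * (log s) ^ 2 * V) := by
      calc Z * t / log t = Z * (t / log t) := by ring
        _ ≤ Z * (c * (x / log x)) := by gcongr
        _ = c * (Z * (x / log x)) := by ring
        _ ≤ c * (C₁ * (log s) ^ 2 * V) := by gcongr
    have a3 : c * C₁ * 8000 * 3 ≤ log s * δ := by rwa [div_le_iff₀ hδ] at h8
    calc Z * t / log t / (B : ℝ) ^ 3 ≤ c * (C₁ * (log s) ^ 2 * V) / (log s / 20) ^ 3 := by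
          gcongr
      _ = (c * C₁ * 8000 * 3) / (3 * log s) * V := by field_simp; ring
      _ ≤ (log s * δ) / (3 * log s) * V := by gcongr
      _ = δ / 3 * V := by field_simp
  have e3 : C * (K + 1) * exp B * (t / log t) *
      ∑ k ∈ range (K + 1), ((Rp B k (s - hh s) (s + 2 * hh s)).card : ℝ) ≤ δ / 3 * V := by
    have a1 : ∑ k ∈ range (K + 1), ((Rp B k (s - hh s) (s + 2 * hh s)).card : ℝ) ≤
        (K + 1) * (CL * (K + 1) * s ^ (-(1 / 4) : ℝ) * (2 * D)) := by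
      have := Finset.sum_le_card_nsmul (range (K + 1))
        (fun k => ((Rp B k (s - hh s) (s + 2 * hh s)).card : ℝ))
        (CL * (K + 1) * s ^ (-(1 / 4) : ℝ) * (2 * D)) fun k hk => by
          refine (hLa B (by omega) s h6 k).2.trans ?_
          have b1 := h2 (B / 3) (by omega) hB3le k
          have b2 : (k : ℝ) ≤ K := by
            exact_mod_cast Nat.lt_succ_iff.mp (Finset.mem_range.mp hk)
          gcongr
      simpa using this
    have a2 : exp B ≤ exp (log s / 20 + 1) := Real.exp_le_exp.mpr hBle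
    calc C * (K + 1) * exp B * (t / log t) *
          ∑ k ∈ range (K + 1), ((Rp B k (s - hh s) (s + 2 * hh s)).card : ℝ)
        ≤ C * (20 * log s) * exp (log s / 20 + 1) * (c * (x / log x)) *
          ((20 * log s) * (CL * (20 * log s) * s ^ (-(1 / 4) : ℝ) * (2 * D))) := by
          refine le_trans (mul_le_mul_of_nonneg_left a1 (by positivity)) ?_
          gcongr
      _ = (c * C * 8000 * CL * 2 * (log s) ^ 3 * exp (log s / 20 + 1) * s ^ (-(1 / 4) : ℝ)) *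
          (D * (x / log x)) := by ring
      _ ≤ (c * C * 8000 * CL * 2 * (log s) ^ 3 * exp (log s / 20 + 1) * s ^ (-(1 / 4) : ℝ)) *
          (4 * V) := by gcongr
      _ = (c * C * 8000 * CL * 8 * (log s) ^ 3 * exp (log s / 20 + 1) * s ^ (-(1 / 4) : ℝ)) * V := by
          ring
      _ ≤ δ / 3 * V := by gcongr
  have e4 : δ / 4 * x / log x ≤ δ * V := by
    calc δ / 4 * x / log x = δ / 4 * (x / log x) := by ring
      _ ≤ δ / 4 * (4 * V) := by gcongr
      _ = δ * V := by ring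
  rw [abs_le]
  constructor <;> linarith

theorem final (F : Facts) (P : Prof) (Ba : BadStmt) (La : LatticeStmt) (Up : UpperStmt)
    (Sz : SizeStmt) (Lo : LowerStmt) (Cl : CleanStmt) (Pn : PNTStmt) : GoalStmt := by
  intro c hc
  have hc0 : 0 < c := by linarith
  rw [Metric.tendsto_nhds]
  intro ε hε
  set δ := min 1 (ε / (2 * (3 + c))) with hδdef
  have hδ : 0 < δ := lt_min one_pos (by positivity)
  have hδ1 : δ ≤ 1 := min_le_left _ _
  have hδ2 : δ * (3 + c) ≤ ε / 2 := by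
    have : δ ≤ ε / (2 * (3 + c)) := min_le_right _ _
    rw [le_div_iff₀ (by positivity)] at this
    linarith
  have hr := (Metric.tendsto_nhds.mp (final_pi_ratio Pn c hc) δ hδ).and
    ((final_pi_lower Pn).and (eventually_gt_atTop 1))
  filter_upwards [final_stageB F P Ba La Up Sz Lo Cl Pn c hc δ hδ, final_div_tendsto' hr,
    eventually_ge_atTop 0] with x h1 h2 hx
  obtain ⟨hV, B, h1⟩ := h1
  have hcx : x ≤ c * x := by nlinarith
  have a1 := abs_le.mp (h1 x le_rfl hcx)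
  have a2 := abs_le.mp (h1 (c * x) hcx le_rfl)
  set S₁ := ∑ d ∈ DD B x, (Nat.primeCounting (⌊x / d⌋₊ + 1) : ℝ) with hS₁
  set S₂ := ∑ d ∈ DD B x, (Nat.primeCounting (⌊c * x / d⌋₊ + 1) : ℝ) with hS₂
  have a3 : |S₂ - c * S₁| ≤ δ * S₁ := by
    rw [hS₁, hS₂, Finset.mul_sum, Finset.mul_sum, ← Finset.sum_sub_distrib]
    refine (Finset.abs_sum_le_sum_abs _ _).trans (Finset.sum_le_sum fun d hd => ?_)
    obtain ⟨b1, b2, b3⟩ := h2 B d hd
    have b4 : 0 < (Nat.primeCounting (⌊x / d⌋₊ + 1) : ℝ) :=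
      lt_of_lt_of_le (div_pos (by linarith) (by have := Real.log_pos b3; linarith)) b2
    rw [Real.dist_eq, ← mul_div_assoc] at b1
    have b5 : (Nat.primeCounting (⌊c * x / d⌋₊ + 1) : ℝ) - c * Nat.primeCounting (⌊x / d⌋₊ + 1) =
        ((Nat.primeCounting (⌊c * x / d⌋₊ + 1) : ℝ) / Nat.primeCounting (⌊x / d⌋₊ + 1) - c) *
          Nat.primeCounting (⌊x / d⌋₊ + 1) := by field_simp
    rw [b5, abs_mul, abs_of_pos b4]
    exact mul_le_mul_of_nonneg_right b1.le b4.le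
  have a4 := abs_le.mp a3
  set V := ((tots x).card : ℝ) with hVdef
  set W := ((tots (c * x)).card : ℝ) with hW
  have a5 : S₁ ≤ 2 * V := by nlinarith
  have a6 : δ * S₁ ≤ δ * (2 * V) := by gcongr
  have a7 : |W - c * V| ≤ δ * (3 + c) * V := by
    rw [abs_le]
    constructor <;> nlinarith
  rw [Real.dist_eq]
  have a8 : W / V - c = (W - c * V) / V := by field_simp
  rw [a8, abs_div, abs_of_pos hV, div_lt_iff₀ hV]
  have a9 : δ * (3 + c) * V ≤ ε / 2 * V := by gcongr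
  nlinarith

end Vale.Agent.P031
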