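import Vale.Agent.P031.Defs

namespace Vale.Agent.P031

open Finset Filter Real

lemma final_phi_nonneg (P : Prof) (Q : Finset ℕ) : 0 ≤ Phi Q := by
  unfold Phi
  refine Finset.sum_nonneg fun p hp => mul_nonneg (P.aa_nonneg _ ?_) (Nat.cast_nonneg _)
  exact Finset.card_pos.mpr ⟨p, Finset.mem_filter.mpr ⟨hp, le_rfl⟩⟩

lemma final_hh_mono {u v : ℝ} (hu : 0 ≤ u) (h : u ≤ v) : hh u ≤ hh v :=
  Real.rpow_le_rpow hu h (by norm_num)

lemma final_hh_nonneg {u : ℝ} (hu : 0 ≤ u) : 0 ≤ hh u := Real.rpow_nonneg hu _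

lemma final_card_tots_le {y : ℝ} (hy : 0 ≤ y) : ((tots y).card : ℝ) ≤ y := by
  classical
  have h1 : (tots y).card ≤ ⌊y⌋₊ := by
    unfold tots
    refine (Finset.card_filter_le _ _).trans ?_
    simp
  exact (Nat.cast_le.mpr h1).trans (Nat.floor_le hy)

open Classical in
/-- splitting the totients up to `y` -/
lemma final_decomp (P : Prof) {B K : ℕ} {y lo hi U : ℝ} (hy : 16 ≤ y)
    (hB : exp (exp B * (B : ℝ) ^ 2) ≤ y ^ (1 / 4 : ℝ))
    (hgrow : ∀ Q : Finset ℕ, Good B Q → (∀ q ∈ Q, (blk q : ℝ) ≤ hi) → Q.card ≤ K)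
    (hhi : ∀ p : ℕ, p.Prime → (p : ℝ) ≤ y + 1 → (blk p : ℝ) + hh (blk p) ≤ hi)
    (hU : ∀ S : Finset ℕ,
      (∀ v ∈ S, √y < v ∧ (v : ℝ) ≤ y ∧ ∃ (p : ℕ) (Q : Finset ℕ) (μ : ℕ), p.Prime ∧ (∀ q ∈ Q, q < p) ∧
        Good B Q ∧ Small B μ ∧ Q.card ≤ K ∧ Phi Q ≤ hi ∧ (∀ q ∈ Q, (blk q : ℝ) ≤ hi) ∧
        (lo < Phi Q ∨ ∃ q ∈ Q, lo < (blk q : ℝ)) ∧ v = μ * (p - 1) * val Q) → (S.card : ℝ) ≤ U) :
    ∃ R : Finset ℕ, (∀ v ∈ R, (v : ℝ) ≤ y ∧ ∃ (p : ℕ) (Q : Finset ℕ) (μ : ℕ), p.Prime ∧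
        Good B Q ∧ Small B μ ∧ Phi Q ≤ lo ∧ (∀ q ∈ Q, (blk q : ℝ) ≤ lo) ∧
        v = μ * (p - 1) * val Q) ∧
      ((tots y).card : ℝ) ≤ √y + (((tots y).filter fun v => ¬ ∃ (Q : Finset ℕ) (μ : ℕ),
        Good B Q ∧ Small B μ ∧ v = μ * val Q).card : ℝ) + U + R.card := by
  have hy0 : 0 ≤ y := by linarith
  set S1 := (tots y).filter fun v : ℕ => (v : ℝ) ≤ √y with hS1
  set S2 := (tots y).filter fun v => ¬ ∃ (Q : Finset ℕ) (μ : ℕ),
        Good B Q ∧ Small B μ ∧ v = μ * val Q with hS2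
  set S3 := (tots y).filter fun v : ℕ => √y < v ∧ (v : ℝ) ≤ y ∧ ∃ (p : ℕ) (Q : Finset ℕ) (μ : ℕ),
        p.Prime ∧ (∀ q ∈ Q, q < p) ∧
        Good B Q ∧ Small B μ ∧ Q.card ≤ K ∧ Phi Q ≤ hi ∧ (∀ q ∈ Q, (blk q : ℝ) ≤ hi) ∧
        (lo < Phi Q ∨ ∃ q ∈ Q, lo < (blk q : ℝ)) ∧ v = μ * (p - 1) * val Q with hS3
  set R := (tots y).filter fun v : ℕ => (v : ℝ) ≤ y ∧ ∃ (p : ℕ) (Q : Finset ℕ) (μ : ℕ), p.Prime ∧
        Good B Q ∧ Small B μ ∧ Phi Q ≤ lo ∧ (∀ q ∈ Q, (blk q : ℝ) ≤ lo) ∧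
        v = μ * (p - 1) * val Q with hR
  refine ⟨R, fun v hv => (Finset.mem_filter.mp hv).2, ?_⟩
  have hsub : tots y ⊆ S1 ∪ S2 ∪ S3 ∪ R := by
    intro v hv
    have hvy : (v : ℝ) ≤ y := ((mem_tots hy0).mp hv).2
    simp only [Finset.mem_union]
    by_cases h1 : (v : ℝ) ≤ √y
    · exact Or.inl (Or.inl (Or.inl (Finset.mem_filter.mpr ⟨hv, h1⟩)))
    by_cases h2 : ∃ (Q : Finset ℕ) (μ : ℕ), Good B Q ∧ Small B μ ∧ v = μ * val Q
    swap
    · exact Or.inl (Or.inl (Or.inr (Finset.mem_filter.mpr ⟨hv, h2⟩)))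
    obtain ⟨Q₀, μ, hG, hS, hv0⟩ := h2
    push Not at h1
    have hne : Q₀.Nonempty := by
      rw [Finset.nonempty_iff_ne_empty]
      rintro rfl
      have hμ : (μ : ℝ) ≤ y ^ (1 / 4 : ℝ) := hS.2.trans hB
      have h4 : y ^ (1 / 4 : ℝ) ≤ √y := by
        rw [Real.sqrt_eq_rpow]
        exact Real.rpow_le_rpow_of_exponent_le (by linarith) (by norm_num)
      have : v = μ := by simpa [val] using hv0
      rw [this] at h1
      linarith
    set p := Q₀.max' hne with hp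
    have hpQ : p ∈ Q₀ := Finset.max'_mem _ _
    set Q := Q₀.filter fun q => q < p with hQ
    have hQe : Q = Q₀.erase p := by
      ext q
      simp only [hQ, Finset.mem_filter, Finset.mem_erase]
      constructor
      · rintro ⟨a, b⟩; exact ⟨b.ne, a⟩
      · rintro ⟨a, b⟩; exact ⟨b, lt_of_le_of_ne (Finset.le_max' _ _ b) a⟩
    have hval : val Q₀ = (p - 1) * val Q := by
      rw [hQe]; unfold val; exact (Finset.mul_prod_erase _ (fun q => q - 1) hpQ).symm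
    have hv1 : v = μ * (p - 1) * val Q := by rw [hv0, hval, mul_assoc]
    have hpp : p.Prime := (hG.normal p hpQ).1
    have hGQ : Good B Q := P.good_lower B Q₀ p hG
    have hμ0 : μ ≠ 0 := (P.small_primes B μ hS).1
    have hvalQ : 0 < val Q := val_pos fun q hq => (hGQ.normal q hq).1
    have hple : (p : ℝ) ≤ y + 1 := by
      have h3 : p - 1 ≤ v := by
        rw [hv1]
        calc p - 1 = 1 * (p - 1) * 1 := by ring
          _ ≤ μ * (p - 1) * val Q :=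
            Nat.mul_le_mul (Nat.mul_le_mul (Nat.one_le_iff_ne_zero.mpr hμ0) le_rfl) hvalQ
      have h4 : p ≤ v + 1 := by omega
      have h5 : (p : ℝ) ≤ v + 1 := by exact_mod_cast h4
      linarith
    have hhi' := hhi p hpp hple
    have hPhi : Phi Q ≤ hi := (hG.con p hpQ).trans hhi'
    have hblk : ∀ q ∈ Q, (blk q : ℝ) ≤ hi := by
      intro q hq
      have h3 : blk q ≤ blk p := blk_mono (Finset.mem_filter.mp hq).2.le
      have h4 : (blk q : ℝ) ≤ blk p := by exact_mod_cast h3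
      have h5 := final_hh_nonneg (Nat.cast_nonneg (α := ℝ) (blk p))
      linarith
    by_cases h3 : lo < Phi Q ∨ ∃ q ∈ Q, lo < (blk q : ℝ)
    · refine Or.inl (Or.inr (Finset.mem_filter.mpr ⟨hv, h1, hvy, p, Q, μ, hpp,
        fun q hq => (Finset.mem_filter.mp hq).2, hGQ, hS, hgrow Q hGQ hblk, hPhi, hblk, h3, hv1⟩))
    · push Not at h3
      exact Or.inr (Finset.mem_filter.mpr ⟨hv, hvy, p, Q, μ, hpp, hGQ, hS, h3.1, h3.2, hv1⟩)
  have c1 : (S1.card : ℝ) ≤ √y := by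
    have : S1 ⊆ tots √y := by
      intro v hv
      have := Finset.mem_filter.mp hv
      exact (mem_tots (Real.sqrt_nonneg _)).mpr ⟨((mem_tots hy0).mp this.1).1, this.2⟩
    exact (Nat.cast_le.mpr (Finset.card_le_card this)).trans
      (final_card_tots_le (Real.sqrt_nonneg _))
  have c3 : (S3.card : ℝ) ≤ U := hU S3 fun v hv => (Finset.mem_filter.mp hv).2
  have c0 : (tots y).card ≤ S1.card + S2.card + S3.card + R.card :=
    (Finset.card_le_card hsub).trans <| (Finset.card_union_le _ _).trans <|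
      Nat.add_le_add_right ((Finset.card_union_le _ _).trans
        (Nat.add_le_add_right (Finset.card_union_le _ _) _)) _
  have c0' : ((tots y).card : ℝ) ≤ S1.card + S2.card + S3.card + R.card := by exact_mod_cast c0
  linarith

/-- the totients of the main kind are counted by the sum over `D` -/
lemma final_rest {B : ℕ} {x t : ℝ} (P : Prof) (ht : 0 ≤ t) (R : Finset ℕ)
    (hsz : ∀ (Q : Finset ℕ) (μ : ℕ), Good B Q → Small B μ →
      (∀ q ∈ Q, (blk q : ℝ) ≤ A ⌊x⌋₊ - hh (A ⌊x⌋₊)) → ((μ * val Q : ℕ) : ℝ) ≤ x ^ (1 / 10 : ℝ))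
    (hR : ∀ v ∈ R, (v : ℝ) ≤ t ∧ ∃ (p : ℕ) (Q : Finset ℕ) (μ : ℕ), p.Prime ∧
        Good B Q ∧ Small B μ ∧ Phi Q ≤ A ⌊x⌋₊ - hh (A ⌊x⌋₊) ∧
        (∀ q ∈ Q, (blk q : ℝ) ≤ A ⌊x⌋₊ - hh (A ⌊x⌋₊)) ∧ v = μ * (p - 1) * val Q) :
    (R.card : ℝ) ≤ ∑ d ∈ DD B x, (Nat.primeCounting (⌊t / d⌋₊ + 1) : ℝ) := by
  classical
  have hsub : R ⊆ (DD B x).biUnion fun d =>
      ((range (⌊t / d⌋₊ + 1 + 1)).filter Nat.Prime).image fun p => (p - 1) * d := by
    intro v hv
    obtain ⟨hvt, p, Q, μ, hp, hG, hS, h1, h2, hv1⟩ := hR v hv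
    have hμ0 : μ ≠ 0 := (P.small_primes B μ hS).1
    have hvalQ : 0 < val Q := val_pos fun q hq => (hG.normal q hq).1
    have hd0 : 0 < μ * val Q := Nat.mul_pos (Nat.pos_of_ne_zero hμ0) hvalQ
    refine Finset.mem_biUnion.mpr ⟨μ * val Q, ?_, Finset.mem_image.mpr ⟨p, ?_, ?_⟩⟩
    · unfold DD
      refine Finset.mem_filter.mpr ⟨Finset.mem_Icc.mpr ⟨hd0, ?_⟩, Q, μ, hG, hS, h1, h2, rfl⟩
      exact Nat.le_floor (hsz Q μ hG hS h2)
    · refine Finset.mem_filter.mpr ⟨Finset.mem_range.mpr ?_, hp⟩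
      have h3 : p - 1 ≤ ⌊t / ((μ * val Q : ℕ) : ℝ)⌋₊ := by
        apply Nat.le_floor
        rw [le_div_iff₀ (by exact_mod_cast hd0)]
        have : ((p - 1 : ℕ) : ℝ) * ((μ * val Q : ℕ) : ℝ) = v := by
          rw [hv1]; push_cast; ring
        rw [this]; exact hvt
      omega
    · rw [hv1]; ring
  have h1 : R.card ≤ ∑ d ∈ DD B x, Nat.primeCounting (⌊t / d⌋₊ + 1) := by
    refine (Finset.card_le_card hsub).trans (Finset.card_biUnion_le.trans ?_)
    refine Finset.sum_le_sum fun d _ => Finset.card_image_le.trans ?_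
    rw [Nat.primeCounting, Nat.primeCounting', Nat.count_eq_card_filter_range]
  exact_mod_cast h1

lemma final_s_tendsto (F : Facts) : Tendsto (fun x : ℝ => A ⌊x⌋₊) atTop atTop := by
  have h1 : Tendsto (fun n : ℕ => log (log (n : ℝ)) - 10) atTop atTop :=
    tendsto_atTop_add_const_right _ (-10)
      (Real.tendsto_log_atTop.comp (Real.tendsto_log_atTop.comp tendsto_natCast_atTop_atTop))
  have h2 : Tendsto A atTop atTop := by
    refine tendsto_atTop_mono' _ ?_ h1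
    filter_upwards [eventually_ge_atTop 2] with n hn
    have := abs_le.mp (F.mertens n hn)
    linarith
  exact h2.comp tendsto_nat_floor_atTop

/-- primes up to `c x + 1` have block at most `s + 21` -/
lemma final_blk_le (F : Facts) (c : ℝ) (hc : 1 < c) :
    ∀ᶠ x : ℝ in atTop, ∀ p : ℕ, p.Prime → (p : ℝ) ≤ c * x + 1 → (blk p : ℝ) ≤ A ⌊x⌋₊ + 21 := by
  filter_upwards [eventually_ge_atTop (c + 4)] with x hx p hp hpx
  have hx0 : 0 ≤ x := by linarith
  have hf : x - 1 ≤ (⌊x⌋₊ : ℝ) := by have := Nat.lt_floor_add_one x; linarith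
  have hf2 : (2 : ℝ) ≤ ⌊x⌋₊ := by linarith
  have hn2 : 2 ≤ ⌊x⌋₊ := by exact_mod_cast hf2
  have h1 := abs_le.mp (F.mertens p hp.two_le)
  have h2 := abs_le.mp (F.mertens _ hn2)
  have hp2 : (2 : ℝ) ≤ p := by exact_mod_cast hp.two_le
  have hsq : (p : ℝ) ≤ (⌊x⌋₊ : ℝ) ^ 2 := by nlinarith
  have hlog : log p ≤ 2 * log (⌊x⌋₊ : ℝ) := by
    have := Real.log_le_log (by linarith) hsq
    rwa [Real.log_pow] at this
  have hlp : 0 < log (p : ℝ) := Real.log_pos (by linarith)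
  have hlx : 0 < log (⌊x⌋₊ : ℝ) := Real.log_pos (by linarith)
  have hll : log (log p) ≤ log 2 + log (log (⌊x⌋₊ : ℝ)) := by
    rw [← Real.log_mul (by norm_num) hlx.ne']
    exact Real.log_le_log hlp hlog
  have hl2 : log 2 ≤ 1 := by have := Real.log_two_lt_d9; linarith
  have := blk_le_A p
  linarith

lemma final_pi_ratio (Pn : PNTStmt) (c : ℝ) (hc : 1 < c) :
    Tendsto (fun X : ℝ => (Nat.primeCounting (⌊c * X⌋₊ + 1) : ℝ) / Nat.primeCounting (⌊X⌋₊ + 1))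
      atTop (nhds c) := by
  unfold PNTStmt at Pn
  set g : ℝ → ℝ := fun x => (Nat.primeCounting ⌊x⌋₊ : ℝ) * log x / x with hg
  have hc0 : 0 < c := by linarith
  have t1 : Tendsto (fun X : ℝ => c * X + 1) atTop atTop :=
    tendsto_atTop_add_const_right _ _ (Tendsto.const_mul_atTop hc0 tendsto_id)
  have t2 : Tendsto (fun X : ℝ => X + 1) atTop atTop :=
    tendsto_atTop_add_const_right _ _ tendsto_id
  have g1 : Tendsto (fun X => g (c * X + 1)) atTop (nhds 1) := Pn.comp t1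
  have g2 : Tendsto (fun X => g (X + 1)) atTop (nhds 1) := Pn.comp t2
  have r1 : Tendsto (fun X : ℝ => (c * X + 1) / (X + 1)) atTop (nhds c) := by
    have h1 : Tendsto (fun X : ℝ => c + (1 - c) * (X + 1)⁻¹) atTop (nhds (c + (1 - c) * 0)) :=
      tendsto_const_nhds.add (tendsto_const_nhds.mul (tendsto_inv_atTop_zero.comp t2))
    simp only [mul_zero, add_zero] at h1
    refine h1.congr' ?_
    filter_upwards [eventually_gt_atTop 0] with X hX
    field_simp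
    ring
  have r2 : Tendsto (fun X : ℝ => log (c * X + 1) / log (X + 1)) atTop (nhds 1) := by
    have hl : Tendsto (fun X : ℝ => log (X + 1)) atTop atTop := Real.tendsto_log_atTop.comp t2
    have h2 : Tendsto (fun X : ℝ => log ((c * X + 1) / (X + 1))) atTop (nhds (log c)) :=
      (Real.continuousAt_log hc0.ne').tendsto.comp r1
    have h3 : Tendsto (fun X : ℝ => 1 + log ((c * X + 1) / (X + 1)) * (log (X + 1))⁻¹) atTop
        (nhds (1 + log c * 0)) :=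
      tendsto_const_nhds.add (h2.mul (tendsto_inv_atTop_zero.comp hl))
    simp only [mul_zero, add_zero] at h3
    refine h3.congr' ?_
    filter_upwards [eventually_gt_atTop 0] with X hX
    have h4 : 0 < log (X + 1) := Real.log_pos (by linarith)
    rw [Real.log_div (by positivity) (by positivity)]
    field_simp
    ring
  have h := ((g1.div g2 one_ne_zero).mul r1).div r2 one_ne_zero
  simp only [div_one, one_mul] at h
  refine h.congr' ?_
  filter_upwards [eventually_gt_atTop 1] with X hX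
  have hX0 : 0 ≤ X := by linarith
  have hcX : 0 ≤ c * X := by positivity
  have e1 : ⌊c * X + 1⌋₊ = ⌊c * X⌋₊ + 1 := Nat.floor_add_one hcX
  have e2 : ⌊X + 1⌋₊ = ⌊X⌋₊ + 1 := Nat.floor_add_one hX0
  have h4 : 0 < log (X + 1) := Real.log_pos (by linarith)
  have h5 : 0 < log (c * X + 1) := Real.log_pos (by nlinarith)
  have h6 : (0 : ℝ) < Nat.primeCounting (⌊X⌋₊ + 1) := by
    have h7 : 1 ≤ ⌊X⌋₊ := Nat.le_floor (by simpa using hX.le)
    have h8 : Nat.primeCounting 2 ≤ Nat.primeCounting (⌊X⌋₊ + 1) :=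
      Nat.monotone_primeCounting (by omega)
    have h9 : Nat.primeCounting 2 = 1 := by decide
    exact_mod_cast (by omega : 0 < Nat.primeCounting (⌊X⌋₊ + 1))
  simp only [hg, Pi.div_apply, e1, e2]
  field_simp

lemma final_pi_lower (Pn : PNTStmt) :
    ∀ᶠ X : ℝ in atTop, X / (2 * log X) ≤ (Nat.primeCounting (⌊X⌋₊ + 1) : ℝ) := by
  unfold PNTStmt at Pn
  filter_upwards [Pn.eventually (lt_mem_nhds (show (1 / 2 : ℝ) < 1 by norm_num)),
    eventually_gt_atTop 1] with X h hX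
  have hl : 0 < log X := Real.log_pos hX
  have h1 : (Nat.primeCounting ⌊X⌋₊ : ℝ) ≤ Nat.primeCounting (⌊X⌋₊ + 1) := by
    exact_mod_cast Nat.monotone_primeCounting (Nat.le_succ _)
  rw [lt_div_iff₀ (by linarith)] at h
  rw [div_le_iff₀ (by positivity)]
  nlinarith

end Vale.Agent.P031
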