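import Vale.Agent.P031.Final1

namespace Vale.Agent.P031

open Finset Filter Real

lemma final_hh_le {s : ℝ} (hs : 1 ≤ s) : hh s ≤ s := by
  unfold hh
  calc s ^ (3 / 4 : ℝ) ≤ s ^ (1 : ℝ) := Real.rpow_le_rpow_of_exponent_le hs (by norm_num)
    _ = s := Real.rpow_one s

lemma final_fs1 : ∀ᶠ s : ℝ in atTop, 21 + hh (s + 21) ≤ 2 * hh s := by
  have h1 : Tendsto hh atTop atTop := tendsto_rpow_atTop (by norm_num)
  filter_upwards [h1.eventually_ge_atTop 42, eventually_ge_atTop 42] with s h42 hs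
  have h2 : hh (s + 21) ≤ hh (3 / 2 * s) := final_hh_mono (by linarith) (by linarith)
  have h3 : hh (3 / 2 * s) = hh (3 / 2) * hh s := Real.mul_rpow (by norm_num) (by linarith)
  have h4 : hh (3 / 2) ≤ 3 / 2 := final_hh_le (by norm_num)
  have h5 : hh (3 / 2) * hh s ≤ 3 / 2 * hh s := mul_le_mul_of_nonneg_right h4 (by linarith)
  linarith

lemma final_fs2 : ∀ᶠ s : ℝ in atTop, 10 * log (s + 2 * hh s) + 1 ≤ 20 * log s := by
  filter_upwards [Real.tendsto_log_atTop.eventually_ge_atTop 3, eventually_ge_atTop 1] with s h3 hs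
  have h1 := final_hh_le hs
  have h0 := final_hh_nonneg (show 0 ≤ s by linarith)
  have h2 : log (s + 2 * hh s) ≤ log (3 * s) := Real.log_le_log (by linarith) (by linarith)
  rw [Real.log_mul (by norm_num) (by linarith)] at h2
  have h4 : log 3 ≤ 2 := by
    have := Real.log_le_sub_one_of_pos (show (0 : ℝ) < 3 by norm_num); linarith
  linarith

lemma final_fs3 : ∀ᶠ s : ℝ in atTop, ∀ B : ℕ, (B : ℝ) ≤ log s / 20 + 1 →
    exp B * (B : ℝ) ^ 2 ≤ s := by
  filter_upwards [Real.tendsto_log_atTop.eventually_ge_atTop 2, eventually_gt_atTop 0]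
    with s h2 hs B hB
  have h1 : (B : ℝ) ≤ exp (log s / 20) := hB.trans (Real.add_one_le_exp _)
  have h3 : (B : ℝ) ^ 2 ≤ exp (log s / 20) ^ 2 := by gcongr
  have h4 : exp B ≤ exp (log s / 20 + 1) := Real.exp_le_exp.mpr hB
  calc exp B * (B : ℝ) ^ 2 ≤ exp (log s / 20 + 1) * exp (log s / 20) ^ 2 := by gcongr
    _ = exp (log s / 20 + 1 + 2 * (log s / 20)) := by
      rw [← Real.exp_nat_mul, ← Real.exp_add]; norm_num
    _ ≤ exp (log s) := Real.exp_le_exp.mpr (by linarith)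
    _ = s := Real.exp_log hs

lemma final_fs4 (C δ : ℝ) (hδ : 0 < δ) : ∀ᶠ s : ℝ in atTop,
    C * (log s) ^ 3 * exp (log s / 20 + 1) * s ^ (-(1 / 4) : ℝ) ≤ δ := by
  have h1 : (fun s : ℝ => log s ^ (3 : ℝ)) =o[atTop] fun s : ℝ => s ^ (1 / 5 : ℝ) :=
    isLittleO_log_rpow_rpow_atTop 3 (by norm_num)
  have hpos : 0 < δ / ((|C| + 1) * exp 1) := by positivity
  filter_upwards [h1.bound hpos, eventually_gt_atTop 1] with s h hs
  have hs0 : 0 < s := by linarith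
  have hl : 0 < log s := Real.log_pos hs
  rw [Real.norm_of_nonneg (by positivity), Real.norm_of_nonneg (by positivity)] at h
  have e3 : log s ^ (3 : ℝ) = log s ^ 3 := by exact_mod_cast Real.rpow_natCast (log s) 3
  rw [e3] at h
  have e1 : exp (log s / 20 + 1) * s ^ (-(1 / 4) : ℝ) * s ^ (1 / 5 : ℝ) = exp 1 := by
    rw [Real.rpow_def_of_pos hs0, Real.rpow_def_of_pos hs0, ← Real.exp_add, ← Real.exp_add]
    congr 1; ring
  have hE : 0 < exp (log s / 20 + 1) * s ^ (-(1 / 4) : ℝ) := by positivity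
  have hC : C ≤ |C| + 1 := by have := le_abs_self C; linarith
  calc C * (log s) ^ 3 * exp (log s / 20 + 1) * s ^ (-(1 / 4) : ℝ)
      = C * (log s) ^ 3 * (exp (log s / 20 + 1) * s ^ (-(1 / 4) : ℝ)) := by ring
    _ ≤ (|C| + 1) * (δ / ((|C| + 1) * exp 1) * s ^ (1 / 5 : ℝ)) *
          (exp (log s / 20 + 1) * s ^ (-(1 / 4) : ℝ)) := by gcongr
    _ = δ / exp 1 * (exp (log s / 20 + 1) * s ^ (-(1 / 4) : ℝ) * s ^ (1 / 5 : ℝ)) := by
      field_simp
    _ = δ := by rw [e1]; field_simp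

lemma final_s_le (F : Facts) : ∀ᶠ x : ℝ in atTop, A ⌊x⌋₊ ≤ log x / 4 := by
  have h1 : ∀ᶠ u : ℝ in atTop, log u + 10 ≤ u / 4 := by
    have h := Real.isLittleO_log_id_atTop.bound (show (0 : ℝ) < 1 / 8 by norm_num)
    filter_upwards [h, eventually_ge_atTop 80] with u h hu
    simp only [id, Real.norm_eq_abs] at h
    rw [abs_of_nonneg (show 0 ≤ u by linarith)] at h
    have := le_abs_self (log u)
    linarith
  filter_upwards [Real.tendsto_log_atTop.eventually h1, eventually_ge_atTop 3] with x h hx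
  have hn2 : 2 ≤ ⌊x⌋₊ := Nat.le_floor (by norm_num; linarith)
  have h2 := abs_le.mp (F.mertens _ hn2)
  have hf2 : (2 : ℝ) ≤ ⌊x⌋₊ := by exact_mod_cast hn2
  have h3 : log (⌊x⌋₊ : ℝ) ≤ log x := Real.log_le_log (by linarith) (Nat.floor_le (by linarith))
  have h4 : log (log (⌊x⌋₊ : ℝ)) ≤ log (log x) :=
    Real.log_le_log (Real.log_pos (by linarith)) h3
  linarith

lemma final_sqrt (c δ : ℝ) (hc : 1 < c) (hδ : 0 < δ) :
    ∀ᶠ x : ℝ in atTop, √(c * x) ≤ δ * (x / log x) := by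
  have h1 : (fun s : ℝ => log s) =o[atTop] fun s : ℝ => s ^ (1 / 2 : ℝ) :=
    isLittleO_log_rpow_atTop (by norm_num)
  have hpos : 0 < δ / √c := by positivity
  filter_upwards [h1.bound hpos, eventually_gt_atTop 1] with x h hx
  have hx0 : 0 < x := by linarith
  have hl : 0 < log x := Real.log_pos hx
  rw [Real.norm_of_nonneg hl.le, Real.norm_of_nonneg (by positivity), ← Real.sqrt_eq_rpow] at h
  rw [Real.sqrt_mul (by linarith), ← mul_div_assoc, le_div_iff₀ hl]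
  have hc0 : 0 < √c := by positivity
  calc √c * √x * log x ≤ √c * √x * (δ / √c * √x) := by gcongr
    _ = δ * (√x * √x) := by field_simp
    _ = δ * x := by rw [Real.mul_self_sqrt hx0.le]

lemma final_one_mem (B : ℕ) {x : ℝ} (hx : 1 ≤ x) (hs : 1 ≤ A ⌊x⌋₊) : 1 ∈ DD B x := by
  classical
  unfold DD
  refine Finset.mem_filter.mpr ⟨Finset.mem_Icc.mpr ⟨le_rfl, Nat.le_floor ?_⟩, ∅, 1, ?_, ?_, ?_, ?_, ?_⟩
  · simpa using Real.one_le_rpow hx (by norm_num)
  · exact ⟨by simp, by simp, by simp⟩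
  · refine ⟨⟨1, le_rfl, by simp, by simp⟩, ?_⟩
    simpa using (by positivity : 0 ≤ exp (B : ℝ) * (B : ℝ) ^ 2)
  · have := final_hh_le hs
    simp only [Phi, Finset.sum_empty]; linarith
  · simp
  · simp [val]

lemma final_mem_DD {B : ℕ} {x : ℝ} {d : ℕ} (hx : 0 ≤ x) (hd : d ∈ DD B x) :
    1 ≤ d ∧ (d : ℝ) ≤ x ^ (1 / 10 : ℝ) := by
  classical
  unfold DD at hd
  have := Finset.mem_Icc.mp (Finset.mem_filter.mp hd).1
  exact ⟨this.1, (Nat.le_floor_iff (Real.rpow_nonneg hx _)).mp this.2⟩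

lemma final_div_tendsto {p : ℝ → Prop} (h : ∀ᶠ X : ℝ in atTop, p X) (B : ℝ → ℕ) :
    ∀ᶠ x : ℝ in atTop, ∀ d ∈ DD (B x) x, p (x / d) := by
  obtain ⟨X₀, hX₀⟩ := eventually_atTop.mp h
  have h1 : Tendsto (fun x : ℝ => x ^ (9 / 10 : ℝ)) atTop atTop := tendsto_rpow_atTop (by norm_num)
  filter_upwards [h1.eventually_ge_atTop X₀, eventually_gt_atTop 0] with x hx hx0 d hd
  obtain ⟨hd1, hd2⟩ := final_mem_DD hx0.le hd
  have hd0 : (0 : ℝ) < d := by exact_mod_cast hd1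
  refine hX₀ _ (hx.trans ?_)
  rw [le_div_iff₀ hd0]
  calc x ^ (9 / 10 : ℝ) * d ≤ x ^ (9 / 10 : ℝ) * x ^ (1 / 10 : ℝ) := by gcongr
    _ = x := by rw [← Real.rpow_add hx0]; norm_num

lemma final_div_tendsto' {p : ℝ → Prop} (h : ∀ᶠ X : ℝ in atTop, p X) :
    ∀ᶠ x : ℝ in atTop, ∀ B : ℕ, ∀ d ∈ DD B x, p (x / d) := by
  obtain ⟨X₀, hX₀⟩ := eventually_atTop.mp h
  have h1 : Tendsto (fun x : ℝ => x ^ (9 / 10 : ℝ)) atTop atTop := tendsto_rpow_atTop (by norm_num)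
  filter_upwards [h1.eventually_ge_atTop X₀, eventually_gt_atTop 0] with x hx hx0 B d hd
  obtain ⟨hd1, hd2⟩ := final_mem_DD hx0.le hd
  have hd0 : (0 : ℝ) < d := by exact_mod_cast hd1
  refine hX₀ _ (hx.trans ?_)
  rw [le_div_iff₀ hd0]
  calc x ^ (9 / 10 : ℝ) * d ≤ x ^ (9 / 10 : ℝ) * x ^ (1 / 10 : ℝ) := by gcongr
    _ = x := by rw [← Real.rpow_add hx0]; norm_num

/-- the reciprocal sum over `D` is controlled by `V(x)` -/
lemma final_dsum (F : Facts) (Lo : LowerStmt) (Pn : PNTStmt) :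
    ∃ B₁ : ℕ, ∀ᶠ x : ℝ in atTop, ∀ B : ℕ, B₁ ≤ B → (B : ℝ) ≤ log (A ⌊x⌋₊) / 20 + 1 →
      1 ≤ ∑ d ∈ DD B x, (1 : ℝ) / d ∧
      (∑ d ∈ DD B x, (1 : ℝ) / d) * (x / log x) ≤ 4 * (tots x).card := by
  obtain ⟨B₁, hLo⟩ := Lo
  refine ⟨B₁, ?_⟩
  have hp := (final_pi_lower Pn).and (eventually_gt_atTop 1)
  filter_upwards [hLo 1 le_rfl (1 / 4) (by norm_num), final_div_tendsto' hp,
    eventually_gt_atTop 1, (final_s_tendsto F).eventually_ge_atTop 1] with x h1 h2 hx hs B hB hB'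
  have hx0 : 0 < x := by linarith
  have hl : 0 < log x := Real.log_pos hx
  have h3 := h1 B hB hB' x le_rfl (by linarith)
  have h4 : 1 ≤ ∑ d ∈ DD B x, (1 : ℝ) / d := by
    have := Finset.single_le_sum (f := fun d : ℕ => (1 : ℝ) / d) (fun d _ => by positivity)
      (final_one_mem B hx.le hs)
    simpa using this
  refine ⟨h4, ?_⟩
  have h5 : (∑ d ∈ DD B x, (1 : ℝ) / d) * (x / log x) / 2 ≤
      ∑ d ∈ DD B x, (Nat.primeCounting (⌊x / d⌋₊ + 1) : ℝ) := by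
    rw [Finset.sum_mul, Finset.sum_div]
    refine Finset.sum_le_sum fun d hd => le_trans ?_ (h2 B d hd).1
    have hd1 : (1 : ℝ) ≤ d := by exact_mod_cast (final_mem_DD hx0.le hd).1
    have h6 : 0 < log (x / d) := Real.log_pos (h2 B d hd).2
    have h7 : log (x / d) ≤ log x :=
      Real.log_le_log (by positivity) (div_le_self hx0.le hd1)
    calc 1 / (d : ℝ) * (x / log x) / 2 = x / d / (2 * log x) := by field_simp
      _ ≤ x / d / (2 * log (x / d)) := by gcongr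
  have h8 : x / log x ≤ (∑ d ∈ DD B x, (1 : ℝ) / d) * (x / log x) :=
    le_mul_of_one_le_left (by positivity) h4
  have h9 : 1 / 4 * x / log x = 1 / 4 * (x / log x) := by ring
  linarith

end Vale.Agent.P031
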