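import Vale.Agent.P031.Defs

/-! The sum over unconstrained configurations is at most an Euler product (for P031). -/

namespace Vale.Agent.P031

open Finset Filter Real

lemma free_prod {ι : Type} [DecidableEq ι] (T : Finset ι) (i : ι) (hi : i ∈ T) (x x' : ι → ℕ)
    (l : ℕ) (h1 : ∀ k ∈ T, k ≠ i → x' k = x k) (h2 : l * x' i = x i) :
    ∏ k ∈ T, x k = l * ∏ k ∈ T, x' k := by
  rw [← Finset.mul_prod_erase T x hi, ← Finset.mul_prod_erase T x' hi, ← h2, mul_assoc]
  congr 2
  exact Finset.prod_congr rfl fun k hk =>
    (h1 k (Finset.mem_of_mem_erase hk) (Finset.ne_of_mem_erase hk)).symm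

lemma free_mem {ι : Type} [Fintype ι] [DecidableEq ι] (sd : ι → Bool) (lv : ι → ℕ) (M : ℕ)
    (x : ι → ℕ) : x ∈ Conf sd lv M ∅ ↔ (∀ i, 1 ≤ x i ∧ x i ≤ M) ∧ wt sd x true = wt sd x false ∧
      ∀ i, ∀ l ∈ (x i).primeFactors, blk l ≤ lv i := by
  classical
  unfold Conf
  simp only [Finset.mem_filter, Fintype.mem_piFinset, Finset.mem_Icc, Finset.notMem_empty,
    false_imp_iff, imp_true_iff, and_true]

lemma free_count {ι : Type} [Fintype ι] [DecidableEq ι] (sd : ι → Bool) (lv : ι → ℕ) (M : ℕ) :
    ∀ w : ℕ, w ≠ 0 → (((Conf sd lv M ∅).filter fun x => wt sd x true = w).card : ℝ) ≤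
      cm (fun l => (zc sd lv true (blk l) : ℝ) * zc sd lv false (blk l)) w := by
  intro w
  induction w using Nat.strong_induction_on with
  | _ w ih =>
    intro hw
    by_cases h1 : w = 1
    · subst h1
      rw [cm_one]
      have : ((Conf sd lv M ∅).filter fun x => wt sd x true = 1).card ≤ 1 := by
        refine Finset.card_le_one.mpr fun x hx y hy => ?_
        have key : ∀ z ∈ (Conf sd lv M ∅).filter (fun x => wt sd x true = 1), ∀ i, z i = 1 := by
          intro z hz i
          obtain ⟨hz1, hz2⟩ := Finset.mem_filter.mp hz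
          obtain ⟨_, h3, _⟩ := (free_mem sd lv M z).mp hz1
          have h4 : wt sd z (sd i) = 1 := by
            cases h : sd i
            · rw [← h3, hz2]
            · exact hz2
          have h5 : z i ∣ wt sd z (sd i) :=
            Finset.dvd_prod_of_mem _ (Finset.mem_filter.mpr ⟨Finset.mem_univ _, rfl⟩)
          rw [h4] at h5
          exact Nat.dvd_one.mp h5
        funext i
        rw [key x hx i, key y hy i]
      exact_mod_cast this
    · obtain ⟨l, hl, w', rfl⟩ := Nat.exists_prime_and_dvd h1
      have hw' : w' ≠ 0 := right_ne_zero_of_mul hw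
      have hlt : w' < l * w' := by
        have := hl.one_lt
        have := Nat.pos_of_ne_zero hw'
        nlinarith
      have ih' := ih w' hlt hw'
      rw [cm_mul _ hl.ne_zero hw', cm_prime _ hl]
      set I := univ.filter fun i => sd i = true ∧ blk l ≤ lv i with hI
      set J := univ.filter fun i => sd i = false ∧ blk l ≤ lv i with hJ
      set C' := (Conf sd lv M ∅).filter fun x => wt sd x true = w' with hC'
      have hsub : ((Conf sd lv M ∅).filter fun x => wt sd x true = l * w') ⊆
          ((I ×ˢ J) ×ˢ C').image fun t => fun k =>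
            if k = t.1.1 ∨ k = t.1.2 then l * t.2 k else t.2 k := by
        intro x hx
        obtain ⟨hx1, hx2⟩ := Finset.mem_filter.mp hx
        obtain ⟨h2, h3, h4⟩ := (free_mem sd lv M x).mp hx1
        have pick : ∀ s : Bool, wt sd x s = l * w' → ∃ i, sd i = s ∧ l ∣ x i ∧ blk l ≤ lv i := by
          intro s hs
          have : l ∣ wt sd x s := hs ▸ dvd_mul_right _ _
          obtain ⟨i, hi, hd⟩ := (Prime.dvd_finsetProd_iff hl.prime _).mp this
          refine ⟨i, (Finset.mem_filter.mp hi).2, hd, h4 i l ?_⟩
          exact Nat.mem_primeFactors.mpr ⟨hl, hd, by have := (h2 i).1; omega⟩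
        obtain ⟨i, hi1, hi2, hi3⟩ := pick true hx2
        obtain ⟨j, hj1, hj2, hj3⟩ := pick false (h3 ▸ hx2)
        set x' : ι → ℕ := fun k => if k = i ∨ k = j then x k / l else x k with hx'
        have hd : ∀ k, k = i ∨ k = j → l * x' k = x k := by
          intro k hk
          simp only [hx', if_pos hk]
          rcases hk with rfl | rfl
          · exact Nat.mul_div_cancel' hi2
          · exact Nat.mul_div_cancel' hj2
        have hn : ∀ k, ¬ (k = i ∨ k = j) → x' k = x k := fun k hk => by simp only [hx', if_neg hk]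
        have hdvd : ∀ k, x' k ∣ x k := by
          intro k
          by_cases hk : k = i ∨ k = j
          · exact Dvd.intro_left _ (hd k hk)
          · rw [hn k hk]
        have w1 : wt sd x true = l * wt sd x' true :=
          free_prod _ i (Finset.mem_filter.mpr ⟨Finset.mem_univ _, hi1⟩) x x' l (fun k hk hki =>
            hn k (by
              rintro (h | h)
              · exact hki h
              · have := (Finset.mem_filter.mp hk).2
                rw [h, hj1] at this; exact Bool.false_ne_true this)) (hd i (Or.inl rfl))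
        have w2 : wt sd x false = l * wt sd x' false :=
          free_prod _ j (Finset.mem_filter.mpr ⟨Finset.mem_univ _, hj1⟩) x x' l (fun k hk hkj =>
            hn k (by
              rintro (h | h)
              · have := (Finset.mem_filter.mp hk).2
                rw [h, hi1] at this; exact Bool.false_ne_true this.symm
              · exact hkj h)) (hd j (Or.inr rfl))
        refine Finset.mem_image.mpr ⟨((i, j), x'), ?_, ?_⟩
        · refine Finset.mem_product.mpr ⟨Finset.mem_product.mpr
            ⟨Finset.mem_filter.mpr ⟨Finset.mem_univ _, hi1, hi3⟩,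
              Finset.mem_filter.mpr ⟨Finset.mem_univ _, hj1, hj3⟩⟩,
            Finset.mem_filter.mpr ⟨(free_mem sd lv M x').mpr ⟨fun k => ?_, ?_, fun k q hq => ?_⟩, ?_⟩⟩
          · have a1 := h2 k
            exact ⟨Nat.pos_of_dvd_of_pos (hdvd k) a1.1, (Nat.le_of_dvd a1.1 (hdvd k)).trans a1.2⟩
          · exact Nat.eq_of_mul_eq_mul_left hl.pos (by rw [← w1, ← w2, h3])
          · exact h4 k q (Nat.primeFactors_mono (hdvd k) (by have := (h2 k).1; omega) hq)
          · exact Nat.eq_of_mul_eq_mul_left hl.pos (by rw [← w1, hx2])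
        · funext k
          by_cases hk : k = i ∨ k = j
          · simp only [if_pos hk]; exact hd k hk
          · simp only [if_neg hk]; exact hn k hk
      have hc := (Finset.card_le_card hsub).trans Finset.card_image_le
      rw [Finset.card_product, Finset.card_product] at hc
      have hc' : (((Conf sd lv M ∅).filter fun x => wt sd x true = l * w').card : ℝ) ≤
          (I.card : ℝ) * J.card * C'.card := by exact_mod_cast hc
      exact hc'.trans (mul_le_mul_of_nonneg_left ih' (by positivity))

theorem free (F : Facts) : FreeStmt := by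
  intro ι _ _ sd lv M σ f g hlv hf hg
  have hg0 : ∀ l : ℕ, l.Prime → 0 ≤ g l := fun l hl =>
    le_trans (mul_nonneg (mul_nonneg (hf l) (Nat.cast_nonneg _)) (Nat.cast_nonneg _)) (hg l hl).1
  have hS : ∀ w ∈ (Conf sd lv M ∅).image (fun x => wt sd x true),
      w ≠ 0 ∧ w.primeFactors ⊆ blkLe σ := by
    intro w hw
    obtain ⟨x, hx, rfl⟩ := Finset.mem_image.mp hw
    obtain ⟨h2, _, h4⟩ := (free_mem sd lv M x).mp hx
    refine ⟨Finset.prod_ne_zero_iff.mpr fun i _ => by have := (h2 i).1; omega, fun l hl => ?_⟩
    have hp := Nat.prime_of_mem_primeFactors hl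
    obtain ⟨i, _, hd⟩ := (Prime.dvd_finsetProd_iff hp.prime _).mp (Nat.dvd_of_mem_primeFactors hl)
    have hb : blk l ≤ σ :=
      (h4 i l (Nat.mem_primeFactors.mpr ⟨hp, hd, by have := (h2 i).1; omega⟩)).trans (hlv i)
    refine Finset.mem_filter.mpr ⟨Finset.mem_range.mpr ?_, hp, hb⟩
    have := Nat.le_floor (F.le_Ub l σ hp.two_le hb)
    omega
  refine le_trans ?_ (F.euler g (blkLe σ) _ (fun l hl => ?_) hS)
  · rw [Finset.sum_comp (fun w : ℕ => cm f w / (w : ℝ)) (fun x => wt sd x true)]
    refine Finset.sum_le_sum fun w hw => ?_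
    rw [nsmul_eq_mul, ← mul_div_assoc]
    refine div_le_div_of_nonneg_right ?_ (Nat.cast_nonneg _)
    refine (mul_le_mul_of_nonneg_right (free_count sd lv M w (hS w hw).1)
      (cm_nonneg fun l _ => hf l)).trans ?_
    rw [← cm_mul_fun]
    refine cm_le_cm fun l hl => ⟨?_, ?_⟩
    · exact mul_nonneg (by positivity) (hf l)
    · have := (hg l (Nat.prime_of_mem_primeFactors hl)).1
      linarith
  · have hp := (Finset.mem_filter.mp hl).2.1
    exact ⟨hp, hg0 l hp, (hg l hp).2⟩

end Vale.Agent.P031
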