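import Vale.Agent.P031.Defs

/-! Comparison of the enlarged and the shrunken lattice regions by scaling. -/

namespace Vale.Agent.P031

open Finset Filter Real

theorem lattice_kernel {k : ℕ} (th : Fin k → ℝ) (h0 : ∀ i, 0 < th i) (h1 : ∀ i, th i ≤ 1)
    (Fs G : Finset (Fin k → ℕ))
    (hG : ∀ c : Fin k → ℕ, (∃ b ∈ Fs, ∀ i, th i * b i - 1 < c i ∧ (c i : ℝ) < th i * b i + 1) →
      c ∈ G) : (∏ i, th i) * Fs.card ≤ G.card := by
  let box : (Fin k → ℕ) → Set (Fin k → ℝ) := fun b =>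
    Set.pi Set.univ fun i => Set.Ico (th i * b i) (th i * (b i + 1))
  let cube : (Fin k → ℕ) → Set (Fin k → ℝ) := fun c =>
    Set.pi Set.univ fun i => Set.Ico (c i : ℝ) (c i + 1)
  have hsub : (⋃ b ∈ Fs, box b) ⊆ ⋃ c ∈ G, cube c := by
    intro x hx
    simp only [Set.mem_iUnion] at hx ⊢
    obtain ⟨b, hb, hx⟩ := hx
    have hx' : ∀ i, th i * b i ≤ x i ∧ x i < th i * (b i + 1) := fun i => hx i (Set.mem_univ i)
    have hx0 : ∀ i, 0 ≤ x i := fun i =>
      (mul_nonneg (h0 i).le (Nat.cast_nonneg _)).trans (hx' i).1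
    refine ⟨fun i => ⌊x i⌋₊, hG _ ⟨b, hb, fun i => ?_⟩, fun i _ => ?_⟩
    · have h2 := Nat.floor_le (hx0 i)
      have h3 := Nat.lt_floor_add_one (x i)
      have h4 := hx' i
      have h5 := h1 i
      constructor <;> linarith
    · exact ⟨Nat.floor_le (hx0 i), Nat.lt_floor_add_one (x i)⟩
  have hdisj : Set.PairwiseDisjoint (Fs : Set (Fin k → ℕ)) box := by
    intro b _ b' _ hbb
    obtain ⟨i, hi⟩ := Function.ne_iff.1 hbb
    refine Set.disjoint_left.2 fun x hx hx' => ?_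
    have h2 : th i * b i ≤ x i ∧ x i < th i * (b i + 1) := hx i (Set.mem_univ i)
    have h3 : th i * b' i ≤ x i ∧ x i < th i * (b' i + 1) := hx' i (Set.mem_univ i)
    have h4 : (b i : ℝ) < b' i + 1 := lt_of_mul_lt_mul_left (h2.1.trans_lt h3.2) (h0 i).le
    have h5 : (b' i : ℝ) < b i + 1 := lt_of_mul_lt_mul_left (h3.1.trans_lt h2.2) (h0 i).le
    have h6 : b i < b' i + 1 := by exact_mod_cast h4
    have h7 : b' i < b i + 1 := by exact_mod_cast h5
    omega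
  have hv1 : ∀ b, MeasureTheory.volume (box b) = ENNReal.ofReal (∏ i, th i) := fun b => by
    rw [Real.volume_pi_Ico, ENNReal.ofReal_prod_of_nonneg fun i _ => (h0 i).le]
    refine Finset.prod_congr rfl fun i _ => ?_
    congr 1
    ring
  have hv2 : ∀ c, MeasureTheory.volume (cube c) = 1 := fun c => by
    rw [Real.volume_pi_Ico]
    simp
  have h2 := (MeasureTheory.measure_mono (μ := MeasureTheory.volume) hsub).trans
    (MeasureTheory.measure_biUnion_finset_le G cube)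
  rw [MeasureTheory.measure_biUnion_finset hdisj fun b _ =>
    MeasurableSet.univ_pi fun i => measurableSet_Ico] at h2
  simp only [hv1, hv2, Finset.sum_const, nsmul_eq_mul, mul_one] at h2
  have h3 := ENNReal.toReal_mono (ENNReal.natCast_ne_top _) h2
  rw [ENNReal.toReal_mul, ENNReal.toReal_ofReal (Finset.prod_nonneg fun i _ => (h0 i).le),
    ENNReal.toReal_natCast, ENNReal.toReal_natCast] at h3
  linarith

/-- real form of `PhiV` -/
noncomputable def latPhi {k : ℕ} (x : Fin k → ℝ) (j : ℕ) : ℝ :=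
  ∑ i : Fin k, if (i : ℕ) < j then aa (j - i) * x i else 0

theorem lattice_phi_le (P : Prof) {k : ℕ} {x y : Fin k → ℝ} {j : ℕ} {a T e : ℝ} (he : 0 ≤ e)
    (h : ∀ i : Fin k, (i : ℕ) < j → a * x i ≤ T * y i + e) :
    a * latPhi x j ≤ T * latPhi y j + e * (j : ℝ) ^ 2 := by
  have h1 : ∑ i : Fin k, (if (i : ℕ) < j then (j : ℝ) else 0) ≤ (j : ℝ) ^ 2 := by
    rw [Fin.sum_univ_eq_sum_range (fun i => if i < j then (j : ℝ) else 0) k, ← Finset.sum_filter,
      Finset.sum_const, nsmul_eq_mul, sq]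
    refine mul_le_mul_of_nonneg_right ?_ (Nat.cast_nonneg _)
    have : ((range k).filter fun i => i < j).card ≤ (range j).card :=
      Finset.card_le_card fun i hi => Finset.mem_range.2 (Finset.mem_filter.1 hi).2
    rw [Finset.card_range] at this
    exact_mod_cast this
  refine le_trans ?_ (add_le_add le_rfl (mul_le_mul_of_nonneg_left h1 he))
  unfold latPhi
  rw [Finset.mul_sum, Finset.mul_sum, Finset.mul_sum, ← Finset.sum_add_distrib]
  refine Finset.sum_le_sum fun i _ => ?_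
  split_ifs with hi
  · have h2 := P.aa_nonneg (j - i) (by omega)
    have h3 : aa (j - i) ≤ j := by
      refine (P.aa_le _).trans ((Real.log_le_sub_one_of_pos (by positivity)).trans ?_)
      have : ((j - i : ℕ) : ℝ) ≤ j := by exact_mod_cast Nat.sub_le j i
      linarith
    have h4 := mul_le_mul_of_nonneg_left (h i hi) h2
    have h5 := mul_le_mul_of_nonneg_left h3 he
    nlinarith
  · simp

theorem lattice_hh (x : ℝ) (hx : 0 ≤ x) :
    ∃ q : ℝ, 0 ≤ q ∧ q ^ 4 = x ∧ hh x = q ^ 3 ∧ x ^ (-(1 / 4) : ℝ) = q⁻¹ := by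
  refine ⟨x ^ (1 / 4 : ℝ), rpow_nonneg hx _, ?_, ?_, rpow_neg hx _⟩
  · rw [← rpow_natCast, ← rpow_mul hx]
    norm_num
  · rw [hh, ← rpow_natCast, ← rpow_mul hx]
    norm_num

theorem lattice_aa12 : (127 / 100 : ℝ) ≤ aa 1 + aa 2 := by
  have h1 : (109 / 100 : ℝ) ≤ log 3 := by
    rw [le_log_iff_exp_le (by norm_num)]
    have h2 : exp (109 / 100) = exp 1 * exp (9 / 100) := by
      rw [← exp_add]
      norm_num
    have h3 := exp_one_lt_d9
    have h4 : exp (9 / 100) ≤ 1 / (1 - 9 / 100) :=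
      exp_bound_div_one_sub_of_interval (by norm_num) (by norm_num)
    rw [h2]
    calc exp 1 * exp (9 / 100) ≤ 2.7182818286 * (1 / (1 - 9 / 100)) :=
          mul_le_mul h3.le h4 (exp_pos _).le (by norm_num)
      _ ≤ 3 := by norm_num
  unfold aa
  norm_num
  linarith

theorem lattice_growth (P : Prof) {B k : ℕ} (hB : 2 * 80000 ^ 4 ≤ B) {b : Fin k → ℕ}
    (hm : Monotone b) (hb : ∀ i, B ≤ b i) (hc : ∀ j : Fin k, PhiV b j ≤ b j + hh (b j)) :
    ∀ (j : ℕ) (hj : j < k), (80000 * (41 / 40 : ℝ) ^ j) ^ 4 ≤ b ⟨j, hj⟩ := by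
  have hB' : ∀ i, (2 * 80000 ^ 4 : ℝ) ≤ b i := fun i => by exact_mod_cast hB.trans (hb i)
  intro j
  induction j using Nat.twoStepInduction with
  | zero =>
    intro hj
    refine le_trans ?_ (hB' _)
    norm_num
  | one =>
    intro hj
    refine le_trans ?_ (hB' _)
    norm_num
  | more j ih _ =>
    intro hj
    have h1 := ih (by omega)
    have h2 := hc ⟨j + 2, hj⟩
    have h3 : aa 2 * (b ⟨j, by omega⟩ : ℝ) + aa 1 * (b ⟨j + 1, by omega⟩ : ℝ) ≤
        PhiV b (j + 2) := by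
      have hne : (⟨j, by omega⟩ : Fin k) ≠ ⟨j + 1, by omega⟩ := by simp
      have h4 := Finset.sum_le_sum_of_subset_of_nonneg
        (f := fun i : Fin k => if (i : ℕ) < j + 2 then aa (j + 2 - i) * (b i : ℝ) else 0)
        (Finset.subset_univ {(⟨j, by omega⟩ : Fin k), ⟨j + 1, by omega⟩}) fun i _ _ => by
          split_ifs with hi
          · exact mul_nonneg (P.aa_nonneg _ (by omega)) (Nat.cast_nonneg _)
          · exact le_rfl
      rw [Finset.sum_pair hne] at h4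
      simpa [PhiV] using h4
    have h4 : (b ⟨j, by omega⟩ : ℝ) ≤ b ⟨j + 1, by omega⟩ := by
      exact_mod_cast hm (Fin.mk_le_mk.2 (Nat.le_succ j))
    obtain ⟨q, hq0, hq4, hq3, -⟩ := lattice_hh (b ⟨j + 2, hj⟩) (Nat.cast_nonneg _)
    have hq : 30 ≤ q := by
      refine le_of_pow_le_pow_left₀ (n := 4) (by norm_num) hq0 ?_
      rw [hq4]
      exact le_trans (by norm_num) (hB' _)
    have h5 : 30 * hh (b ⟨j + 2, hj⟩) ≤ b ⟨j + 2, hj⟩ := by
      rw [hq3, ← hq4, pow_succ' q 3]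
      exact mul_le_mul_of_nonneg_right hq (by positivity)
    have h6 := mul_le_mul_of_nonneg_left h4 (P.aa_nonneg 1 le_rfl)
    have h7 := mul_le_mul_of_nonneg_right lattice_aa12
      (Nat.cast_nonneg (α := ℝ) (b ⟨j, by omega⟩))
    have h8 : (80000 * (41 / 40 : ℝ) ^ (j + 2)) ^ 4 =
        (41 / 40) ^ 8 * (80000 * (41 / 40 : ℝ) ^ j) ^ 4 := by ring
    have h9 : (0 : ℝ) ≤ b ⟨j, by omega⟩ := Nat.cast_nonneg _
    rw [h8]
    simp only at h2
    norm_num
    linarith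

theorem lattice_facts {j : ℕ} {x : ℝ} (h : (80000 * (41 / 40 : ℝ) ^ j) ^ 4 ≤ x) :
    ((j : ℝ) + 1) ^ 2 ≤ hh x ∧ 80000 * hh x ≤ (40 / 41 : ℝ) ^ j * x ∧
      (2000 * ((j : ℝ) + 1)) ^ 4 ≤ x := by
  obtain ⟨q, hq0, hq4, hq3, -⟩ := lattice_hh x (le_trans (by positivity) h)
  have hq : 80000 * (41 / 40 : ℝ) ^ j ≤ q :=
    le_of_pow_le_pow_left₀ (n := 4) (by norm_num) hq0 (by rwa [hq4])
  have h1 : 1 + (j : ℝ) * (1 / 40) ≤ (41 / 40 : ℝ) ^ j := by
    have := one_add_mul_le_pow (a := (1 / 40 : ℝ)) (by norm_num) j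
    norm_num at this ⊢
    exact this
  have hj : (0 : ℝ) ≤ j := Nat.cast_nonneg _
  have h2 : 2000 * ((j : ℝ) + 1) ≤ q := by linarith
  refine ⟨?_, ?_, ?_⟩
  · rw [hq3]
    calc ((j : ℝ) + 1) ^ 2 ≤ q ^ 2 := pow_le_pow_left₀ (by positivity) (by linarith) _
      _ ≤ q ^ 3 := pow_le_pow_right₀ (by linarith) (by norm_num)
  · rw [hq3, ← hq4, pow_succ' q 3, ← mul_assoc]
    refine mul_le_mul_of_nonneg_right ?_ (by positivity)
    have h3 : (40 / 41 : ℝ) ^ j * (41 / 40 : ℝ) ^ j = 1 := by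
      rw [← mul_pow]
      norm_num
    have h4 := mul_le_mul_of_nonneg_left hq (by positivity : (0 : ℝ) ≤ (40 / 41 : ℝ) ^ j)
    linarith
  · rw [← hq4]
    exact pow_le_pow_left₀ (by positivity) h2 _

/-- the scaling factors -/
noncomputable def latT (i : ℕ) : ℝ := 1 - (40 / 41 : ℝ) ^ i / 500

theorem latT_ge (i : ℕ) : 499 / 500 ≤ latT i := by
  have : (40 / 41 : ℝ) ^ i ≤ 1 := pow_le_one₀ (by norm_num) (by norm_num)
  unfold latT
  linarith

theorem latT_le (i : ℕ) : latT i ≤ 1 := by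
  have : 0 ≤ (40 / 41 : ℝ) ^ i := by positivity
  unfold latT
  linarith

theorem latT_lt {i j : ℕ} (h : i < j) : latT i ≤ latT j - (40 / 41 : ℝ) ^ j / 20000 := by
  have h1 : (40 / 41 : ℝ) ^ (j - 1) ≤ (40 / 41 : ℝ) ^ i :=
    pow_le_pow_of_le_one (by norm_num) (by norm_num) (by omega)
  have h2 : (40 / 41 : ℝ) ^ j = (40 / 41 : ℝ) ^ (j - 1) * (40 / 41) := by
    rw [← pow_succ]
    congr 1
    omega
  unfold latT
  linarith

theorem latT_prod (k : ℕ) : 9 / 10 ≤ ∏ i : Fin k, latT i := by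
  have h : ∀ k : ℕ, 1 - 41 / 500 * (1 - (40 / 41 : ℝ) ^ k) ≤ ∏ i ∈ range k, latT i := by
    intro k
    induction k with
    | zero => simp
    | succ k ih =>
      rw [Finset.prod_range_succ]
      refine le_trans ?_ (mul_le_mul_of_nonneg_right ih (by linarith [latT_ge k]))
      have h1 : 0 ≤ (40 / 41 : ℝ) ^ k := by positivity
      have h2 : (40 / 41 : ℝ) ^ k ≤ 1 := pow_le_one₀ (by norm_num) (by norm_num)
      unfold latT
      rw [pow_succ]
      nlinarith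
  rw [Fin.prod_univ_eq_prod_range latT k]
  have h1 : 0 ≤ (40 / 41 : ℝ) ^ k := by positivity
  linarith [h k]

theorem lattice_mem_Rp {B k : ℕ} {lo hi : ℝ} (hhi : 0 ≤ hi) {b : Fin k → ℕ} (hb : b ∈ Rp B k lo hi) :
    (∀ i, (b i : ℝ) ≤ hi) ∧ Monotone b ∧ (∀ i, B ≤ b i) ∧
      (∀ j : Fin k, PhiV b j ≤ b j + hh (b j)) ∧ PhiV b k ≤ hi ∧
      (lo < PhiV b k ∨ ∃ i, lo < (b i : ℝ)) := by
  classical
  unfold Rp at hb
  rw [Finset.mem_filter, Fintype.mem_piFinset] at hb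
  refine ⟨fun i => ?_, hb.2⟩
  have := Finset.mem_range.1 (hb.1 i)
  exact (Nat.le_floor_iff hhi).1 (by omega)

theorem lattice_k_le (P : Prof) {B k : ℕ} (hB : 2 * 80000 ^ 4 ≤ B) {t lo : ℝ} (ht : 32 ≤ t)
    {b : Fin k → ℕ} (hb : b ∈ Rp B k lo (t ^ 4 + 2 * t ^ 3)) : 32 * ((k : ℝ) + 1) ≤ t := by
  obtain ⟨h1, h2, h3, h4, -⟩ := lattice_mem_Rp (by positivity) hb
  rcases k with _ | k
  · simpa using ht
  · have h5 := (lattice_facts (lattice_growth P hB h2 h3 h4 k (Nat.lt_succ_self k))).2.2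
    have h6 : t ^ 3 ≤ t ^ 4 := pow_le_pow_right₀ (by linarith) (by norm_num)
    have h7 : 2000 * ((k : ℝ) + 1) ≤ 2 * t := by
      refine le_of_pow_le_pow_left₀ (n := 4) (by norm_num) (by linarith) ?_
      refine (h5.trans (h1 _)).trans ?_
      have : 0 ≤ t ^ 4 := by positivity
      linarith [show (2 * t) ^ 4 = 16 * t ^ 4 by ring]
    have : (0 : ℝ) ≤ k := Nat.cast_nonneg _
    push_cast
    linarith

theorem lattice_mem_Rm (P : Prof) {B k : ℕ} (hB : 2 * 80000 ^ 4 ≤ B) {t lo κ : ℝ} (ht : 32 ≤ t)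
    (hs : hh (t ^ 4) = t ^ 3) (hκ0 : 3 / 4 ≤ κ) (hκ1 : κ * t ≤ t - 4)
    {b : Fin k → ℕ} (hb : b ∈ Rp B k lo (t ^ 4 + 2 * t ^ 3)) {c : Fin k → ℕ}
    (hc : ∀ i : Fin k, κ * latT i * b i - 1 < c i ∧ (c i : ℝ) < κ * latT i * b i + 1) :
    c ∈ Rm (B / 3) k (t ^ 4) := by
  classical
  have hk := lattice_k_le P hB ht hb
  obtain ⟨h1, h2, h3, h4, h5, -⟩ := lattice_mem_Rp (by positivity) hb
  have hκ2 : κ ≤ 1 := le_of_mul_le_mul_right (a := t) (by linarith) (by linarith)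
  have hk0 : (0 : ℝ) ≤ k := Nat.cast_nonneg _
  have hb0 : ∀ i, (0 : ℝ) ≤ b i := fun i => Nat.cast_nonneg _
  have hθ : ∀ i : ℕ, κ * latT i ≤ κ := fun i => mul_le_of_le_one_right (by linarith) (latT_le i)
  have htop : κ * (t ^ 4 + 2 * t ^ 3) + ((k : ℝ) + 1) ^ 2 ≤ t ^ 4 - t ^ 3 := by
    have h6 : ((k : ℝ) + 1) ^ 2 ≤ t ^ 2 := pow_le_pow_left₀ (by positivity) (by linarith) _
    have h7 : t ^ 2 ≤ t ^ 3 := pow_le_pow_right₀ (by linarith) (by norm_num)
    have h8 := mul_le_mul_of_nonneg_right hκ1 (by positivity : 0 ≤ t ^ 3 + 2 * t ^ 2)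
    have h9 : 0 ≤ t ^ 2 := by positivity
    nlinarith
  have hci : ∀ i, (c i : ℝ) ≤ t ^ 4 - t ^ 3 := fun i => by
    have h6 := mul_le_mul (hθ i) (h1 i) (hb0 i) (by linarith)
    have h7 : (1 : ℝ) ≤ ((k : ℝ) + 1) ^ 2 := one_le_pow₀ (by linarith)
    linarith [(hc i).2]
  have hcb : ∀ i, hh (c i) ≤ hh (b i) := fun i => by
    have h6 := mul_le_mul_of_nonneg_right ((hθ i).trans hκ2) (hb0 i)
    have h7 : (c i : ℝ) < b i + 1 := by linarith [(hc i).2]
    have h8 : c i < b i + 1 := by exact_mod_cast h7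
    exact rpow_le_rpow (Nat.cast_nonneg _) (by exact_mod_cast Nat.lt_succ_iff.1 h8) (by norm_num)
  have hf := fun j : Fin k => lattice_facts (lattice_growth P hB h2 h3 h4 j j.2)
  have hgap : ∀ j : Fin k, 3 * hh (b j) ≤ κ * ((40 / 41 : ℝ) ^ (j : ℕ) / 20000) * b j := fun j => by
    have h6 := (hf j).2.1
    have h7 := mul_le_mul_of_nonneg_right hκ0
      (mul_nonneg (by positivity : 0 ≤ (40 / 41 : ℝ) ^ (j : ℕ)) (hb0 j))
    simp only [Fin.eta] at h6
    linarith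
  have hlt : ∀ i j : Fin k, (i : ℕ) < j →
      1 * (c i : ℝ) ≤ κ * (latT j - (40 / 41 : ℝ) ^ (j : ℕ) / 20000) * b i + 1 := fun i j hij => by
    have h6 := mul_le_mul_of_nonneg_right
      (mul_le_mul_of_nonneg_left (latT_lt hij) (by linarith : 0 ≤ κ)) (hb0 i)
    linarith [(hc i).2]
  have hT0 : ∀ j : ℕ, 0 ≤ κ * (latT j - (40 / 41 : ℝ) ^ j / 20000) := fun j => by
    have : (40 / 41 : ℝ) ^ j ≤ 1 := pow_le_one₀ (by norm_num) (by norm_num)
    exact mul_nonneg (by linarith) (by linarith [latT_ge j])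
  have hT1 : ∀ j : ℕ, κ * (latT j - (40 / 41 : ℝ) ^ j / 20000) ≤ 1 := fun j => by
    have : 0 ≤ κ * ((40 / 41 : ℝ) ^ j / 20000) := mul_nonneg (by linarith) (by positivity)
    linarith [hθ j]
  unfold Rm
  rw [Finset.mem_filter, Fintype.mem_piFinset, hs]
  refine ⟨fun i => Finset.mem_range.2 (Nat.lt_succ_of_le (Nat.le_floor ?_)), fun i => ?_,
    fun j => ?_, fun i j hij => ?_, ?_, hci⟩
  · have : 0 ≤ t ^ 3 := by positivity
    linarith [hci i]
  · have h6 : (B : ℝ) ≤ b i := by exact_mod_cast h3 i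
    have h7 : (2 * 80000 ^ 4 : ℝ) ≤ B := by exact_mod_cast hB
    have h8 : 1 / 2 ≤ κ * latT i := by nlinarith [latT_ge i]
    have h9 := mul_le_mul_of_nonneg_right h8 (hb0 i)
    have h10 : ((B / 3 : ℕ) : ℝ) ≤ B / 3 := Nat.cast_div_le
    have h11 : ((B / 3 : ℕ) : ℝ) ≤ c i := by linarith [(hc i).1]
    exact_mod_cast h11
  · have h6 : 1 * PhiV c j ≤ _ * PhiV b j + 1 * ((j : ℕ) : ℝ) ^ 2 :=
      lattice_phi_le P zero_le_one fun i hi => hlt i j hi
    have h7 := mul_le_mul_of_nonneg_left (h4 j) (hT0 j)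
    have h8 := (hf j).1
    have h9 := mul_le_mul_of_nonneg_right (hT1 j) (le_trans (by positivity) h8)
    have h10 : (0 : ℝ) ≤ (j : ℕ) := Nat.cast_nonneg _
    simp only [Fin.eta] at h8 h9
    nlinarith [(hc j).1, hcb j, hgap j]
  · have h6 := hlt i j hij
    have h7 := mul_le_mul_of_nonneg_left (show (b i : ℝ) ≤ b j by exact_mod_cast h2 hij.le) (hT0 j)
    have h8 := (hf j).1
    have h10 : (0 : ℝ) ≤ (j : ℕ) := Nat.cast_nonneg _
    simp only [Fin.eta] at h8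
    nlinarith [(hc j).1, hcb j, hgap j]
  · have h6 : 1 * PhiV c k ≤ κ * PhiV b k + 1 * (k : ℝ) ^ 2 :=
      lattice_phi_le P zero_le_one fun i _ => by
        have := mul_le_mul_of_nonneg_right (hθ i) (hb0 i)
        linarith [(hc i).2]
    have h7 := mul_le_mul_of_nonneg_left h5 (by linarith : 0 ≤ κ)
    nlinarith

theorem lattice_prod_ge {k : ℕ} {e : ℝ} (he : e ≤ 1) :
    9 / 10 * (1 - k * e) ≤ ∏ i : Fin k, ((1 - e) * latT i) := by
  rw [Finset.prod_mul_distrib, Finset.prod_const, Finset.card_univ, Fintype.card_fin]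
  have h1 := one_add_mul_le_pow (a := -e) (by linarith) k
  have h2 : 0 ≤ (1 - e) ^ k := pow_nonneg (by linarith) _
  have h3 := mul_le_mul_of_nonneg_left (latT_prod k) h2
  rw [← sub_eq_add_neg 1 e] at h1
  linarith

theorem lattice_sep (P : Prof) {B k : ℕ} {t κ κ' : ℝ} (hk : 32 * ((k : ℝ) + 1) ≤ t)
    (hκ1 : κ ≤ 1) (hκ0 : 0 < κ') (hκκ : κ' * t ≤ κ * t - 4)
    {b b' : Fin k → ℕ} (hb : b ∈ Rp B k (t ^ 4 - t ^ 3) (t ^ 4 + 2 * t ^ 3))
    (hb' : b' ∈ Rp B k (t ^ 4 - t ^ 3) (t ^ 4 + 2 * t ^ 3)) {c : Fin k → ℕ}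
    (hc : ∀ i : Fin k, κ * latT i * b i - 1 < c i)
    (hc' : ∀ i : Fin k, (c i : ℝ) < κ' * latT i * b' i + 1) : False := by
  have hk0 : (0 : ℝ) ≤ k := Nat.cast_nonneg _
  have ht : 32 ≤ t := by linarith
  obtain ⟨-, -, -, -, -, h6⟩ := lattice_mem_Rp (by positivity) hb
  obtain ⟨h1', -, -, -, h5', -⟩ := lattice_mem_Rp (by positivity) hb'
  have hκ : 0 < κ := by
    have h1 : 0 < κ * t := by nlinarith
    exact (mul_pos_iff_of_pos_right (by linarith)).1 h1
  have hcmp : ∀ i : Fin k, κ * b i ≤ κ' * b' i + 3 := fun i => by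
    have h1 : latT i * (κ * b i - κ' * b' i) < 2 := by linarith [hc i, hc' i]
    by_contra h2
    have h3 := mul_le_mul (latT_ge i) (show (3 : ℝ) ≤ κ * b i - κ' * b' i by linarith)
      (by norm_num) (by linarith [latT_ge i])
    linarith
  have hnum : κ' * (t ^ 4 + 2 * t ^ 3) + 3 * ((k : ℝ) + 1) ^ 2 ≤ κ * (t ^ 4 - t ^ 3) := by
    have h7 : ((k : ℝ) + 1) ^ 2 ≤ t ^ 2 := pow_le_pow_left₀ (by positivity) (by linarith) _
    have h8 := mul_le_mul_of_nonneg_right hκκ (by positivity : 0 ≤ t ^ 3 + 2 * t ^ 2)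
    have h9 := mul_le_mul_of_nonneg_right hκ1 (by positivity : 0 ≤ t ^ 3)
    have h10 : 0 ≤ t ^ 2 := by positivity
    nlinarith
  rcases h6 with h6 | ⟨i, h6⟩
  · have h7 : κ * PhiV b k ≤ κ' * PhiV b' k + 3 * (k : ℝ) ^ 2 :=
      lattice_phi_le P (by norm_num) fun i _ => hcmp i
    have h8 := mul_lt_mul_of_pos_left h6 hκ
    have h9 := mul_le_mul_of_nonneg_left h5' hκ0.le
    nlinarith
  · have h8 := mul_lt_mul_of_pos_left h6 hκ
    have h9 := mul_le_mul_of_nonneg_left (h1' i) hκ0.le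
    nlinarith [hcmp i]

theorem lattice (P : Prof) : LatticeStmt := by
  classical
  refine ⟨48, 2 * 80000 ^ 4, 32 ^ 4, by norm_num, fun B hB s hs k => ?_⟩
  obtain ⟨t, ht0, rfl, hs3, hs4⟩ := lattice_hh s (le_trans (by norm_num) hs)
  have ht : 32 ≤ t := le_of_pow_le_pow_left₀ (n := 4) (by norm_num) ht0 hs
  have htp : 0 < t := by linarith
  have hk0 : (0 : ℝ) ≤ k := Nat.cast_nonneg _
  rw [hs3, hs4]
  have hRm : (0 : ℝ) ≤ (Rm (B / 3) k (t ^ 4)).card := Nat.cast_nonneg _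
  have hth : ∀ e : ℝ, 0 ≤ e → e ≤ 1 / 4 → ∀ i : Fin k,
      0 < (1 - e) * latT i ∧ (1 - e) * latT i ≤ 1 := fun e h0 h1 i =>
    ⟨mul_pos (by linarith) (by linarith [latT_ge i]),
      mul_le_one₀ (by linarith) (by linarith [latT_ge i]) (latT_le i)⟩
  constructor
  · rcases (Rp B k (-1) (t ^ 4 + 2 * t ^ 3)).eq_empty_or_nonempty with h | ⟨b₀, hb₀⟩
    · rw [h]
      simp
    have hk := lattice_k_le P hB ht hb₀
    have he0 : 0 ≤ 4 / t := by positivity
    have he1 : 4 / t ≤ 1 / 4 := by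
      rw [div_le_iff₀ htp]
      linarith
    have he2 : k * (4 / t) ≤ 1 / 8 := by
      rw [← mul_div_assoc, div_le_iff₀ htp]
      linarith
    have h1 := lattice_kernel (fun i : Fin k => (1 - 4 / t) * latT i) (fun i => (hth _ he0 he1 i).1)
      (fun i => (hth _ he0 he1 i).2) (Rp B k (-1) (t ^ 4 + 2 * t ^ 3)) (Rm (B / 3) k (t ^ 4))
      fun c ⟨b, hb, hc⟩ => lattice_mem_Rm P hB ht hs3 (by linarith)
        (le_of_eq (by field_simp)) hb hc
    have h2 := mul_le_mul_of_nonneg_right (lattice_prod_ge (k := k) (e := 4 / t) (by linarith))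
      (Nat.cast_nonneg (α := ℝ) (Rp B k (-1) (t ^ 4 + 2 * t ^ 3)).card)
    have h3 : (0 : ℝ) ≤ (Rp B k (-1) (t ^ 4 + 2 * t ^ 3)).card := Nat.cast_nonneg _
    nlinarith
  · set F := Rp B k (t ^ 4 - t ^ 3) (t ^ 4 + 2 * t ^ 3) with hF
    rcases F.eq_empty_or_nonempty with h | ⟨b₀, hb₀⟩
    · rw [h]
      simp only [Finset.card_empty, Nat.cast_zero]
      positivity
    have hk := lattice_k_le P hB ht hb₀
    set N : ℕ := ⌊t / (16 * (k + 1))⌋₊ with hN
    have hN1 : (N : ℝ) * (16 * (k + 1)) ≤ t := by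
      rw [← le_div_iff₀ (by positivity)]
      exact Nat.floor_le (by positivity)
    have hN2 : t ≤ N * (32 * (k + 1)) := by
      have h1 := (Nat.lt_floor_add_one (t / (16 * (k + 1)))).le
      rw [div_le_iff₀ (by positivity), ← hN] at h1
      linarith
    have he0 : ∀ n : ℕ, 0 ≤ 4 * ((n : ℝ) + 1) / t := fun n => by positivity
    have he2 : ∀ n ∈ range N, ((k : ℝ) + 1) * (4 * ((n : ℝ) + 1) / t) ≤ 1 / 4 := fun n hn => by
      have h1 : (n : ℝ) + 1 ≤ N := by exact_mod_cast Finset.mem_range.1 hn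
      rw [← mul_div_assoc, div_le_iff₀ htp]
      nlinarith
    have he1 : ∀ n ∈ range N, 4 * ((n : ℝ) + 1) / t ≤ 1 / 4 := fun n hn => by
      nlinarith [he2 n hn, he0 n]
    let G : ℕ → Finset (Fin k → ℕ) := fun n => (Rm (B / 3) k (t ^ 4)).filter fun c =>
      ∃ b ∈ F, ∀ i : Fin k, (1 - 4 * ((n : ℝ) + 1) / t) * latT i * b i - 1 < c i ∧
        (c i : ℝ) < (1 - 4 * ((n : ℝ) + 1) / t) * latT i * b i + 1
    have hG : ∀ n ∈ range N, 27 / 40 * (F.card : ℝ) ≤ (G n).card := fun n hn => by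
      have h1 := lattice_kernel (fun i : Fin k => (1 - 4 * ((n : ℝ) + 1) / t) * latT i)
        (fun i => (hth _ (he0 n) (he1 n hn) i).1) (fun i => (hth _ (he0 n) (he1 n hn) i).2) F (G n)
        fun c ⟨b, hb, hc⟩ => Finset.mem_filter.2 ⟨lattice_mem_Rm P hB ht hs3
          (by linarith [he1 n hn]) (by
            have : (0 : ℝ) ≤ n := Nat.cast_nonneg _
            rw [sub_mul, div_mul_cancel₀ _ htp.ne']
            linarith) hb hc, b, hb, hc⟩
      have h2 := lattice_prod_ge (k := k) (e := 4 * ((n : ℝ) + 1) / t) (by linarith [he1 n hn])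
      refine le_trans (mul_le_mul_of_nonneg_right (le_trans ?_ h2) (Nat.cast_nonneg _)) h1
      linarith [he2 n hn, he0 n]
    have hsep : ∀ n n' : ℕ, n' ∈ range N → n < n' → Disjoint (G n) (G n') := by
      intro n n' hn' hnn
      refine Finset.disjoint_left.2 fun c hc hc' => ?_
      obtain ⟨b, hb, hc⟩ := (Finset.mem_filter.1 hc).2
      obtain ⟨b', hb', hc'⟩ := (Finset.mem_filter.1 hc').2
      refine lattice_sep P hk (by linarith [he0 n]) (by linarith [he1 n' hn']) ?_ hb hb'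
        (fun i => (hc i).1) fun i => (hc' i).2
      have : (n : ℝ) + 1 ≤ n' := by exact_mod_cast hnn
      rw [sub_mul, sub_mul, div_mul_cancel₀ _ htp.ne', div_mul_cancel₀ _ htp.ne']
      linarith
    have hcard : ∑ n ∈ range N, (G n).card ≤ (Rm (B / 3) k (t ^ 4)).card := by
      rw [← Finset.card_biUnion]
      · exact Finset.card_le_card (Finset.biUnion_subset.2 fun n _ => Finset.filter_subset _ _)
      · intro n hn n' hn' hne
        rcases lt_or_gt_of_ne hne with h | h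
        · exact hsep n n' hn' h
        · exact (hsep n' n hn h).symm
    have h1 : (N : ℝ) * (27 / 40 * (F.card : ℝ)) ≤ (Rm (B / 3) k (t ^ 4)).card := by
      have h2 := Finset.sum_le_sum hG
      rw [Finset.sum_const, Finset.card_range, nsmul_eq_mul] at h2
      refine h2.trans ?_
      exact_mod_cast hcard
    have hF0 : (0 : ℝ) ≤ F.card := Nat.cast_nonneg _
    rw [mul_right_comm, ← div_eq_mul_inv, le_div_iff₀ htp]
    have h2 := mul_le_mul_of_nonneg_left hN2 hF0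
    have h3 := mul_le_mul_of_nonneg_left h1 (by positivity : (0 : ℝ) ≤ 48 * (k + 1))
    have h4 : 0 ≤ (N : ℝ) * (k + 1) * F.card := by positivity
    nlinarith

end Vale.Agent.P031
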