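import Vale.Agent.P031.Defs

/-! Almost all products `(p-1) d` are distinct totients (for P031). -/

namespace Vale.Agent.P031

open Finset Filter Real

lemma lower_num1 (C : ℝ) :
    ∀ᶠ s : ℝ in atTop, C + log s / 20 + 10 * log s * log (2 * s + 3) ≤ (s - 23) ^ (1 / 4 : ℝ) := by
  have h := (tendsto_rpow_atTop (show (0 : ℝ) < 1 / 8 by norm_num)).eventually_ge_atTop
    (4 * |C| + 21504)
  filter_upwards [h, eventually_ge_atTop 25] with s hu hs
  have hs0 : 0 ≤ s := by linarith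
  set u := s ^ (1 / 8 : ℝ) with hud
  have h1 : log s ≤ s ^ (1 / 16 : ℝ) / (1 / 16) := Real.log_le_rpow_div hs0 (by norm_num)
  have h2 : s ^ (1 / 16 : ℝ) * s ^ (1 / 16 : ℝ) = u := by
    rw [hud, ← Real.rpow_add (by linarith)]; norm_num
  have h3 : 1 ≤ log s := by
    rw [Real.le_log_iff_exp_le (by linarith)]; linarith [Real.exp_one_lt_d9]
  have h4 : log (2 * s + 3) ≤ 2 * log s := by
    have : log (2 * s + 3) ≤ log (s ^ 2) := Real.log_le_log (by linarith) (by nlinarith)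
    rwa [Real.log_pow] at this
  have h5 : log s * log s ≤ 256 * u := by
    have : log s ≤ 16 * s ^ (1 / 16 : ℝ) := by linarith
    nlinarith [mul_le_mul this this (by linarith) (by positivity)]
  have h6 : u * u / 2 ≤ (s - 23) ^ (1 / 4 : ℝ) := by
    have a1 : u * u = s ^ (1 / 4 : ℝ) := by rw [hud, ← Real.rpow_add (by linarith)]; norm_num
    have a2 : (s / 16) ^ (1 / 4 : ℝ) ≤ (s - 23) ^ (1 / 4 : ℝ) :=
      Real.rpow_le_rpow (by linarith) (by linarith) (by norm_num)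
    have a3 : (16 : ℝ) ^ (1 / 4 : ℝ) = 2 := by
      rw [show (16 : ℝ) = 2 ^ (4 : ℝ) by norm_num, ← Real.rpow_mul (by norm_num)]; norm_num
    rw [Real.div_rpow hs0 (by norm_num), a3] at a2
    rw [a1]; exact a2
  have h7 := le_abs_self C
  have h8 := abs_nonneg C
  nlinarith

lemma lower_num2 : ∀ᶠ s : ℝ in atTop,
    exp (log s / 20 + 1) * (log s / 20 + 1) ^ 2 ≤ (s - 1) ^ (1 / 10 : ℝ) := by
  have h := (tendsto_rpow_atTop (show (0 : ℝ) < 1 / 80 by norm_num)).eventually_ge_atTop 13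
  filter_upwards [h, eventually_ge_atTop 2] with s hv hs
  have hs0 : 0 < s := by linarith
  set v := s ^ (1 / 80 : ℝ) with hvd
  have h1 : log s ≤ v / (1 / 80) := Real.log_le_rpow_div hs0.le (by norm_num)
  have h0 : 0 ≤ log s := Real.log_nonneg (by linarith)
  have h2 : exp (log s / 20) = v ^ 4 := by
    rw [hvd, ← Real.rpow_natCast, ← Real.rpow_mul hs0.le, Real.rpow_def_of_pos hs0]
    congr 1; push_cast; ring
  have h3 : v ^ 8 / 2 ≤ (s - 1) ^ (1 / 10 : ℝ) := by
    have a1 : v ^ 8 = s ^ (1 / 10 : ℝ) := by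
      rw [hvd, ← Real.rpow_natCast, ← Real.rpow_mul hs0.le]; norm_num
    have a2 : (s / 2) ^ (1 / 10 : ℝ) ≤ (s - 1) ^ (1 / 10 : ℝ) :=
      Real.rpow_le_rpow (by linarith) (by linarith) (by norm_num)
    have a3 : (2 : ℝ) ^ (1 / 10 : ℝ) ≤ 2 := by
      have := Real.rpow_le_rpow_of_exponent_le (show (1 : ℝ) ≤ 2 by norm_num)
        (show (1 / 10 : ℝ) ≤ 1 by norm_num)
      simpa using this
    rw [Real.div_rpow hs0.le (by norm_num)] at a2
    rw [a1]
    exact (div_le_div_of_nonneg_left (by positivity) (by positivity) a3).trans a2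
  have h4 : (log s / 20 + 1) ^ 2 ≤ (5 * v) ^ 2 := pow_le_pow_left₀ (by positivity) (by linarith) 2
  have h5 : exp (log s / 20 + 1) ≤ 3 * v ^ 4 := by
    rw [exp_add, h2]
    have : 0 ≤ v ^ 4 := by positivity
    nlinarith [Real.exp_one_lt_d9]
  have h6 := mul_le_mul h5 h4 (by positivity) (by positivity)
  have h7 : 150 ≤ v ^ 2 := by nlinarith
  have h8 : 0 ≤ v ^ 6 := by positivity
  nlinarith [mul_le_mul_of_nonneg_left h7 h8]

lemma lower_num3 (η : ℝ) (hη : 0 < η) :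
    ∀ᶠ x : ℝ in atTop, x ^ (1 / 10 : ℝ) * (2 * √x) ≤ η * x / log x := by
  have h := (tendsto_rpow_atTop (show (0 : ℝ) < 1 / 5 by norm_num)).eventually_ge_atTop (10 / η)
  filter_upwards [h, eventually_ge_atTop 2] with x hv hx
  have hx0 : 0 < x := by linarith
  have h1 : log x ≤ x ^ (1 / 5 : ℝ) / (1 / 5) := Real.log_le_rpow_div hx0.le (by norm_num)
  have h0 : 0 < log x := Real.log_pos (by linarith)
  rw [le_div_iff₀ h0, Real.sqrt_eq_rpow]
  have h2 : x = x ^ (1 / 10 : ℝ) * x ^ (1 / 2 : ℝ) * x ^ (1 / 5 : ℝ) * x ^ (1 / 5 : ℝ) := by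
    rw [← Real.rpow_add hx0, ← Real.rpow_add hx0, ← Real.rpow_add hx0]; norm_num
  rw [div_le_iff₀ hη] at hv
  set a := x ^ (1 / 10 : ℝ) * x ^ (1 / 2 : ℝ) with ha
  set b := x ^ (1 / 5 : ℝ) with hb
  have ha0 : 0 ≤ a := by positivity
  have hb0 : 0 ≤ b := by positivity
  have h3 : a * log x ≤ a * (5 * b) := mul_le_mul_of_nonneg_left (by linarith) ha0
  have h4 : a * b * 10 ≤ a * b * (b * η) := mul_le_mul_of_nonneg_left hv (by positivity)
  calc x ^ (1 / 10 : ℝ) * (2 * x ^ (1 / 2 : ℝ)) * log x = 2 * (a * log x) := by rw [ha]; ring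
    _ ≤ η * (a * b * b) := by nlinarith
    _ = η * x := by rw [← h2]

lemma lower_loglog_half {x y : ℝ} (hx : 16 ≤ x) (hy : √x ≤ y) : log (log x) - 1 ≤ log (log y) := by
  have h0 : 0 < log x := Real.log_pos (by linarith)
  have h1 : log (√x) ≤ log y := Real.log_le_log (Real.sqrt_pos.mpr (by linarith)) hy
  rw [Real.log_sqrt (by linarith)] at h1
  have h2 : log (log x / 2) ≤ log (log y) := Real.log_le_log (by positivity) h1
  rw [Real.log_div h0.ne' (by norm_num)] at h2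
  linarith [Real.log_two_lt_d9]

lemma lower_s (F : Facts) {x : ℝ} (hx : 16 ≤ x) :
    log (log x) - 11 ≤ A ⌊x⌋₊ ∧ A ⌊x⌋₊ ≤ log (log x) + 10 := by
  have hfl : 2 ≤ ⌊x⌋₊ := Nat.le_floor (by push_cast; linarith)
  have hfl' : (2 : ℝ) ≤ ⌊x⌋₊ := by exact_mod_cast hfl
  obtain ⟨a1, a2⟩ := abs_le.mp (F.mertens _ hfl)
  have a4 : log (log (⌊x⌋₊ : ℝ)) ≤ log (log x) :=
    Real.log_le_log (Real.log_pos (by linarith))
      (Real.log_le_log (by linarith) (Nat.floor_le (by linarith)))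
  have a5 : √x ≤ ⌊x⌋₊ := by
    have := Nat.lt_floor_add_one x
    rw [Real.sqrt_le_left (by linarith)]
    nlinarith
  have := lower_loglog_half hx a5
  constructor <;> linarith

lemma lower_tendsto (F : Facts) : Tendsto (fun x : ℝ => A ⌊x⌋₊) atTop atTop := by
  have h : Tendsto (fun x : ℝ => log (log x) + (-11)) atTop atTop :=
    tendsto_atTop_add_const_right _ _ (tendsto_log_atTop.comp tendsto_log_atTop)
  refine tendsto_atTop_mono' _ ?_ h
  filter_upwards [eventually_ge_atTop 16] with x hx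
  linarith [(lower_s F hx).1]

lemma lower_blk (F : Facts) {x : ℝ} (hx : 16 ≤ x) {p : ℕ} (h1 : √x < p) (h2 : (p : ℝ) ≤ x ^ 2) :
    blk ⌊x⌋₊ ≤ blk p + 22 ∧ blk p ≤ blk ⌊x⌋₊ + 22 := by
  have h4 : (4 : ℝ) ≤ √x := by rw [Real.le_sqrt (by norm_num) (by linarith)]; linarith
  have hp : (2 : ℝ) ≤ p := by linarith
  have hp' : 2 ≤ p := by exact_mod_cast hp
  obtain ⟨a1, a2⟩ := abs_le.mp (F.mertens _ hp')
  obtain ⟨b1, b2⟩ := lower_s F hx
  have c1 := lower_loglog_half hx h1.le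
  have h0 : 0 < log x := Real.log_pos (by linarith)
  have c2 : log (log p) ≤ log (log x) + 1 := by
    have d1 : log p ≤ log (x ^ 2) := Real.log_le_log (by linarith) h2
    rw [Real.log_pow] at d1
    have d2 : log (log p) ≤ log (2 * log x) :=
      Real.log_le_log (Real.log_pos (by linarith)) (by exact_mod_cast d1)
    rw [Real.log_mul (by norm_num) h0.ne'] at d2
    linarith [Real.log_two_lt_d9]
  have e1 := blk_le_A p
  have e2 := A_lt_blk p
  have e3 := blk_le_A ⌊x⌋₊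
  have e4 := A_lt_blk ⌊x⌋₊
  constructor
  · have : (blk ⌊x⌋₊ : ℝ) < blk p + 23 := by linarith
    have : blk ⌊x⌋₊ < blk p + 23 := by exact_mod_cast this
    omega
  · have : (blk p : ℝ) < blk ⌊x⌋₊ + 23 := by linarith
    have : blk p < blk ⌊x⌋₊ + 23 := by exact_mod_cast this
    omega

lemma lower_recip (F : Facts) (P : Prof) (D : Finset ℕ) (Q : ℕ → Finset ℕ) (μ : ℕ → ℕ)
    (B σ K : ℕ) (h : ∀ d ∈ D, Small B (μ d) ∧ (∀ q ∈ Q d, q.Prime ∧ blk q ≤ σ) ∧
      (Q d).card ≤ K ∧ d = μ d * val (Q d)) :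
    ∑ d ∈ D, (1 : ℝ) / d ≤ exp ((B : ℝ) + 4) * (2 * (σ : ℝ) + 3) ^ K := by
  classical
  have hmem : ∀ l b : ℕ, l.Prime → blk l ≤ b → l ∈ blkLe b := fun l b hl hb =>
    Finset.mem_filter.mpr ⟨Finset.mem_range.mpr
      (Nat.lt_succ_of_le (Nat.le_floor (F.le_Ub l b hl.two_le hb))), hl, hb⟩
  set w : ℕ → ℝ := fun q => 1 / ((q : ℝ) - 1) with hw
  set Ms := D.image μ with hMs
  set Qs := (blkLe σ).powerset.filter (fun Q => Q.card ≤ K) with hQs
  have hw0 : ∀ q ∈ blkLe σ, 0 ≤ w q := by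
    intro q hq
    have : (2 : ℝ) ≤ q := by exact_mod_cast (Finset.mem_filter.mp hq).2.1.two_le
    exact div_nonneg zero_le_one (by linarith)
  have h1 : ∑ d ∈ D, (1 : ℝ) / d ≤ ∑ z ∈ Ms ×ˢ Qs, (1 / (z.1 : ℝ)) * ∏ q ∈ z.2, w q := by
    have e : ∑ d ∈ D, (1 : ℝ) / d =
        ∑ z ∈ D.image (fun d => (μ d, Q d)), (1 / (z.1 : ℝ)) * ∏ q ∈ z.2, w q := by
      rw [Finset.sum_image]
      · refine Finset.sum_congr rfl fun d hd => ?_
        obtain ⟨_, h2, _, h4⟩ := h d hd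
        have : ((val (Q d) : ℕ) : ℝ) = ∏ q ∈ Q d, ((q : ℝ) - 1) := by
          unfold val
          rw [Nat.cast_prod]
          refine Finset.prod_congr rfl fun q hq => ?_
          rw [Nat.cast_sub (h2 q hq).1.one_le]; simp
        simp only [hw]
        rw [Finset.prod_div_distrib, ← this, Finset.prod_const_one, one_div_mul_one_div]
        nth_rewrite 1 [h4]
        push_cast; rfl
      · intro a ha b hb hab
        simp only [Prod.mk.injEq] at hab
        rw [(h a ha).2.2.2, (h b hb).2.2.2, hab.1, hab.2]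
    rw [e]
    refine Finset.sum_le_sum_of_subset_of_nonneg ?_ ?_
    · intro z hz
      obtain ⟨d, hd, rfl⟩ := Finset.mem_image.mp hz
      obtain ⟨_, h2, h3, _⟩ := h d hd
      exact Finset.mem_product.mpr ⟨Finset.mem_image_of_mem _ hd, Finset.mem_filter.mpr
        ⟨Finset.mem_powerset.mpr fun q hq => hmem q σ (h2 q hq).1 (h2 q hq).2, h3⟩⟩
    · intro z hz _
      have := Finset.mem_powerset.mp (Finset.mem_filter.mp (Finset.mem_product.mp hz).2).1
      exact mul_nonneg (by positivity) (Finset.prod_nonneg fun q hq => hw0 q (this hq))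
  rw [Finset.sum_product' (f := fun (a : ℕ) (b : Finset ℕ) => (1 / (a : ℝ)) * ∏ q ∈ b, w q),
    ← Finset.sum_mul_sum] at h1
  have h2 : ∑ m ∈ Ms, 1 / (m : ℝ) ≤ exp ((B : ℝ) + 4) := by
    have he := F.euler (fun _ => 1) ((blkLe B).filter fun l => blk l < B) Ms (by
        intro l hl
        have hp := (Finset.mem_filter.mp (Finset.mem_filter.mp hl).1).2.1
        have : (2 : ℝ) ≤ l := by exact_mod_cast hp.two_le
        exact ⟨hp, zero_le_one, by linarith⟩) (by
        intro n hn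
        obtain ⟨d, hd, rfl⟩ := Finset.mem_image.mp hn
        obtain ⟨a1, a2⟩ := P.small_primes B _ (h d hd).1
        exact ⟨a1, fun l hl => Finset.mem_filter.mpr
          ⟨hmem l B (Nat.prime_of_mem_primeFactors hl) (a2 l hl).le, a2 l hl⟩⟩)
    have e1 : ∀ n, cm (fun _ => (1 : ℝ)) n = 1 := fun n => by simp [cm_eq_prod]
    simp only [e1] at he
    refine he.trans (exp_le_exp.mpr ?_)
    rw [Finset.sum_add_distrib, ← Finset.mul_sum]
    have a1 := F.sum_lt_le B ((blkLe B).filter fun l => blk l < B) fun l hl =>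
      ⟨(Finset.mem_filter.mp (Finset.mem_filter.mp hl).1).2.1, (Finset.mem_filter.mp hl).2⟩
    have a2 := F.sum_sq ((blkLe B).filter fun l => blk l < B) 1 le_rfl fun l hl =>
      (Finset.mem_filter.mp (Finset.mem_filter.mp hl).1).2.1.one_lt
    simp only [Nat.cast_one, div_one] at a2
    linarith
  have h3 : ∑ S ∈ Qs, ∏ q ∈ S, w q ≤ (2 * (σ : ℝ) + 3) ^ K := by
    refine (F.subsets (blkLe σ) w K hw0).trans (pow_le_pow_left₀ ?_ ?_ K)
    · have := Finset.sum_nonneg hw0; linarith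
    · have a1 := F.sum_lt_le (σ + 1) (blkLe σ) fun l hl =>
        ⟨(Finset.mem_filter.mp hl).2.1, Nat.lt_succ_of_le (Finset.mem_filter.mp hl).2.2⟩
      have a2 : ∑ q ∈ blkLe σ, w q ≤ ∑ q ∈ blkLe σ, 2 * (1 / (q : ℝ)) := by
        refine Finset.sum_le_sum fun q hq => ?_
        have : (2 : ℝ) ≤ q := by exact_mod_cast (Finset.mem_filter.mp hq).2.1.two_le
        simp only [hw]
        rw [mul_one_div, div_le_div_iff₀ (by linarith) (by linarith)]
        linarith
      rw [← Finset.mul_sum] at a2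
      push_cast at a1
      linarith
  refine h1.trans (mul_le_mul h2 h3 (Finset.sum_nonneg fun S hS => ?_) (exp_pos _).le)
  have := Finset.mem_powerset.mp (Finset.mem_filter.mp hS).1
  exact Finset.prod_nonneg fun q hq => hw0 q (this hq)

lemma lower_eps_anti {a b : ℝ} (ha : 0 ≤ a) (h : a ≤ b) : eps b ≤ eps a := by
  unfold eps
  exact exp_le_exp.mpr (neg_le_neg (Real.rpow_le_rpow ha h (by norm_num)))

open Classical in
lemma lower_abnormal (b₀ : ℕ) (hN : ∀ b : ℕ, b₀ ≤ b → ∀ y : ℝ, 0 ≤ y →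
      (((range (⌊y⌋₊ + 2)).filter fun p : ℕ => p.Prime ∧ blk p = b ∧ ¬ Normal p).card : ℝ) ≤
        y * exp (-(b : ℝ)) * eps b) (σ : ℕ) (hσ : b₀ + 22 ≤ σ) (y : ℝ) (hy : 0 ≤ y)
    (S : Finset ℕ) (hS : ∀ p ∈ S, p < ⌊y⌋₊ + 2 ∧ p.Prime ∧ ¬ Normal p ∧ σ ≤ blk p + 22 ∧
      blk p ≤ σ + 22) :
    (S.card : ℝ) ≤ 45 * (y * exp (-((σ : ℝ) - 22)) * eps ((σ : ℝ) - 22)) := by
  have h1 : S ⊆ (Icc (σ - 22) (σ + 22)).biUnion fun b =>
      (range (⌊y⌋₊ + 2)).filter fun p : ℕ => p.Prime ∧ blk p = b ∧ ¬ Normal p := by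
    intro p hp
    obtain ⟨a1, a2, a3, a4, a5⟩ := hS p hp
    exact Finset.mem_biUnion.mpr ⟨blk p, Finset.mem_Icc.mpr ⟨by omega, a5⟩,
      Finset.mem_filter.mpr ⟨Finset.mem_range.mpr a1, a2, rfl, a3⟩⟩
  have h2 := (Finset.card_le_card h1).trans Finset.card_biUnion_le
  have h3 : (S.card : ℝ) ≤ ∑ b ∈ Icc (σ - 22) (σ + 22), (((range (⌊y⌋₊ + 2)).filter
      fun p : ℕ => p.Prime ∧ blk p = b ∧ ¬ Normal p).card : ℝ) := by exact_mod_cast h2
  have hσ' : (22 : ℝ) ≤ σ := by exact_mod_cast (by omega : 22 ≤ σ)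
  refine h3.trans ((Finset.sum_le_card_nsmul _ _
    (y * exp (-((σ : ℝ) - 22)) * eps ((σ : ℝ) - 22)) fun b hb => ?_).trans ?_)
  · have hb1 := (Finset.mem_Icc.mp hb).1
    have hb2 : (σ : ℝ) - 22 ≤ b := by
      have : σ ≤ b + 22 := by omega
      have : (σ : ℝ) ≤ b + 22 := by exact_mod_cast this
      linarith
    refine (hN b (by omega) y hy).trans ?_
    refine mul_le_mul (mul_le_mul_of_nonneg_left (exp_le_exp.mpr (by linarith)) hy)
      (lower_eps_anti (by linarith) hb2) (exp_pos _).le (by positivity)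
  · rw [Nat.card_Icc, nsmul_eq_mul]
    have : σ + 22 + 1 - (σ - 22) = 45 := by omega
    rw [this]; norm_num

set_option maxHeartbeats 1600000 in
theorem lower (F : Facts) (P : Prof) (N : NormalStmt) (Co : CollideStmt) : LowerStmt := by
  classical
  obtain ⟨b₀, hN⟩ := N
  obtain ⟨b₁, σ₀, hCo⟩ := Co
  obtain ⟨Bg, hg⟩ := P.growth
  refine ⟨max b₁ Bg, fun c hc η hη => ?_⟩
  have hts := lower_tendsto F
  filter_upwards [hts.eventually (lower_num1 (log (135 * c / η) + 39)), hts.eventually lower_num2,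
    lower_num3 (η / 3) (by positivity), eventually_ge_atTop 16, eventually_ge_atTop (c + 1),
    hts.eventually_ge_atTop (((b₀ + σ₀ + 256 : ℕ) : ℝ))] with x n1 n2 n3 hx hxc hs
  intro B hB hB2 t ht1 ht2
  set s := A ⌊x⌋₊ with hsd
  set σ := blk ⌊x⌋₊ with hσd
  have hσ1 : (σ : ℝ) ≤ s := blk_le_A _
  have hσ2 : s < σ + 1 := A_lt_blk _
  have hσ3 : b₀ + σ₀ + 256 ≤ σ := Nat.le_floor hs
  have hσ4 : (256 : ℝ) ≤ σ := by exact_mod_cast (by omega : 256 ≤ σ)
  have hlx : 0 < log x := Real.log_pos (by linarith)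
  have ht0 : 0 ≤ t := by linarith
  have hhh : 64 ≤ hh σ := by
    have a1 : (256 : ℝ) ^ (3 / 4 : ℝ) ≤ (σ : ℝ) ^ (3 / 4 : ℝ) :=
      Real.rpow_le_rpow (by norm_num) hσ4 (by norm_num)
    have a2 : (256 : ℝ) ^ (3 / 4 : ℝ) = 64 := by
      rw [show (256 : ℝ) = 4 ^ (4 : ℝ) by norm_num, ← Real.rpow_mul (by norm_num)]; norm_num
    rw [a2] at a1; exact a1
  have hhs : s - hh s ≤ σ - hh σ / 2 := by
    have : hh σ ≤ hh s := Real.rpow_le_rpow (by positivity) hσ1 (by norm_num)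
    linarith
  have hlogs : log s ≤ s := by linarith [Real.log_le_sub_one_of_pos (show 0 < s by linarith)]
  have hBσ : B + 22 ≤ σ := by
    have : (B : ℝ) + 22 ≤ σ := by linarith
    exact_mod_cast this
  have hexσ : exp (-(σ : ℝ)) ≤ exp 12 / log x := by
    have := (lower_s F hx).1
    rw [le_div_iff₀ hlx]
    nth_rewrite 1 [← Real.exp_log hlx]
    rw [← exp_add]
    exact exp_le_exp.mpr (by linarith)
  have hD : ∀ d ∈ DD B x, ∃ (Q : Finset ℕ) (μ : ℕ), Good B Q ∧ Small B μ ∧ Phi Q ≤ s - hh s ∧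
      (∀ q ∈ Q, (blk q : ℝ) ≤ s - hh s) ∧ d = μ * val Q := fun d hd => (Finset.mem_filter.mp hd).2
  choose! Q μ hG hSm hPhi hq hdq using hD
  have hd1 : ∀ d ∈ DD B x, 1 ≤ d := fun d hd => (Finset.mem_Icc.mp (Finset.mem_filter.mp hd).1).1
  have hqσ : ∀ d ∈ DD B x, ∀ q ∈ Q d, (blk q : ℝ) ≤ σ := fun d hd q h => by
    have := hq d hd q h; linarith
  have hcard : ∀ d ∈ DD B x, ((Q d).card : ℝ) ≤ 10 * log σ := fun d hd =>
    (hg B (le_trans (le_max_right _ _) hB) (Q d) σ (by linarith) (hG d hd) (hqσ d hd)).1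
  have hlogσ : 0 ≤ log (σ : ℝ) := Real.log_nonneg (by linarith)
  -- the sum of reciprocals
  have hrec := lower_recip F P (DD B x) Q μ B σ ⌊10 * log (σ : ℝ)⌋₊ fun d hd =>
    ⟨hSm d hd, fun q h => ⟨((hG d hd).normal q h).1, by exact_mod_cast hqσ d hd q h⟩,
      Nat.le_floor (hcard d hd), hdq d hd⟩
  set R := exp ((B : ℝ) + 4) * (2 * (σ : ℝ) + 3) ^ ⌊10 * log (σ : ℝ)⌋₊ with hR
  have hR1 : 1 ≤ R := one_le_mul_of_one_le_of_one_le (Real.one_le_exp (by positivity))
    (one_le_pow₀ (by linarith))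
  have hkey : 45 * c * exp 34 * eps ((σ : ℝ) - 22) * R ≤ η / 3 := by
    have a1 : (2 * (σ : ℝ) + 3) ^ ⌊10 * log (σ : ℝ)⌋₊ ≤ exp (10 * log s * log (2 * s + 3)) := by
      rw [← Real.exp_log (show 0 < 2 * (σ : ℝ) + 3 by linarith), ← Real.exp_nat_mul]
      refine exp_le_exp.mpr (mul_le_mul ?_ ?_ (Real.log_nonneg (by linarith)) ?_)
      · have := Nat.floor_le (show 0 ≤ 10 * log (σ : ℝ) by positivity)
        have := Real.log_le_log (by linarith) hσ1
        linarith
      · exact Real.log_le_log (by linarith) (by linarith)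
      · have := Real.log_nonneg (show 1 ≤ s by linarith); positivity
    have a2 : eps ((σ : ℝ) - 22) ≤ eps (s - 23) := lower_eps_anti (by linarith) (by linarith)
    have a3 : R ≤ exp (log s / 20 + 5 + 10 * log s * log (2 * s + 3)) := by
      rw [exp_add]
      exact mul_le_mul (exp_le_exp.mpr (by linarith)) a1 (by positivity) (exp_pos _).le
    have a4 : exp 34 * eps (s - 23) * exp (log s / 20 + 5 + 10 * log s * log (2 * s + 3)) ≤
        η / (135 * c) := by
      unfold eps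
      rw [← exp_add, ← exp_add]
      have : η / (135 * c) = exp (-log (135 * c / η)) := by
        rw [exp_neg, Real.exp_log (by positivity), inv_div]
      rw [this]
      exact exp_le_exp.mpr (by linarith)
    have a5 : exp 34 * eps ((σ : ℝ) - 22) * R ≤ η / (135 * c) :=
      (mul_le_mul (mul_le_mul_of_nonneg_left a2 (exp_pos _).le) a3 (by linarith)
        (mul_nonneg (exp_pos _).le (exp_pos _).le)).trans a4
    rw [le_div_iff₀ (by positivity)] at a5
    linarith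
  have heps0 : 0 < eps ((σ : ℝ) - 22) := exp_pos _
  -- the primes attached to `d`
  set Pr : ℕ → Finset ℕ := fun d => (range (⌊t / d⌋₊ + 2)).filter Nat.Prime with hPr
  have hpc : ∀ d : ℕ, Nat.primeCounting (⌊t / d⌋₊ + 1) = (Pr d).card := fun d => by
    rw [Nat.primeCounting, Nat.primeCounting', Nat.count_eq_card_filter_range]
  have hpd : ∀ d ∈ DD B x, ∀ p ∈ Pr d, (((p - 1) * d : ℕ) : ℝ) ≤ t := by
    intro d hd p hp
    have a1 := Finset.mem_range.mp (Finset.mem_filter.mp hp).1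
    have hd0 : (0 : ℝ) < d := by exact_mod_cast hd1 d hd
    have a2 : ((p - 1 : ℕ) : ℝ) ≤ t / d :=
      (Nat.le_floor_iff (by positivity)).mp (by omega)
    rw [le_div_iff₀ hd0] at a2
    rw [Nat.cast_mul]; exact a2
  have hblk : ∀ d ∈ DD B x, ∀ p ∈ Pr d, √x < p → σ ≤ blk p + 22 ∧ blk p ≤ σ + 22 := by
    intro d hd p hp h
    refine lower_blk F hx h ?_
    have a1 := hpd d hd p hp
    have a2 : p - 1 ≤ (p - 1) * d := Nat.le_mul_of_pos_right _ (hd1 d hd)
    have a3 : p ≤ (p - 1) * d + 1 := by omega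
    have a4 : (p : ℝ) ≤ (((p - 1) * d : ℕ) : ℝ) + 1 := by exact_mod_cast a3
    nlinarith
  set Pn : ℕ → Finset ℕ := fun d => (Pr d).filter fun p => √x < p ∧ Normal p with hPn
  have hsplit : ∀ d ∈ DD B x, ((Pr d).card : ℝ) ≤ (Pn d).card + 2 * √x +
      45 * (t / d * exp (-((σ : ℝ) - 22)) * eps ((σ : ℝ) - 22)) := by
    intro d hd
    have a1 : Pr d ⊆ (Pn d ∪ range (⌊√x⌋₊ + 1)) ∪ (Pr d).filter fun p => √x < p ∧ ¬ Normal p := by
      intro p hp
      by_cases h1 : √x < p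
      · by_cases h2 : Normal p
        · exact Finset.mem_union_left _ (Finset.mem_union_left _ (Finset.mem_filter.mpr ⟨hp, h1, h2⟩))
        · exact Finset.mem_union_right _ (Finset.mem_filter.mpr ⟨hp, h1, h2⟩)
      · exact Finset.mem_union_left _ (Finset.mem_union_right _ (Finset.mem_range.mpr
          (Nat.lt_succ_of_le (Nat.le_floor (not_lt.mp h1)))))
    have a2 := (Finset.card_le_card a1).trans ((Finset.card_union_le _ _).trans
      (Nat.add_le_add_right (Finset.card_union_le _ _) _))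
    rw [Finset.card_range] at a2
    have a3 : ((Pr d).card : ℝ) ≤ (Pn d).card + (⌊√x⌋₊ + 1) +
        (((Pr d).filter fun p : ℕ => √x < p ∧ ¬ Normal p).card : ℝ) := by exact_mod_cast a2
    have a4 := lower_abnormal b₀ hN σ (by omega) (t / d) (by positivity)
      ((Pr d).filter fun p => √x < p ∧ ¬ Normal p) (by
        intro p hp
        obtain ⟨b1, b2, b3⟩ := Finset.mem_filter.mp hp
        obtain ⟨b4, b5⟩ := Finset.mem_filter.mp b1
        exact ⟨Finset.mem_range.mp b4, b5, b3, hblk d hd p b1 b2⟩)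
    have a5 := Nat.floor_le (Real.sqrt_nonneg x)
    have a6 : (1 : ℝ) ≤ √x := by rw [Real.le_sqrt (by norm_num) (by linarith)]; linarith
    linarith
  -- normal pairs
  set PP : Finset (Σ _ : ℕ, ℕ) := (DD B x).sigma Pn with hPP
  have hPPm : ∀ z ∈ PP, z.1 ∈ DD B x ∧ z.2 ∈ Pr z.1 ∧ √x < z.2 ∧ Normal z.2 := fun z hz =>
    ⟨(Finset.mem_sigma.mp hz).1, Finset.mem_filter.mp (Finset.mem_sigma.mp hz).2⟩
  have hTop : ∀ z ∈ PP, Top b₁ σ z.2 (Q z.1) (μ z.1) := by
    intro z hz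
    obtain ⟨a1, a2, a3, a4⟩ := hPPm z hz
    obtain ⟨a5, a6⟩ := hblk _ a1 _ a2 a3
    refine ⟨a4, fun q h => ⟨(hG _ a1).normal q h,
      le_trans (le_trans (le_max_left _ _) hB) ((hG _ a1).big q h), (hq _ a1 q h).trans hhs⟩,
      by omega, by omega, (hPhi _ a1).trans hhs, by linarith [hcard _ a1], ?_, ?_⟩
    · exact Nat.one_le_iff_ne_zero.mpr (P.small_primes B _ (hSm _ a1)).1
    · refine (hSm _ a1).2.trans (exp_le_exp.mpr ?_)
      refine le_trans ?_ (n2.trans (Real.rpow_le_rpow (by linarith) (by linarith) (by norm_num)))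
      exact mul_le_mul (exp_le_exp.mpr hB2) (pow_le_pow_left₀ (by positivity) hB2 2)
        (by positivity) (exp_pos _).le
  have hval : ∀ z ∈ PP, μ z.1 * (z.2 - 1) * val (Q z.1) = (z.2 - 1) * z.1 := by
    intro z hz
    nth_rewrite 3 [hdq _ (hPPm z hz).1]; ring
  set coll : (Σ _ : ℕ, ℕ) → Prop := fun z => ∃ z' ∈ PP, z' ≠ z ∧ (z'.2 - 1) * z'.1 = (z.2 - 1) * z.1
    with hcoll
  have hC : ((PP.filter coll).card : ℝ) ≤ t * exp (-(σ : ℝ)) * eps σ := by
    have a1 : ((PP.filter coll).image fun z => (z.2, Q z.1, μ z.1)).card = (PP.filter coll).card := by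
      refine Finset.card_image_of_injOn fun z hz z' hz' h => ?_
      simp only [Prod.mk.injEq] at h
      have b1 := (hPPm z (Finset.mem_filter.mp hz).1).1
      have b2 := (hPPm z' (Finset.mem_filter.mp hz').1).1
      have b3 : z.1 = z'.1 := by rw [hdq _ b1, hdq _ b2, h.2.1, h.2.2]
      exact Sigma.ext b3 (heq_of_eq h.1)
    rw [← a1]
    refine hCo σ (by omega) t ht0 _ fun T hT => ?_
    obtain ⟨z, hz, rfl⟩ := Finset.mem_image.mp hT
    obtain ⟨hz1, z', hz', hne, he⟩ := Finset.mem_filter.mp hz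
    refine ⟨hTop z hz1, ?_, z'.2, Q z'.1, μ z'.1, hTop z' hz', ?_, ?_⟩
    · simp only
      rw [hval z hz1]
      exact hpd _ (hPPm z hz1).1 _ (hPPm z hz1).2.1
    · intro h
      simp only at h
      rw [h] at he
      have := (hPPm z hz1).2.2.2.1.two_le
      exact hne (Sigma.ext (Nat.eq_of_mul_eq_mul_left (by omega) he) (heq_of_eq h))
    · simp only
      rw [hval z hz1, hval z' hz', he]
  have hRest : (PP.filter fun z => ¬ coll z).card ≤ (tots t).card := by
    refine Finset.card_le_card_of_injOn (fun z => (z.2 - 1) * z.1) (fun z hz => ?_)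
      fun z hz z' hz' h => ?_
    · have hz1 := (Finset.mem_filter.mp hz).1
      obtain ⟨a1, a2, a3, a4⟩ := hPPm z hz1
      obtain ⟨a5, a6⟩ := hblk _ a1 _ a2 a3
      refine Finset.mem_coe.mpr ((mem_tots ht0).mpr ⟨?_, hpd _ a1 _ a2⟩)
      obtain ⟨⟨m, hm1, hm2, hm3⟩, _⟩ := hSm _ a1
      have hnot : z.2 ∉ Q z.1 := by
        intro h
        have b1 := (hq _ a1 _ h).trans hhs
        have b2 : (σ : ℝ) ≤ blk z.2 + 22 := by exact_mod_cast a5
        linarith
      have hpr : ∀ q ∈ insert z.2 (Q z.1), q.Prime ∧ B ≤ blk q := by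
        intro q h
        rcases Finset.mem_insert.mp h with rfl | h
        · exact ⟨a4.1, by omega⟩
        · exact ⟨((hG _ a1).normal q h).1, (hG _ a1).big q h⟩
      refine ⟨m * ∏ q ∈ insert z.2 (Q z.1), q, Nat.mul_pos hm1
        (Finset.prod_pos fun q h => (hpr q h).1.pos), ?_⟩
      rw [P.tot_val _ m fun q h => ⟨(hpr q h).1, fun hd => ?_⟩, hm3]
      · simp only
        rw [← hval z hz1]
        unfold val
        rw [Finset.prod_insert hnot]; ring
      · have := hm2 q (Nat.mem_primeFactors.mpr ⟨(hpr q h).1, hd, by omega⟩)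
        have := (hpr q h).2
        omega
    · by_contra hne
      exact (Finset.mem_filter.mp hz').2 ⟨z, (Finset.mem_filter.mp hz).1, hne, h⟩
  have hPPc : (PP.card : ℝ) ≤ (tots t).card + t * exp (-(σ : ℝ)) * eps σ := by
    have a1 := Finset.card_filter_add_card_filter_not (s := PP) coll
    have a2 : (PP.card : ℝ) = (PP.filter coll).card + (PP.filter fun z => ¬ coll z).card := by
      exact_mod_cast a1.symm
    have a3 : ((PP.filter fun z => ¬ coll z).card : ℝ) ≤ (tots t).card := by exact_mod_cast hRest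
    linarith
  have hPPs : (PP.card : ℝ) = ∑ d ∈ DD B x, ((Pn d).card : ℝ) := by
    rw [hPP, Finset.card_sigma]; push_cast; rfl
  have hDc : ((DD B x).card : ℝ) ≤ x ^ (1 / 10 : ℝ) := by
    have a1 : (DD B x).card ≤ ⌊x ^ (1 / 10 : ℝ)⌋₊ := by
      refine (Finset.card_filter_le _ _).trans ?_
      simp
    exact le_trans (by exact_mod_cast a1) (Nat.floor_le (by positivity))
  simp only [hpc]
  refine (Finset.sum_le_sum hsplit).trans ?_
  rw [Finset.sum_add_distrib, Finset.sum_add_distrib, ← hPPs, Finset.sum_const, nsmul_eq_mul]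
  have f1 : ((DD B x).card : ℝ) * (2 * √x) ≤ η / 3 * x / log x :=
    (mul_le_mul_of_nonneg_right hDc (by positivity)).trans n3
  have hxl : 0 ≤ x / log x := by positivity
  have f2 : ∑ d ∈ DD B x, 45 * (t / d * exp (-((σ : ℝ) - 22)) * eps ((σ : ℝ) - 22)) ≤
      η / 3 * (x / log x) := by
    have e : ∑ d ∈ DD B x, 45 * (t / d * exp (-((σ : ℝ) - 22)) * eps ((σ : ℝ) - 22)) =
        45 * t * exp (-((σ : ℝ) - 22)) * eps ((σ : ℝ) - 22) * ∑ d ∈ DD B x, (1 : ℝ) / d := by
      rw [Finset.mul_sum]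
      exact Finset.sum_congr rfl fun d _ => by ring
    rw [e]
    have a1 : exp (-((σ : ℝ) - 22)) ≤ exp 34 / log x := by
      have : exp (-((σ : ℝ) - 22)) = exp 22 * exp (-(σ : ℝ)) := by rw [← exp_add]; congr 1; ring
      rw [this, show (34 : ℝ) = 22 + 12 by norm_num, exp_add, mul_div_assoc]
      exact mul_le_mul_of_nonneg_left hexσ (exp_pos _).le
    calc 45 * t * exp (-((σ : ℝ) - 22)) * eps ((σ : ℝ) - 22) * ∑ d ∈ DD B x, (1 : ℝ) / d
        ≤ 45 * (c * x) * (exp 34 / log x) * eps ((σ : ℝ) - 22) * R := by gcongr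
      _ = (45 * c * exp 34 * eps ((σ : ℝ) - 22) * R) * (x / log x) := by ring
      _ ≤ _ := mul_le_mul_of_nonneg_right hkey hxl
  have f3 : t * exp (-(σ : ℝ)) * eps σ ≤ η / 3 * (x / log x) := by
    have a1 : eps σ ≤ eps ((σ : ℝ) - 22) := lower_eps_anti (by linarith) (by linarith)
    have a2 : exp 12 ≤ exp 34 := exp_le_exp.mpr (by norm_num)
    have a3 : 0 ≤ eps σ := (exp_pos _).le
    have a4 : c * exp 34 * eps ((σ : ℝ) - 22) ≤ 45 * c * exp 34 * eps ((σ : ℝ) - 22) * R := by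
      have : 0 ≤ c * exp 34 * eps ((σ : ℝ) - 22) := by positivity
      nlinarith
    calc t * exp (-(σ : ℝ)) * eps σ ≤ (c * x) * (exp 34 / log x) * eps ((σ : ℝ) - 22) := by
          gcongr
          exact hexσ.trans (div_le_div_of_nonneg_right a2 hlx.le)
      _ = (c * exp 34 * eps ((σ : ℝ) - 22)) * (x / log x) := by ring
      _ ≤ _ := mul_le_mul_of_nonneg_right (a4.trans hkey) hxl
  have e1 : η / 3 * x / log x = η / 3 * (x / log x) := by ring
  have e2 : η * x / log x = 3 * (η / 3 * (x / log x)) := by ring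
  rw [e2]
  rw [e1] at f1
  linarith

end Vale.Agent.P031
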