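import Vale.Agent.P031.Defs

namespace Vale.Agent.P031

open Finset Filter Real

lemma normal_moment (F : Facts) (b T : ℕ) (θ E D : ℝ) (hθ1 : -(1 / 2) ≤ θ) (hθ2 : θ ≤ 1 / 2)
    (hD : θ * ∑ l ∈ (blkLe b).filter (fun l => blk l < T), (1 : ℝ) / l ≤ D) (S : Finset ℕ)
    (hS : ∀ a ∈ S, a ≠ 0 ∧ a.primeFactors ⊆ blkLe b ∧ E ≤ (NN T a : ℝ) * log (1 + θ)) :
    ∑ a ∈ S, (1 : ℝ) / a ≤ exp ((b : ℝ) + 10 + D - E) := by
  have hz : 0 < 1 + θ := by linarith
  let g : ℕ → ℝ := fun l => if blk l < T then 1 + θ else 1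
  have hP : ∀ l ∈ blkLe b, l.Prime ∧ blk l ≤ b := fun l hl => (mem_filter.1 hl).2
  have hg : ∀ l, 0 ≤ g l ∧ g l ≤ 3 / 2 := by
    intro l
    simp only [g]
    split_ifs <;> constructor <;> linarith
  have h1 := F.euler g (blkLe b) S (fun l hl => ⟨(hP l hl).1, (hg l).1, by
    have : (2 : ℝ) ≤ l := by exact_mod_cast (hP l hl).1.two_le
    linarith [(hg l).2]⟩) (fun a ha => ⟨(hS a ha).1, (hS a ha).2.1⟩)
  have h2 : ∑ l ∈ blkLe b, (g l / l + 4 * (g l / l) ^ 2) ≤ (b : ℝ) + 10 + D := by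
    have a1 : ∑ l ∈ blkLe b, g l / l = ∑ l ∈ blkLe b, (1 : ℝ) / l +
        θ * ∑ l ∈ (blkLe b).filter (fun l => blk l < T), (1 : ℝ) / l := by
      rw [sum_filter, mul_sum, ← sum_add_distrib]
      refine sum_congr rfl fun l _ => ?_
      simp only [g]
      split_ifs <;> ring
    have a2 := F.sum_lt_le (b + 1) (blkLe b) fun l hl => ⟨(hP l hl).1, by have := (hP l hl).2; omega⟩
    have a3 := F.sum_sq (blkLe b) 1 le_rfl fun l hl => (hP l hl).1.one_lt
    have a4 : ∑ l ∈ blkLe b, 4 * (g l / l) ^ 2 ≤ 9 * ∑ l ∈ blkLe b, (1 / (l : ℝ)) ^ 2 := by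
      rw [mul_sum]
      refine sum_le_sum fun l _ => ?_
      have : g l / l = g l * (1 / l) := by ring
      rw [this, mul_pow]
      have h3 : g l ^ 2 ≤ (3 / 2) ^ 2 := pow_le_pow_left₀ (hg l).1 (hg l).2 2
      nlinarith [sq_nonneg (1 / (l : ℝ))]
    rw [sum_add_distrib, a1]
    push_cast at a2 a3
    linarith
  calc ∑ a ∈ S, (1 : ℝ) / a ≤ ∑ a ∈ S, exp (-E) * (cm g a / a) := by
        refine sum_le_sum fun a ha => ?_
        rw [← mul_div_assoc]
        apply div_le_div_of_nonneg_right _ (Nat.cast_nonneg _)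
        rw [cm_ite, ← exp_log (pow_pos hz _), log_pow, ← exp_add]
        apply one_le_exp
        linarith [(hS a ha).2.2]
    _ ≤ exp (-E) * exp ((b : ℝ) + 10 + D) := by
        rw [← mul_sum]
        exact mul_le_mul_of_nonneg_left (h1.trans (exp_le_exp.2 h2)) (exp_pos _).le
    _ = _ := by
        rw [← exp_add]
        congr 1
        ring

lemma normal_log_ge {x : ℝ} (hx : 0 ≤ x) : x - x ^ 2 ≤ log (1 + x) := by
  have h := one_sub_inv_le_log_of_pos (show 0 < 1 + x by linarith)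
  refine le_trans ?_ h
  have : 1 - (1 + x)⁻¹ = x / (1 + x) := by field_simp; ring
  rw [this, le_div_iff₀ (by linarith)]
  nlinarith [pow_nonneg hx 3]

lemma normal_log_ge' {x : ℝ} (hx : 0 ≤ x) (hx' : x ≤ 1 / 4) : -(x + x ^ 2) ≤ log (1 + -x) := by
  have h := Real.abs_log_sub_add_sum_range_le (x := x) (by rw [abs_of_nonneg hx]; linarith) 2
  rw [abs_of_nonneg hx] at h
  have h2 := (abs_le.1 h).1
  simp only [sum_range_succ, range_zero, sum_empty, Nat.cast_zero, zero_add, pow_one, div_one,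
    Nat.cast_one] at h2
  have h3 : x ^ (2 + 1) / (1 - x) ≤ x ^ 2 / 2 := by
    rw [div_le_iff₀ (by linarith)]
    nlinarith [mul_nonneg (pow_nonneg hx 2) (show 0 ≤ 1 - 3 * x by linarith)]
  rw [← sub_eq_add_neg]
  norm_num at h2 h3
  linarith

lemma normal_sum_union (s t : Finset ℕ) (f : ℕ → ℝ) (hf : ∀ a, 0 ≤ f a) :
    ∑ a ∈ s ∪ t, f a ≤ ∑ a ∈ s, f a + ∑ a ∈ t, f a := by
  rw [← sum_union_inter]
  have : 0 ≤ ∑ a ∈ s ∩ t, f a := sum_nonneg fun a _ => hf a
  linarith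

lemma normal_sum_biUnion (s : Finset ℕ) (t : ℕ → Finset ℕ) (f : ℕ → ℝ) (hf : ∀ a, 0 ≤ f a) :
    ∑ a ∈ s.biUnion t, f a ≤ ∑ i ∈ s, ∑ a ∈ t i, f a := by
  induction s using Finset.induction_on with
  | empty => simp
  | insert i s hi ih =>
    rw [biUnion_insert, sum_insert hi]
    exact (normal_sum_union _ _ f hf).trans (by linarith)

lemma normal_dev (F : Facts) (b T : ℕ) (hT : T ≤ b + 1) (u : ℝ) (hu : 2 ≤ u) (hb : (b : ℝ) = u ^ 3)
    (S : Finset ℕ) (hS : ∀ a ∈ S, a ≠ 0 ∧ a.primeFactors ⊆ blkLe b) :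
    (∑ a ∈ S.filter (fun a => (T : ℝ) + u ^ 2 - 1 < NN T a), (1 : ℝ) / a ≤
      exp ((b : ℝ) + 11 - u / 4)) ∧
    (∑ a ∈ S.filter (fun a => (NN T a : ℝ) < T - u ^ 2), (1 : ℝ) / a ≤
      exp ((b : ℝ) + 11 - u / 4)) := by
  have hu0 : 0 < u := by linarith
  set η : ℝ := 1 / (2 * u) with hη
  have hη0 : 0 ≤ η := by positivity
  have hη4 : η ≤ 1 / 4 := by
    rw [hη]
    apply div_le_div_of_nonneg_left <;> linarith
  have hη1 : η ≤ 1 / 2 := by linarith
  have hηu : η * u = 1 / 2 := by rw [hη]; field_simp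
  have hT' : (T : ℝ) ≤ u ^ 3 + 1 := by rw [← hb]; exact_mod_cast hT
  have hT0 : (0 : ℝ) ≤ T := Nat.cast_nonneg _
  have e1 : η * u ^ 2 = u / 2 := by rw [pow_two, ← mul_assoc, hηu]; ring
  have e2 : η ^ 2 * u ^ 2 = 1 / 4 := by rw [← mul_pow, hηu]; norm_num
  have e3 : η ^ 2 * u ^ 3 = u / 4 := by rw [pow_succ u 2, ← mul_assoc, e2]; ring
  have e4 : η ^ 2 ≤ 1 / 4 := by nlinarith
  constructor
  · refine (normal_moment F b T η ((T + u ^ 2 - 1) * (η - η ^ 2)) (η * T) (by linarith) hη1 ?_ _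
      ?_).trans (exp_le_exp.2 ?_)
    · apply mul_le_mul_of_nonneg_left _ hη0
      exact F.sum_lt_le T _ fun l hl => ⟨(mem_filter.1 (mem_filter.1 hl).1).2.1, (mem_filter.1 hl).2⟩
    · intro a ha
      obtain ⟨h1, h2⟩ := mem_filter.1 ha
      refine ⟨(hS a h1).1, (hS a h1).2, ?_⟩
      have h3 : 0 ≤ η - η ^ 2 := by nlinarith
      exact mul_le_mul h2.le (normal_log_ge hη0) h3 (Nat.cast_nonneg _)
    · nlinarith [mul_le_mul_of_nonneg_left hT' (sq_nonneg η)]
  · refine (normal_moment F b T (-η) (-((T - u ^ 2) * (η + η ^ 2))) (-η * (T - 1)) (by linarith)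
      (by linarith) ?_ _ ?_).trans (exp_le_exp.2 ?_)
    · have := F.sum_lt_ge T b hT
      nlinarith
    · intro a ha
      obtain ⟨h1, h2⟩ := mem_filter.1 ha
      refine ⟨(hS a h1).1, (hS a h1).2, ?_⟩
      have h3 := normal_log_ge' hη0 hη4
      have h4 : (0 : ℝ) ≤ NN T a := Nat.cast_nonneg _
      have h5 : 0 ≤ η + η ^ 2 := by positivity
      nlinarith [mul_le_mul_of_nonneg_left h3 h4, mul_le_mul_of_nonneg_right h2.le h5]
    · nlinarith [mul_le_mul_of_nonneg_left hT' (sq_nonneg η)]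

lemma normal_ev1 : ∀ᶠ b : ℕ in atTop, 5 * (b : ℝ) + 101 ≤ (b : ℝ) ^ 2 * exp (-10) / 2 := by
  have h : Tendsto (fun b : ℕ => (b : ℝ) * exp (-10) / 2) atTop atTop :=
    (tendsto_natCast_atTop_atTop.atTop_mul_const (exp_pos _)).atTop_div_const (by norm_num)
  filter_upwards [h.eventually_ge_atTop 106, eventually_ge_atTop 1] with b h1 h2
  have : (1 : ℝ) ≤ b := by exact_mod_cast h2
  nlinarith

lemma normal_ev2 : ∀ᶠ b : ℕ in atTop, 3 ≤ exp b / (b : ℝ) ^ 2 :=
  ((tendsto_exp_div_pow_atTop 2).comp tendsto_natCast_atTop_atTop).eventually_ge_atTop 3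

lemma normal_ev3 (C : ℕ) : ∀ᶠ b : ℕ in atTop, 4 * ((b : ℝ) + 2) * (b : ℝ) ^ C * exp 11 ≤
    exp ((b : ℝ) ^ (1 / 3 : ℝ) / 4 - (b : ℝ) ^ (1 / 4 : ℝ)) := by
  have h1 := (isLittleO_log_rpow_atTop (show (0 : ℝ) < 1 / 3 by norm_num)).bound
    (show (0 : ℝ) < 1 / (12 * (C + 1)) by positivity)
  have h2 : Tendsto (fun x : ℝ => x ^ (1 / 12 : ℝ)) atTop atTop := tendsto_rpow_atTop (by norm_num)
  have h3 : Tendsto (fun x : ℝ => x ^ (1 / 3 : ℝ)) atTop atTop := tendsto_rpow_atTop (by norm_num)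
  have h4 := (h1.and (h2.eventually_ge_atTop 12)).and
    ((h3.eventually_ge_atTop (12 * 14)).and (eventually_ge_atTop 2))
  filter_upwards [tendsto_natCast_atTop_atTop.eventually h4] with b ⟨⟨a1, a2⟩, a3, a4⟩
  have hb : (0 : ℝ) < b := by linarith
  have hu : 0 ≤ (b : ℝ) ^ (1 / 3 : ℝ) := by positivity
  rw [norm_eq_abs, norm_eq_abs, abs_of_nonneg hu, abs_of_nonneg (log_nonneg (by linarith))] at a1
  have a5 : (b : ℝ) ^ (1 / 3 : ℝ) = (b : ℝ) ^ (1 / 4 : ℝ) * (b : ℝ) ^ (1 / 12 : ℝ) := by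
    rw [← rpow_add hb]
    norm_num
  have a6 : 12 * (b : ℝ) ^ (1 / 4 : ℝ) ≤ (b : ℝ) ^ (1 / 3 : ℝ) := by
    rw [a5, mul_comm]
    exact mul_le_mul_of_nonneg_left a2 (by positivity)
  have a7 : (C + 1) * log b ≤ (b : ℝ) ^ (1 / 3 : ℝ) / 12 := by
    have := mul_le_mul_of_nonneg_left a1 (show (0 : ℝ) ≤ C + 1 by positivity)
    refine this.trans (le_of_eq ?_)
    field_simp
  have a8 : (8 : ℝ) ≤ exp 3 := by
    have := add_one_le_exp (1 : ℝ)
    have h5 : exp 3 = exp 1 ^ 3 := by rw [← exp_nat_mul]; norm_num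
    rw [h5]
    have : (2 : ℝ) ^ 3 ≤ exp 1 ^ 3 := pow_le_pow_left₀ (by norm_num) (by linarith) 3
    linarith
  calc 4 * ((b : ℝ) + 2) * (b : ℝ) ^ C * exp 11 ≤ exp 3 * b * (b : ℝ) ^ C * exp 11 := by
        have : 4 * ((b : ℝ) + 2) ≤ exp 3 * b := by nlinarith
        gcongr
    _ = exp ((C + 1) * log b + 14) := by
        have : exp ((C + 1) * log b) = (b : ℝ) ^ (C + 1) := by
          rw [← exp_log (pow_pos hb (C + 1)), log_pow]
          push_cast
          rfl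
        rw [exp_add, this, show (14 : ℝ) = 3 + 11 by norm_num, exp_add]
        ring
    _ ≤ _ := exp_le_exp.2 (by linarith)

theorem normal (F : Facts) (S : SieveStmt) : NormalStmt := by
  classical
  obtain ⟨C, b₀, hS⟩ := S
  obtain ⟨b₁, hb₁⟩ := eventually_atTop.1 ((normal_ev1.and normal_ev2).and
    ((normal_ev3 C).and ((eventually_ge_atTop b₀).and (eventually_ge_atTop 11))))
  refine ⟨b₁, fun b hb y hy => ?_⟩
  obtain ⟨⟨v1, v2⟩, v3, v4, v5⟩ := hb₁ b hb
  have hb11 : (11 : ℝ) ≤ b := by exact_mod_cast v5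
  have hb0 : (0 : ℝ) < b := by linarith
  set u : ℝ := (b : ℝ) ^ (1 / 3 : ℝ) with hu
  have hu1 : 1 ≤ u := one_le_rpow (by linarith) (by norm_num)
  have hu3 : (b : ℝ) = u ^ 3 := by
    rw [hu, ← rpow_natCast, ← rpow_mul hb0.le]
    norm_num
  have hu2 : h0 b = u ^ 2 := by
    rw [hu, h0, ← rpow_natCast, ← rpow_mul hb0.le]
    norm_num
  set W : ℝ := exp (exp ((b : ℝ) - 10) / 2) with hW
  have hW2 : 2 ≤ W := by
    have h1 := add_one_le_exp ((b : ℝ) - 10)
    have h2 := add_one_le_exp (exp ((b : ℝ) - 10) / 2)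
    linarith
  have hL : 16 ≤ Lb b := by
    have h1 : exp 3 ≤ Lb b := exp_le_exp.2 v2
    have h2 : exp 3 = exp 1 ^ 3 := by rw [← exp_nat_mul]; norm_num
    have h3 : (2.7 : ℝ) ^ 3 ≤ exp 1 ^ 3 :=
      pow_le_pow_left₀ (by norm_num) (by linarith [exp_one_gt_d9]) 3
    norm_num at h3
    linarith
  let SA := (Icc 1 ⌊y⌋₊).filter fun n : ℕ => W ≤ n ∧ ∀ l ∈ n.primeFactors, (l : ℝ) ≤ Lb b
  let S0 := (Icc 1 ⌊Ub b⌋₊).filter fun a : ℕ => a.primeFactors ⊆ blkLe b
  let Dev := (range (b + 2)).biUnion fun T =>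
    S0.filter (fun a => (T : ℝ) + u ^ 2 - 1 < NN T a) ∪ S0.filter (fun a => (NN T a : ℝ) < T - u ^ 2)
  let SL : ℕ → Finset ℕ := fun a => (range (⌊y / a⌋₊ + 1)).filter fun l : ℕ =>
    l.Prime ∧ Lb b ≤ l ∧ (a * l + 1).Prime
  have hS0 : ∀ a ∈ S0, a ≠ 0 ∧ a.primeFactors ⊆ blkLe b := by
    intro a ha
    obtain ⟨h1, h2⟩ := mem_filter.1 ha
    exact ⟨by have := (mem_Icc.1 h1).1; omega, h2⟩
  have hsub : ((range (⌊y⌋₊ + 2)).filter fun p : ℕ => p.Prime ∧ blk p = b ∧ ¬ Normal p) ⊆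
      SA.image (fun n => n + 1) ∪ Dev.biUnion fun a => (SL a).image fun l => a * l + 1 := by
    intro p hp
    obtain ⟨h1, h2, h3, h4⟩ := mem_filter.1 hp
    have hp2 := h2.two_le
    have h1' : p - 1 ≤ ⌊y⌋₊ := by have := mem_range.1 h1; omega
    have hpc : ((p - 1 : ℕ) : ℝ) = p - 1 := by rw [Nat.cast_sub (by omega)]; simp
    have hpU := F.le_Ub p b hp2 h3.le
    rw [mem_union]
    by_cases hl : ∃ l : ℕ, l.Prime ∧ l ∣ p - 1 ∧ Lb b ≤ l
    · right
      obtain ⟨l, l1, ⟨a, ha⟩, l3⟩ := hl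
      have ha0 : a ≠ 0 := by rintro rfl; omega
      have hl0 := l1.two_le
      have hap : a ≤ p - 1 := by rw [ha]; exact Nat.le_mul_of_pos_left _ (by omega)
      have haS : a ∈ S0 := by
        refine mem_filter.2 ⟨mem_Icc.2 ⟨by omega, Nat.le_floor ?_⟩, fun q hq => ?_⟩
        · have : (a : ℝ) ≤ p := by exact_mod_cast (by omega : a ≤ p)
          linarith
        · have hq1 := Nat.prime_of_mem_primeFactors hq
          have hq2 : q ≤ p := (Nat.le_of_mem_primeFactors hq).trans (by omega)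
          refine mem_filter.2 ⟨mem_range.2 (Nat.lt_succ_of_le (Nat.le_floor ?_)), hq1,
            h3 ▸ blk_mono hq2⟩
          have : (q : ℝ) ≤ p := by exact_mod_cast hq2
          linarith
      have hT : ∃ T : ℕ, T ≤ b + 1 ∧ u ^ 2 < |(NN T (p - 1) : ℝ) - T| := by
        by_contra hc
        push Not at hc
        exact h4 ⟨h2, by rw [h3, hu2]; exact hc, by rw [h3]; exact ⟨l, l1, ⟨a, ha⟩, l3⟩⟩
      obtain ⟨T, hT1, hT2⟩ := hT
      have hpe : a * l + 1 = p := by rw [mul_comm, ← ha]; omega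
      refine mem_biUnion.2 ⟨a, mem_biUnion.2 ⟨T, mem_range.2 (by omega), ?_⟩,
        mem_image.2 ⟨l, mem_filter.2 ⟨mem_range.2 (Nat.lt_succ_of_le (Nat.le_floor ?_)), l1, l3,
          hpe ▸ h2⟩, hpe⟩⟩
      · rw [ha, NN_mul T l1.ne_zero ha0, NN_prime T l1] at hT2
        rcases lt_abs.1 hT2 with h | h
        · refine mem_union_left _ (mem_filter.2 ⟨haS, ?_⟩)
          split_ifs at h <;> push_cast at h <;> linarith
        · refine mem_union_right _ (mem_filter.2 ⟨haS, ?_⟩)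
          split_ifs at h <;> push_cast at h <;> linarith
      · have h5 : ((p - 1 : ℕ) : ℝ) ≤ y := (Nat.le_floor_iff hy).1 h1'
        rw [ha] at h5
        push_cast at h5
        rw [le_div_iff₀ (by positivity)]
        exact h5
    · left
      refine mem_image.2 ⟨p - 1, mem_filter.2 ⟨mem_Icc.2 ⟨by omega, h1'⟩, ?_, fun l hl' => ?_⟩,
        by omega⟩
      · have h5 := F.ge_blk p b hp2 h3.ge
        have h6 : exp (exp ((b : ℝ) - 10)) = W ^ 2 := by
          rw [hW, ← exp_nat_mul]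
          congr 1
          push_cast
          ring
        rw [hpc]
        nlinarith
      · by_contra hc
        exact hl ⟨l, Nat.prime_of_mem_primeFactors hl', Nat.dvd_of_mem_primeFactors hl',
          (not_le.1 hc).le⟩
  have hA : (SA.card : ℝ) ≤ y * exp (-(b : ℝ)) * eps b / 2 := by
    refine (F.smooth (Lb b) W y hL (by linarith) hy).trans ?_
    have e1 : log W / log (Lb b) = (b : ℝ) ^ 2 * exp (-10) / 2 := by
      rw [hW, Lb, log_exp, log_exp, sub_eq_add_neg, exp_add]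
      field_simp
    have e2 : log (log (Lb b)) ≤ b := by
      rw [Lb, log_exp, log_div (exp_pos _).ne' (by positivity), log_exp]
      have := log_nonneg (show (1 : ℝ) ≤ (b : ℝ) ^ 2 by nlinarith)
      linarith
    have e3 : (b : ℝ) ^ (1 / 4 : ℝ) ≤ b := by
      conv_rhs => rw [← rpow_one b]
      exact rpow_le_rpow_of_exponent_le (by linarith) (by norm_num)
    have e4 : exp (-1) ≤ 1 / 2 := by
      rw [exp_neg, inv_eq_one_div]
      apply div_le_div_of_nonneg_left <;> linarith [add_one_le_exp (1 : ℝ)]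
    rw [mul_assoc, mul_div_assoc]
    apply mul_le_mul_of_nonneg_left _ hy
    calc _ ≤ exp (-(b : ℝ) + -((b : ℝ) ^ (1 / 4 : ℝ)) + -1) := exp_le_exp.2 (by rw [e1]; linarith)
      _ = exp (-(b : ℝ)) * eps b * exp (-1) := by rw [exp_add, exp_add, eps]
      _ ≤ _ := by
        have : 0 ≤ exp (-(b : ℝ)) * eps b := by rw [eps]; positivity
        nlinarith
  have hDev : ∑ a ∈ Dev, (1 : ℝ) / a ≤ 2 * ((b : ℝ) + 2) * exp ((b : ℝ) + 11 - u / 4) := by
    have hu2' : 2 ≤ u := by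
      by_contra hc
      have : u ^ 3 ≤ 2 ^ 3 := pow_le_pow_left₀ (by linarith) (not_le.1 hc).le 3
      linarith
    refine (normal_sum_biUnion _ _ _ (fun _ => by positivity)).trans ?_
    refine (sum_le_card_nsmul _ _ (2 * exp ((b : ℝ) + 11 - u / 4)) fun T hT => ?_).trans ?_
    · have := normal_dev F b T (by have := mem_range.1 hT; omega) u hu2' hu3 S0 hS0
      exact (normal_sum_union _ _ _ (fun _ => by positivity)).trans (by linarith)
    · rw [card_range, nsmul_eq_mul]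
      push_cast
      apply le_of_eq
      ring
  have hB : ((Dev.biUnion fun a => (SL a).image fun l => a * l + 1).card : ℝ) ≤
      y * exp (-(b : ℝ)) * eps b / 2 := by
    have hU : 0 ≤ Ub b := (exp_pos _).le
    calc _ ≤ ∑ a ∈ Dev, (((SL a).image fun l => a * l + 1).card : ℝ) := by
          exact_mod_cast card_biUnion_le
      _ ≤ ∑ a ∈ Dev, y * (exp (-(2 * b : ℝ)) * (b : ℝ) ^ C) * (1 / a) := by
          refine sum_le_sum fun a ha => ?_
          obtain ⟨T, -, hT⟩ := mem_biUnion.1 ha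
          have haS : a ∈ S0 := by
            rcases mem_union.1 hT with h | h <;> exact (mem_filter.1 h).1
          obtain ⟨h1, h2⟩ := mem_Icc.1 (mem_filter.1 haS).1
          have h3 : (a : ℝ) ≤ Ub b := (Nat.le_floor_iff hU).1 h2
          have h4 := (hS b v4 a a h1 h1 h3 h3 (y / a) (by positivity)).1
          have h5 : ((((SL a).image fun l => a * l + 1).card : ℕ) : ℝ) ≤ (SL a).card := by
            exact_mod_cast card_image_le
          refine h5.trans (h4.trans (le_of_eq ?_))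
          ring
      _ ≤ y * (exp (-(2 * b : ℝ)) * (b : ℝ) ^ C) *
            (2 * ((b : ℝ) + 2) * exp ((b : ℝ) + 11 - u / 4)) := by
          rw [← mul_sum]
          exact mul_le_mul_of_nonneg_left hDev (by positivity)
      _ = y * exp (-(b : ℝ)) * exp (-(u / 4)) / 2 *
            (4 * ((b : ℝ) + 2) * (b : ℝ) ^ C * exp 11) := by
          have e1 : exp (-(2 * b : ℝ)) * exp ((b : ℝ) + 11 - u / 4) =
              exp (-(b : ℝ)) * exp (-(u / 4)) * exp 11 := by
            rw [← exp_add, ← exp_add, ← exp_add]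
            congr 1
            ring
          linear_combination (y * (b : ℝ) ^ C * 2 * (b + 2)) * e1
      _ ≤ y * exp (-(b : ℝ)) * exp (-(u / 4)) / 2 * exp (u / 4 - (b : ℝ) ^ (1 / 4 : ℝ)) :=
          mul_le_mul_of_nonneg_left v3 (by positivity)
      _ = _ := by
          have e1 : exp (-(u / 4)) * exp (u / 4 - (b : ℝ) ^ (1 / 4 : ℝ)) = eps b := by
            rw [← exp_add, eps]
            congr 1
            ring
          linear_combination (y * exp (-(b : ℝ)) / 2) * e1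
  have h1 := card_le_card hsub
  have h2 := card_union_le (SA.image (fun n => n + 1))
    (Dev.biUnion fun a => (SL a).image fun l => a * l + 1)
  have h3 := card_image_le (s := SA) (f := fun n => n + 1)
  have h4 : (((range (⌊y⌋₊ + 2)).filter fun p : ℕ => p.Prime ∧ blk p = b ∧ ¬ Normal p).card : ℝ) ≤
      SA.card + (Dev.biUnion fun a => (SL a).image fun l => a * l + 1).card := by
    exact_mod_cast (by omega)
  linarith

end Vale.Agent.P031
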