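import Vale.Agent.P031.Defs
import Vale.Agent.P031.WI

namespace Vale.Agent.P031

theorem pnt : PNTStmt := pnt_pi

end Vale.Agent.P031
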