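import Vale.Agent.P031.Defs

/-! Combinatorics of `Phi`. -/

namespace Vale.Agent.P031

open Finset Filter Real

lemma prof_aa_nonneg (r : ℕ) (hr : 1 ≤ r) : 0 ≤ aa r := by
  have h1 : (1 : ℝ) ≤ r := by exact_mod_cast hr
  have h2 : log 2 ≤ log ((r : ℝ) + 1) := log_le_log (by norm_num) (by linarith)
  have h3 := Real.one_sub_inv_le_log_of_pos (show 0 < ((r : ℝ) + 1) / r by positivity)
  rw [log_div (by positivity) (by positivity), inv_div] at h3
  have h4 : (r : ℝ) * (1 - r / (r + 1)) = 1 - 1 / (r + 1) := by field_simp; ring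
  have h5 : 1 / ((r : ℝ) + 1) ≤ 1 / 2 := one_div_le_one_div_of_le (by norm_num) (by linarith)
  have h6 := mul_le_mul_of_nonneg_left h3 (show (0 : ℝ) ≤ r by positivity)
  have h7 := log_two_gt_d9
  unfold aa
  nlinarith

lemma prof_aa_le (r : ℕ) : aa r ≤ log ((r : ℝ) + 1) := by
  rcases Nat.eq_zero_or_pos r with rfl | hr
  · simp [aa]
  have h1 : (0 : ℝ) < r := by exact_mod_cast hr
  have h3 := Real.log_le_sub_one_of_pos (show 0 < ((r : ℝ) + 1) / r by positivity)
  rw [log_div (by positivity) (by positivity)] at h3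
  have h4 : (r : ℝ) * ((r + 1) / r - 1) = 1 := by field_simp; ring
  have h6 := mul_le_mul_of_nonneg_left h3 h1.le
  unfold aa
  nlinarith

lemma prof_sum_ind (b σ : ℕ) (h : b ≤ σ) (c : ℝ) :
    ∑ t ∈ range σ, (if t < b then c else 0) = c * b := by
  rw [← sum_filter, sum_const, nsmul_eq_mul, mul_comm]
  congr 2
  rw [show (range σ).filter (· < b) = range b by ext t; simp; omega, card_range]

lemma prof_phi_eq (Q : Finset ℕ) (σ : ℕ) (h : ∀ q ∈ Q, blk q ≤ σ) :
    Phi Q = ∑ t ∈ range σ, (psi ((zz Q t : ℝ) + 1) + 1) := by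
  induction Q using Finset.induction_on_min with
  | empty => simp [Phi, zz, psi]
  | insert a s ha ih =>
    have has : a ∉ s := fun h => lt_irrefl _ (ha a h)
    have e1 : Phi (insert a s) = aa (s.card + 1) * blk a + Phi s := by
      unfold Phi
      rw [sum_insert has]
      congr 1
      · rw [filter_true_of_mem, card_insert_of_notMem has]
        intro x hx
        rcases mem_insert.1 hx with rfl | hx
        · exact le_rfl
        · exact (ha x hx).le
      · refine sum_congr rfl fun p hp => ?_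
        rw [filter_insert, if_neg (not_le.2 (ha p hp))]
    rw [e1, ih fun q hq => h q (mem_insert_of_mem hq),
      ← prof_sum_ind (blk a) σ (h a (mem_insert_self _ _)), ← sum_add_distrib]
    refine sum_congr rfl fun t _ => ?_
    unfold zz
    rw [filter_insert]
    split_ifs with ht
    · rw [filter_true_of_mem fun x hx => ht.trans_le (blk_mono (ha x hx).le),
        card_insert_of_notMem has]
      unfold aa psi
      push_cast
      ring
    · simp

lemma prof_sum_zz (Q : Finset ℕ) (σ : ℕ) (h : ∀ q ∈ Q, blk q ≤ σ) :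
    ∑ t ∈ range σ, (zz Q t : ℝ) = ∑ q ∈ Q, (blk q : ℝ) := by
  unfold zz
  simp only [card_filter]
  push_cast
  rw [sum_comm]
  exact sum_congr rfl fun q hq => by rw [prof_sum_ind _ _ (h q hq), one_mul]

lemma prof_psi_mono (u v : ℝ) (hu : 1 ≤ u) (huv : u ≤ v) : psi u ≤ psi v := by
  have hu0 : 0 < u := by linarith
  have hv0 : 0 < v := by linarith
  have h3 := Real.one_sub_inv_le_log_of_pos (show 0 < v / u by positivity)
  rw [log_div hv0.ne' hu0.ne', inv_div] at h3
  have h4 : v * (1 - u / v) = v - u := by field_simp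
  have h6 := mul_le_mul_of_nonneg_left h3 hv0.le
  have h7 := mul_nonneg (sub_nonneg.2 huv) (log_nonneg hu)
  unfold psi
  nlinarith

lemma prof_tele (lam : ℕ → ℝ) (t σ : ℕ) :
    ∑ T ∈ range σ, (if t < T + 1 then lam T - lam (T + 1) else 0) =
      if t ≤ σ then lam t - lam σ else 0 := by
  induction σ with
  | zero => by_cases h : t = 0 <;> simp [h]
  | succ σ ih =>
    rw [sum_range_succ, ih]
    rcases lt_trichotomy t (σ + 1) with h | h | h
    · rw [if_pos (by omega), if_pos h, if_pos h.le]; ring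
    · rw [if_neg (by omega), if_neg (by omega), if_pos h.le, h]; ring
    · rw [if_neg (by omega), if_neg (by omega), if_neg (by omega)]; ring

lemma prof_abel_id (lam : ℕ → ℝ) (σ n : ℕ) (h : ∀ t, σ ≤ t → lam t = 0) :
    (n.factorization.sum fun l e => (e : ℝ) * lam (blk l)) =
      ∑ T ∈ range σ, (lam T - lam (T + 1)) * (NN (T + 1) n : ℝ) := by
  have e1 : ∀ t, lam t = ∑ T ∈ range σ, (if t < T + 1 then lam T - lam (T + 1) else 0) := by
    intro t
    rw [prof_tele, h σ le_rfl, sub_zero]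
    split_ifs with ht
    · rfl
    · exact h t (by omega)
  simp only [NN_eq_sum]
  push_cast
  simp only [mul_sum]
  rw [sum_comm]
  refine sum_congr rfl fun l _ => ?_
  show (n.factorization l : ℝ) * lam (blk l) = _
  rw [e1 (blk l), mul_sum]
  refine sum_congr rfl fun T _ => ?_
  split_ifs <;> ring

lemma prof_nn_le (p T : ℕ) (hp : Normal p) :
    (NN T (p - 1) : ℝ) ≤ min (T : ℝ) (blk p + 1) + h0 (blk p) := by
  by_cases hT : T ≤ blk p + 1
  · rw [min_eq_left (by exact_mod_cast hT)]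
    linarith [(abs_le.1 (hp.2.1 T hT)).2]
  · have e : NN T (p - 1) = NN (blk p + 1) (p - 1) := by
      rw [NN_eq_sum, NN_eq_sum]
      refine sum_congr rfl fun l hl => ?_
      have : blk l ≤ blk p := blk_mono ((Nat.le_of_mem_primeFactors hl).trans (Nat.sub_le _ _))
      rw [if_pos (by omega), if_pos (by omega)]
    rw [min_eq_right (by exact_mod_cast (not_le.1 hT).le), e]
    have := (abs_le.1 (hp.2.1 (blk p + 1) le_rfl)).2
    push_cast at this
    linarith

lemma prof_nn_ge (p T : ℕ) (hp : Normal p) :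
    min (T : ℝ) (blk p) - h0 (blk p) ≤ (NN T (p - 1) : ℝ) := by
  by_cases hT : T ≤ blk p + 1
  · linarith [(abs_le.1 (hp.2.1 T hT)).1, min_le_left (T : ℝ) (blk p)]
  · have h1 : (NN (blk p) (p - 1) : ℝ) ≤ NN T (p - 1) := by
      exact_mod_cast NN_mono (by omega) _
    linarith [(abs_le.1 (hp.2.1 (blk p) (Nat.le_succ _))).1, min_le_right (T : ℝ) (blk p)]

lemma prof_nn_val (Q : Finset ℕ) (T : ℕ) (h : ∀ q ∈ Q, q.Prime) :
    NN T (val Q) = ∑ q ∈ Q, NN T (q - 1) := by
  induction Q using Finset.induction_on with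
  | empty => simp [val, NN_one]
  | insert a s ha ih =>
    have hs : ∀ q ∈ s, q.Prime := fun q hq => h q (mem_insert_of_mem hq)
    have h2 := (h a (mem_insert_self _ _)).two_le
    rw [sum_insert ha, ← ih hs, ← NN_mul T (by omega) (val_pos hs).ne']
    unfold val
    rw [prod_insert ha]

lemma prof_nn_log (T n : ℕ) (hn : n ≠ 0) : (NN T n : ℝ) ≤ 2 * log n := by
  have h1 : cm (fun l => (l : ℝ)) n = n := by
    unfold cm
    conv_rhs => rw [← Nat.prod_factorization_pow_eq_self hn]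
    simp [Finsupp.prod]
  have h2 : (2 : ℝ) ^ NN T n ≤ n := by
    rw [← cm_ite, ← h1]
    refine cm_le_cm fun l hl => ?_
    have : (2 : ℝ) ≤ l := by exact_mod_cast (Nat.prime_of_mem_primeFactors hl).two_le
    split_ifs
    · exact ⟨by norm_num, this⟩
    · exact ⟨by norm_num, by linarith⟩
  have h3 := log_le_log (by positivity) h2
  rw [log_pow] at h3
  have h4 := log_two_gt_d9
  have h5 : (0 : ℝ) ≤ NN T n := Nat.cast_nonneg _
  nlinarith

lemma prof_good_lower (B : ℕ) (Q : Finset ℕ) (p : ℕ) (h : Good B Q) :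
    Good B (Q.filter fun q => q < p) := by
  refine ⟨fun q hq => h.normal q (mem_filter.1 hq).1, fun q hq => h.big q (mem_filter.1 hq).1,
    fun q hq => ?_⟩
  have : (Q.filter fun q => q < p).filter (fun r => r < q) = Q.filter fun r => r < q := by
    ext r
    have := (mem_filter.1 hq).2
    simp only [mem_filter]
    exact ⟨fun h => ⟨h.1.1, h.2⟩, fun h => ⟨⟨h.1, by omega⟩, h.2⟩⟩
  rw [this]
  exact h.con q (mem_filter.1 hq).1

lemma prof_phi_image {k : ℕ} (e : Fin k ↪o ℕ) (n : ℕ) (hn : n ≤ k) :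
    Phi ((univ.filter fun i : Fin k => (i : ℕ) < n).image e) = PhiV (fun i => blk (e i)) n := by
  unfold Phi PhiV
  rw [sum_image fun x _ y _ h => e.injective h, sum_filter]
  refine sum_congr rfl fun i _ => ?_
  split_ifs with hi
  · congr 2
    rw [filter_image, card_image_of_injective _ e.injective,
      ← card_image_of_injective _ Fin.val_injective, ← Nat.card_Ico]
    congr 1
    ext m
    simp only [mem_image, mem_filter, mem_univ, true_and, e.le_iff_le, mem_Ico]
    constructor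
    · rintro ⟨j, ⟨h1, h2⟩, rfl⟩
      exact ⟨h2, h1⟩
    · rintro ⟨h1, h2⟩
      exact ⟨⟨m, by omega⟩, ⟨h2, h1⟩, rfl⟩
  · rfl

lemma prof_filter (Q : Finset ℕ) {k : ℕ} (h : Q.card = k) (p : ℕ → Prop) [DecidablePred p] :
    Q.filter p = (univ.filter fun i => p (Q.orderEmbOfFin h i)).image (Q.orderEmbOfFin h) := by
  rw [← filter_image, image_orderEmbOfFin_univ]

lemma prof_vec_phi (Q : Finset ℕ) (k : ℕ) (h : Q.card = k) :
    Phi Q = PhiV (vec Q h) k ∧
      ∀ j : Fin k, Phi (Q.filter fun q => q < Q.orderEmbOfFin h j) = PhiV (vec Q h) j := by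
  constructor
  · have := prof_phi_image (Q.orderEmbOfFin h) k le_rfl
    rwa [filter_true_of_mem fun i _ => i.2, image_orderEmbOfFin_univ] at this
  · intro j
    have := prof_phi_image (Q.orderEmbOfFin h) j j.2.le
    rw [show vec Q h = fun i => blk (Q.orderEmbOfFin h i) from rfl, ← this]
    congr 1
    rw [prof_filter Q h]
    congr 1
    ext i
    simp

lemma prof_hh_le (b : ℝ) (hb : 810000 ≤ b) : hh b ≤ b / 30 := by
  have hb0 : 0 < b := by linarith
  have h1 : (30 : ℝ) ≤ b ^ (1 / 4 : ℝ) := by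
    have : (30 : ℝ) = (30 ^ 4 : ℝ) ^ ((4 : ℕ)⁻¹ : ℝ) :=
      (Real.pow_rpow_inv_natCast (by norm_num) (by norm_num)).symm
    rw [this, show ((4 : ℕ)⁻¹ : ℝ) = 1 / 4 by norm_num]
    exact rpow_le_rpow (by norm_num) (by linarith) (by norm_num)
  have h2 : b = b ^ (3 / 4 : ℝ) * b ^ (1 / 4 : ℝ) := by
    rw [← rpow_add hb0]; norm_num
  have h3 : 0 ≤ b ^ (3 / 4 : ℝ) := by positivity
  unfold hh
  nlinarith

lemma prof_vec_growth {k B : ℕ} (hB : 810000 ≤ B) (b : Fin k → ℕ) (hmono : Monotone b)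
    (hbig : ∀ i, B ≤ b i) (hcon : ∀ j : Fin k, PhiV b j ≤ b j + hh (b j)) :
    ∀ (j : ℕ) (hj : j < k), (B : ℝ) * (5 / 4) ^ (j / 2) ≤ b ⟨j, hj⟩ := by
  intro j
  induction j using Nat.twoStepInduction with
  | zero => intro hj; simpa using hbig _
  | one => intro hj; simpa using hbig _
  | more j ih _ =>
    intro hj
    have h1 := ih (by omega)
    have h2 := hcon ⟨j + 2, hj⟩
    have h3 := prof_hh_le (b ⟨j + 2, hj⟩) (by exact_mod_cast hB.trans (hbig _))
    have h4 : aa 2 * b ⟨j, by omega⟩ + aa 1 * b ⟨j + 1, by omega⟩ ≤ PhiV b (j + 2) := by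
      unfold PhiV
      have hne : (⟨j, by omega⟩ : Fin k) ≠ ⟨j + 1, by omega⟩ := by simp
      refine le_trans (le_of_eq ?_) (sum_le_sum_of_subset_of_nonneg
        (subset_univ {⟨j, by omega⟩, ⟨j + 1, by omega⟩}) fun i _ _ => ?_)
      · rw [sum_pair hne]
        simp
      · split_ifs with hi
        · exact mul_nonneg (prof_aa_nonneg _ (by omega)) (Nat.cast_nonneg _)
        · exact le_rfl
    have h5 : (b ⟨j, by omega⟩ : ℝ) ≤ b ⟨j + 1, by omega⟩ := by
      exact_mod_cast hmono (by simp [Fin.le_def])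
    have h6 := mul_le_mul_of_nonneg_left h5 (prof_aa_nonneg 1 le_rfl)
    have h7 : 31 / 24 ≤ aa 2 + aa 1 := by
      have := log_three_gt_d9
      unfold aa
      norm_num
      linarith
    have h8 := mul_le_mul_of_nonneg_right h7 (Nat.cast_nonneg (b ⟨j, by omega⟩) : (0 : ℝ) ≤ _)
    rw [Nat.add_div_right _ (by norm_num), pow_succ]
    simp only at h2
    linarith

lemma prof_growth : ∃ B₀ : ℕ, ∀ B : ℕ, B₀ ≤ B → ∀ (Q : Finset ℕ) (σ : ℝ), 1 ≤ σ → Good B Q →
    (∀ q ∈ Q, (blk q : ℝ) ≤ σ) →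
      (Q.card : ℝ) ≤ 10 * log σ ∧ ∑ q ∈ Q, exp (-(blk q : ℝ)) ≤ 1 := by
  refine ⟨810000, fun B hB Q σ hσ hG hQ => ?_⟩
  obtain ⟨k, hk⟩ : ∃ k, Q.card = k := ⟨_, rfl⟩
  have hB' : (810000 : ℝ) ≤ B := by exact_mod_cast hB
  have hg := prof_vec_growth hB (vec Q hk)
    (fun i j h => blk_mono ((Q.orderEmbOfFin hk).monotone h))
    (fun i => hG.big _ (orderEmbOfFin_mem _ _ _))
    (fun j => by rw [← (prof_vec_phi Q k hk).2 j]; exact hG.con _ (orderEmbOfFin_mem _ _ _))
  constructor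
  · rw [hk]
    rcases Nat.eq_zero_or_pos k with rfl | hk0
    · simpa using log_nonneg hσ
    have h1 := (hg (k - 1) (by omega)).trans (hQ _ (orderEmbOfFin_mem _ _ _))
    have h2 := log_le_log (by positivity) h1
    rw [log_mul (by positivity) (by positivity), log_pow] at h2
    have h3 := Real.one_sub_inv_le_log_of_pos (show (0 : ℝ) < 5 / 4 by norm_num)
    have h4 := Real.one_sub_inv_le_log_of_pos (show (0 : ℝ) < 2 by norm_num)
    have h5 : log 2 ≤ log (B : ℝ) := log_le_log (by norm_num) (by linarith)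
    have h6 : (k : ℝ) ≤ 2 * (((k - 1) / 2 : ℕ) : ℝ) + 2 := by
      exact_mod_cast (show k ≤ 2 * ((k - 1) / 2) + 2 by omega)
    have h7 := mul_le_mul_of_nonneg_left h3 (Nat.cast_nonneg ((k - 1) / 2) : (0 : ℝ) ≤ _)
    norm_num at h4 h7
    linarith
  · have e1 : ∑ q ∈ Q, exp (-(blk q : ℝ)) = ∑ i : Fin k, exp (-(vec Q hk i : ℝ)) := by
      nth_rewrite 1 [← image_orderEmbOfFin_univ Q hk]
      rw [sum_image fun x _ y _ h => (Q.orderEmbOfFin hk).injective h]
      rfl
    have hx0 : 0 ≤ exp (-(1 / 2) : ℝ) := (exp_pos _).le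
    have hx1 : exp (-(1 / 2) : ℝ) ≤ 2 / 3 := by
      rw [exp_neg, inv_le_comm₀ (exp_pos _) (by norm_num)]
      linarith [add_one_le_exp (1 / 2 : ℝ)]
    have e2 : ∀ i : Fin k, exp (-(vec Q hk i : ℝ)) ≤ 1 / 3 * (2 / 3) ^ (i : ℕ) := by
      intro i
      have h1 := hg i i.2
      have h2 := one_add_mul_le_pow (show (-2 : ℝ) ≤ 1 / 4 by norm_num) ((i : ℕ) / 2)
      have h3 : ((i : ℕ) : ℝ) ≤ 2 * (((i : ℕ) / 2 : ℕ) : ℝ) + 1 := by
        exact_mod_cast (show (i : ℕ) ≤ 2 * ((i : ℕ) / 2) + 1 by omega)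
      have h4 : (0 : ℝ) ≤ (((i : ℕ) / 2 : ℕ) : ℝ) := Nat.cast_nonneg _
      have h5 : 2 + ((i : ℕ) : ℝ) * (1 / 2) ≤ vec Q hk i := by
        have := mul_le_mul_of_nonneg_left h2 (show (0 : ℝ) ≤ B by positivity)
        norm_num at this
        have h6 : (vec Q hk ⟨i, i.2⟩ : ℝ) = vec Q hk i := rfl
        nlinarith
      calc exp (-(vec Q hk i : ℝ)) ≤ exp (-2 + (i : ℕ) * (-(1 / 2))) := exp_le_exp.2 (by linarith)
        _ = exp (-2) * exp (-(1 / 2)) ^ (i : ℕ) := by rw [exp_add, exp_nat_mul]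
        _ ≤ 1 / 3 * (2 / 3) ^ (i : ℕ) := by
          refine mul_le_mul ?_ (pow_le_pow_left₀ hx0 hx1 _) (by positivity) (by norm_num)
          rw [exp_neg, inv_le_comm₀ (exp_pos _) (by norm_num)]
          linarith [add_one_le_exp (2 : ℝ)]
    rw [e1]
    refine (sum_le_sum fun i _ => e2 i).trans ?_
    rw [← mul_sum, Fin.sum_univ_eq_sum_range (fun i => (2 / 3 : ℝ) ^ i) k,
      geom_sum_eq (by norm_num)]
    have : (0 : ℝ) ≤ (2 / 3) ^ k := by positivity
    norm_num
    linarith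

lemma prof_profiles (K σ : ℕ) : ∃ Z : Finset (ℕ → ℕ), Z.card ≤ (σ + 1) ^ K ∧
    ∀ Q : Finset ℕ, Q.card ≤ K → (∀ q ∈ Q, blk q ≤ σ) → zz Q ∈ Z := by
  classical
  refine ⟨univ.image fun β : Fin K → Fin (σ + 1) =>
    fun t => (univ.filter fun i => t < (β i : ℕ)).card, card_image_le.trans (by simp), ?_⟩
  intro Q hK hQ
  set e := Q.orderEmbOfFin rfl with he
  refine mem_image.2 ⟨fun i => if h : (i : ℕ) < Q.card then
    ⟨blk (e ⟨i, h⟩), Nat.lt_succ_of_le (hQ _ (orderEmbOfFin_mem _ _ _))⟩ else 0, mem_univ _, ?_⟩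
  funext t
  unfold zz
  rw [prof_filter Q rfl, card_image_of_injective _ (Q.orderEmbOfFin rfl).injective,
    ← card_image_of_injective _ (Fin.castLE_injective hK)]
  congr 1
  ext i
  simp only [mem_filter, mem_univ, true_and, mem_image]
  constructor
  · intro h
    split_ifs at h with hi
    · exact ⟨⟨i, hi⟩, h, rfl⟩
    · simp at h
  · rintro ⟨j, hj, rfl⟩
    rw [dif_pos (show ((Fin.castLE hK j : Fin K) : ℕ) < Q.card from j.2)]
    exact hj

lemma prof_tot_val (Q : Finset ℕ) (m : ℕ) (h : ∀ q ∈ Q, q.Prime ∧ ¬ q ∣ m) :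
    Nat.totient (m * ∏ q ∈ Q, q) = Nat.totient m * val Q := by
  induction Q using Finset.induction_on with
  | empty => simp [val]
  | insert a s ha ih =>
    have hs : ∀ q ∈ s, q.Prime ∧ ¬ q ∣ m := fun q hq => h q (mem_insert_of_mem hq)
    obtain ⟨h1, h2⟩ := h a (mem_insert_self _ _)
    have hc : Nat.Coprime a (m * ∏ q ∈ s, q) := by
      refine Nat.Coprime.mul_right ((Nat.Prime.coprime_iff_not_dvd h1).2 h2)
        (Nat.Coprime.prod_right fun q hq => ?_)
      exact (Nat.coprime_primes h1 (hs q hq).1).2 fun e => ha (e ▸ hq)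
    unfold val at ih ⊢
    rw [prod_insert ha, prod_insert ha, mul_left_comm, Nat.totient_mul hc, ih hs,
      Nat.totient_prime h1]
    ring

lemma prof_small_primes (B μ : ℕ) (h : Small B μ) :
    μ ≠ 0 ∧ ∀ l ∈ μ.primeFactors, blk l < B := by
  obtain ⟨⟨m, hm, h1, rfl⟩, _⟩ := h
  refine ⟨(Nat.totient_pos.2 hm).ne', fun l hl => ?_⟩
  have hp := Nat.prime_of_mem_primeFactors hl
  have hd := Nat.dvd_of_mem_primeFactors hl
  rw [Nat.totient_eq_prod_factorization (by omega), Finsupp.prod,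
    Prime.dvd_finsetProd_iff hp.prime] at hd
  obtain ⟨p, hp1, hp2⟩ := hd
  have hpp := Nat.prime_of_mem_primeFactors hp1
  refine lt_of_le_of_lt (blk_mono ?_) (h1 p hp1)
  rcases (Nat.Prime.dvd_mul hp).1 hp2 with h | h
  · exact Nat.le_of_dvd hpp.pos (hp.dvd_of_dvd_pow h)
  · exact (Nat.le_of_dvd (by have := hpp.two_le; omega) h).trans (Nat.sub_le _ _)

theorem prof : Prof :=
  ⟨prof_aa_nonneg, prof_aa_le, prof_phi_eq, prof_sum_zz, prof_psi_mono, prof_abel_id, prof_nn_le,
    prof_nn_ge, prof_nn_val, prof_nn_log, prof_good_lower, prof_growth, prof_vec_phi,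
    prof_profiles, prof_tot_val, prof_small_primes⟩

end Vale.Agent.P031
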