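import Vale.Agent.P031.Defs
import Vale.Agent.P031.SieveA

/-! The upper bound sieve for two and three linear forms. -/

namespace Vale.Agent.P031
open Finset Real

lemma sieve_root (q α : ℕ) (hq : q.Prime) (h : ¬ q ∣ α) :
    ∃ ρ : ℕ, ρ < q ∧ ∀ n, n < q → (q ∣ α * n + 1 ↔ n = ρ) := by
  have := Fact.mk hq
  have hα : (α : ZMod q) ≠ 0 := fun h0 => h ((ZMod.natCast_eq_zero_iff _ _).mp h0)
  refine ⟨(-(α : ZMod q)⁻¹).val, ZMod.val_lt _, fun n hn => ?_⟩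
  rw [← ZMod.natCast_eq_zero_iff]
  push_cast
  constructor
  · intro h1
    have : (n : ZMod q) = -(α : ZMod q)⁻¹ := by
      field_simp
      linear_combination h1
    rw [← this, ZMod.val_natCast, Nat.mod_eq_of_lt hn]
  · rintro rfl
    rw [ZMod.natCast_zmod_val]
    field_simp
    ring

/-- forbidden residues -/
def sieveOm (α α' q : ℕ) : Finset ℕ :=
  (range q).filter fun n => q ∣ n ∨ q ∣ α * n + 1 ∨ q ∣ α' * n + 1

lemma sieveOm_eq (q α α' : ℕ) (hq : q.Prime) (h : ¬ q ∣ α) (h' : ¬ q ∣ α') :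
    ∃ ρ ρ' : ℕ, ρ ≠ 0 ∧ ρ' ≠ 0 ∧ ρ < q ∧ q ∣ α * ρ + 1 ∧ q ∣ α' * ρ' + 1 ∧
      sieveOm α α' q = {0, ρ, ρ'} := by
  obtain ⟨ρ, h1, h2⟩ := sieve_root q α hq h
  obtain ⟨ρ', h1', h2'⟩ := sieve_root q α' hq h'
  have h3 := (h2 ρ h1).mpr rfl
  have h3' := (h2' ρ' h1').mpr rfl
  refine ⟨ρ, ρ', ?_, ?_, h1, h3, h3', ?_⟩
  · rintro rfl
    exact hq.not_dvd_one (by simpa using h3)
  · rintro rfl
    exact hq.not_dvd_one (by simpa using h3')
  · ext n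
    simp only [sieveOm, mem_filter, mem_range, mem_insert, mem_singleton]
    constructor
    · rintro ⟨hn, h4 | h4 | h4⟩
      · exact Or.inl (Nat.eq_zero_of_dvd_of_lt h4 hn)
      · exact Or.inr (Or.inl ((h2 n hn).mp h4))
      · exact Or.inr (Or.inr ((h2' n hn).mp h4))
    · rintro (rfl | rfl | rfl)
      · exact ⟨hq.pos, Or.inl (dvd_zero _)⟩
      · exact ⟨h1, Or.inr (Or.inl h3)⟩
      · exact ⟨h1', Or.inr (Or.inr h3')⟩

lemma sieveOm_two (q α : ℕ) (hq : q.Prime) (h : ¬ q ∣ α) :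
    2 ≤ (sieveOm α α q).card ∧ (sieveOm α α q).card ≤ 3 := by
  obtain ⟨ρ, ρ', h1, -, -, -, -, h2⟩ := sieveOm_eq q α α hq h h
  rw [h2]
  refine ⟨?_, card_le_three⟩
  rw [← card_pair (Ne.symm h1)]
  refine card_le_card fun n hn => ?_
  simp only [mem_insert, mem_singleton] at hn ⊢
  tauto

lemma sieveOm_three (q α α' : ℕ) (hq : q.Prime) (h : ¬ q ∣ α * α' * Nat.dist α α') :
    3 ≤ (sieveOm α α' q).card ∧ (sieveOm α α' q).card ≤ 3 := by
  obtain ⟨ρ, ρ', h1, h1', h3, h4, h4', h2⟩ := sieveOm_eq q α α' hq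
    (fun h0 => h ((h0.mul_right _).mul_right _)) (fun h0 => h ((h0.mul_left _).mul_right _))
  rw [h2]
  refine ⟨?_, card_le_three⟩
  have hne : ρ ≠ ρ' := by
    rintro rfl
    apply h
    refine Dvd.dvd.mul_left ?_ _
    have h5 : q ∣ Nat.dist α α' * ρ := by
      rw [← Nat.dist_mul_right, ← Nat.dist_add_add_right _ 1]
      unfold Nat.dist
      exact dvd_add (Nat.dvd_sub h4 h4') (Nat.dvd_sub h4' h4)
    rcases (Nat.Prime.dvd_mul hq).mp h5 with h6 | h6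
    · exact h6
    · exact absurd (Nat.eq_zero_of_dvd_of_lt h6 h3) h1
  rw [card_eq_three.mpr ⟨0, ρ, ρ', h1.symm, h1'.symm, hne, rfl⟩]

lemma sieve_exp_ge (b : ℝ) (hb : 240 ≤ b) : 2 * b ^ 4 ≤ exp b := by
  have h := Real.pow_div_factorial_le_exp b (by linarith) 5
  have h5 : ((Nat.factorial 5 : ℕ) : ℝ) = 120 := by norm_num [Nat.factorial]
  rw [h5] at h
  have h4 : 0 ≤ b ^ 4 := by positivity
  nlinarith

lemma sieve_A (F : Facts) (b : ℝ) (hb : 240 ≤ b) :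
    b - 4 * log b - 11 ≤ A ⌊exp (exp b / b ^ 4)⌋₊ ∧ A ⌊exp (exp b / b ^ 4)⌋₊ ≤ b + 10 := by
  have hb0 : 0 < b := by linarith
  have h1 : 2 ≤ exp b / b ^ 4 := by
    rw [le_div_iff₀ (by positivity)]; exact sieve_exp_ge b hb
  set u := exp b / b ^ 4 with hu
  have hlu : log u = b - 4 * log b := by
    rw [hu, log_div (by positivity) (by positivity), log_exp, log_pow]; norm_num
  have hz : 3 ≤ exp u := by linarith [add_one_le_exp u]
  have hfl : 2 ≤ ⌊exp u⌋₊ := Nat.le_floor (by push_cast; linarith)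
  have hfl' : (2 : ℝ) ≤ ⌊exp u⌋₊ := by exact_mod_cast hfl
  have hm := abs_le.mp (F.mertens _ hfl)
  have hle : (⌊exp u⌋₊ : ℝ) ≤ exp u := Nat.floor_le (by positivity)
  have hge : exp u < ⌊exp u⌋₊ + 1 := Nat.lt_floor_add_one _
  have hl1 : log (⌊exp u⌋₊ : ℝ) ≤ u := by
    rw [log_le_iff_le_exp (by linarith)]; exact hle
  have hl2 : u / 2 ≤ log (⌊exp u⌋₊ : ℝ) := by
    rw [le_log_iff_exp_le (by linarith)]
    have h2 : exp u = exp (u / 2) * exp (u / 2) := by rw [← exp_add]; ring_nf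
    have h3 : 2 ≤ exp (u / 2) := by linarith [add_one_le_exp (u / 2)]
    nlinarith
  have hlogb : 0 ≤ log b := log_nonneg (by linarith)
  have h4 : log (log (⌊exp u⌋₊ : ℝ)) ≤ log u := log_le_log (by linarith) hl1
  have h5 : log (u / 2) ≤ log (log (⌊exp u⌋₊ : ℝ)) := log_le_log (by linarith) hl2
  rw [log_div (by linarith) (by norm_num)] at h5
  have h6 := log_two_lt_d9
  constructor <;> linarith [hm.1, hm.2]

lemma sieve_div (F : Facts) (b : ℕ) (hb : 240 ≤ b) (Δ : ℕ) (hΔ : Δ ≠ 0) (h : (Δ : ℝ) ≤ Ub b ^ 3) :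
    ∑ q ∈ Δ.primeFactors, (1 : ℝ) / q ≤ log b + 13 := by
  have hb' : (240 : ℝ) ≤ b := by exact_mod_cast hb
  have h0 : (0 : ℝ) < Δ := by exact_mod_cast Nat.pos_of_ne_zero hΔ
  have h1 := add_one_le_exp ((b : ℝ) + 11)
  have h2 := F.recip_div Δ (3 * exp ((b : ℝ) + 11)) hΔ (by linarith) (by
    refine (log_le_log h0 h).trans_eq ?_
    rw [log_pow, Ub, log_exp]; norm_num)
  refine h2.trans ?_
  rw [log_mul (by norm_num) (by positivity), log_exp]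
  have h3 : log 3 ≤ 2 := by linarith [log_le_sub_one_of_pos (by norm_num : (0 : ℝ) < 3)]
  have h3' : 0 ≤ log 3 := log_nonneg (by norm_num)
  have h4 : log (log 3 + (b + 11)) ≤ log (2 * b) := log_le_log (by linarith) (by linarith)
  rw [log_mul (by norm_num) (by linarith)] at h4
  linarith [log_two_lt_d9]

lemma sieve_ar1 (u : ℝ) (hu2 : 2 ≤ u) (s : ℝ) (h : s ≤ (exp u + 1) * 3) : 1 + s ≤ exp (2 * u) := by
  have h7 : 7 ≤ exp u := by
    have h8 : exp 2 ≤ exp u := exp_le_exp.mpr hu2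
    have h9 : exp 2 = exp 1 * exp 1 := by rw [← exp_add]; norm_num
    have := exp_one_gt_d9
    nlinarith
  rw [two_mul, exp_add]; nlinarith

lemma sieve_ar2 (b u : ℝ) (hb : 240 ≤ b) (hu : 2 ≤ u) :
    2 * (6 * b + 45) * (2 * u) ≤ u * b ^ 2 + -(3 * b) := by
  have h1 : 240 * b ≤ b ^ 2 := by nlinarith
  have h2 : u * (240 * b) ≤ u * b ^ 2 := mul_le_mul_of_nonneg_left h1 (by linarith)
  have h3 : 2 * b ≤ u * b := mul_le_mul_of_nonneg_right hu (by linarith)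
  have h4 : u * 240 ≤ u * b := mul_le_mul_of_nonneg_left hb (by linarith)
  linarith

lemma sieve_ar3 (κ b l s : ℝ) (h0 : 0 ≤ κ) (h3 : κ ≤ 3) (hl : 0 ≤ l) (hs : b - 5 * l - 24 ≤ s) :
    -(κ * s) ≤ -(κ * b) + (15 * l + 72) := by
  have h1 := mul_le_mul_of_nonneg_left hs h0
  have h2 := mul_le_mul_of_nonneg_right h3 hl
  linarith

lemma sieve_ar4 (b : ℝ) (hb' : 240 ≤ b) : 2 * (b ^ 15 * 3 ^ 72) + 3 ≤ b ^ 40 := by
  have h15 : (1 : ℝ) ≤ b ^ 15 := one_le_pow₀ (by linarith)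
  have h25 : (240 : ℝ) ^ 25 ≤ b ^ 25 := pow_le_pow_left₀ (by norm_num) hb' _
  rw [show b ^ 40 = b ^ 15 * b ^ 25 by ring]
  have : b ^ 15 * 240 ^ 25 ≤ b ^ 15 * b ^ 25 := mul_le_mul_of_nonneg_left h25 (by positivity)
  norm_num at this ⊢
  linarith

lemma sieve_ar5 (b u : ℝ) (hb : 240 ≤ b) (hu : 2 ≤ u) : u < u * b ^ 2 :=
  lt_mul_of_one_lt_right (by linarith) (by nlinarith)

lemma sieve_t1 (b κ : ℝ) (hb : 240 ≤ b) (hκ0 : 0 ≤ κ) (hκ : κ ≤ 3) (Qs : Finset ℕ) (w : ℕ → ℝ)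
    (hw : ∀ q ∈ Qs, κ * ((1 : ℝ) / q) ≤ w q ∧ w q ≤ 1)
    (hlow : b - 5 * log b - 24 ≤ ∑ q ∈ Qs, (1 : ℝ) / q) :
    ∏ q ∈ Qs, (1 - w q) ≤ exp (-(κ * b)) * (b ^ 15 * 3 ^ 72) := by
  have hlogb : 0 ≤ log b := log_nonneg (by linarith)
  have hb0 : 0 < b := by linarith
  calc ∏ q ∈ Qs, (1 - w q)
      ≤ ∏ q ∈ Qs, exp (-(κ * ((1 : ℝ) / q))) := by
        refine prod_le_prod (fun q hq => by linarith [(hw q hq).2]) fun q hq => ?_
        linarith [(hw q hq).1, add_one_le_exp (-(κ * ((1 : ℝ) / q)))]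
    _ = exp (-(κ * ∑ q ∈ Qs, (1 : ℝ) / q)) := by
        rw [← exp_sum, mul_sum, sum_neg_distrib]
    _ ≤ exp (-(κ * b : ℝ) + (15 * log b + 72)) := by
        rw [exp_le_exp]; exact sieve_ar3 _ _ _ _ hκ0 hκ hlogb hlow
    _ ≤ exp (-(κ * b : ℝ)) * ((b : ℝ) ^ 15 * 3 ^ 72) := by
        rw [exp_add, exp_add]
        refine mul_le_mul_of_nonneg_left ?_ (by positivity)
        have h1 : exp (15 * log b) = (b : ℝ) ^ 15 := by
          rw [show (15 : ℝ) = ((15 : ℕ) : ℝ) by norm_num, ← log_pow, exp_log (by positivity)]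
        have h2 : exp 72 ≤ 3 ^ 72 := by
          rw [show (72 : ℝ) = ((72 : ℕ) : ℝ) * 1 by norm_num, exp_nat_mul]
          exact pow_le_pow_left₀ (by positivity) exp_one_lt_three.le _
        rw [h1]
        exact mul_le_mul_of_nonneg_left h2 (by positivity)

lemma sieve_t2 (b : ℕ) (Qs : Finset ℕ) (w : ℕ → ℝ)
    (hw : ∀ q ∈ Qs, 0 ≤ w q ∧ w q ≤ 3 * ((1 : ℝ) / q)) (hup : ∑ q ∈ Qs, (1 : ℝ) / q ≤ b + 10) :
    (exp 1 ^ (2 * (6 * b + 45)))⁻¹ * ∏ q ∈ Qs, (1 + exp 1 * w q) ≤ exp (-(3 * b : ℝ)) := by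
  have h1 : ∏ q ∈ Qs, (1 + exp 1 * w q) ≤ exp (9 * (b + 10)) := by
    calc ∏ q ∈ Qs, (1 + exp 1 * w q)
        ≤ ∏ q ∈ Qs, exp (9 * ((1 : ℝ) / q)) := by
          refine prod_le_prod (fun q hq => by have := (hw q hq).1; positivity) fun q hq => ?_
          have h2 : exp 1 * w q ≤ 3 * (3 * ((1 : ℝ) / q)) :=
            mul_le_mul exp_one_lt_three.le (hw q hq).2 (hw q hq).1 (by norm_num)
          linarith [add_one_le_exp (9 * ((1 : ℝ) / q))]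
      _ = exp (9 * ∑ q ∈ Qs, (1 : ℝ) / q) := by rw [← exp_sum, mul_sum]
      _ ≤ exp (9 * (b + 10)) := by rw [exp_le_exp]; linarith
  refine (mul_le_mul_of_nonneg_left h1 (by positivity)).trans_eq ?_
  rw [← exp_nat_mul, ← exp_neg, ← exp_add]
  congr 1
  push_cast
  ring

lemma sieve_t3 (F : Facts) (b : ℕ) (hb : (240 : ℝ) ≤ b) (u : ℝ) (hu2 : 2 ≤ u) (Qs : Finset ℕ)
    (c : ℕ → ℝ) (hc : ∀ q ∈ Qs, 0 ≤ c q ∧ c q ≤ 3) (hQ : Qs.card ≤ ⌊exp u⌋₊ + 1) :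
    ∑ S ∈ Qs.powerset.filter (fun S => S.card ≤ 2 * (6 * b + 45)), ∏ q ∈ S, c q ≤
      exp (u * (b : ℝ) ^ 2) * exp (-(3 * b : ℝ)) := by
  refine (F.subsets Qs c _ fun q hq => (hc q hq).1).trans ?_
  have h1 : ∑ q ∈ Qs, c q ≤ (exp u + 1) * 3 := by
    refine (sum_le_card_nsmul _ _ 3 fun q hq => (hc q hq).2).trans ?_
    rw [nsmul_eq_mul]
    refine mul_le_mul_of_nonneg_right ?_ (by norm_num)
    have h3 : (Qs.card : ℝ) ≤ ⌊exp u⌋₊ + 1 := by exact_mod_cast hQ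
    linarith [Nat.floor_le (exp_pos u).le]
  have h0 : 0 ≤ ∑ q ∈ Qs, c q := sum_nonneg fun q hq => (hc q hq).1
  refine (pow_le_pow_left₀ (by positivity) (sieve_ar1 u hu2 _ h1) _).trans ?_
  rw [← exp_nat_mul, ← exp_add, exp_le_exp]
  push_cast
  exact sieve_ar2 b u hb hu2

lemma sieve_sub (α α' : ℕ) (hα : 1 ≤ α) (hα' : 1 ≤ α') (l q : ℕ) (hq1 : q.Prime) (hql : q < l)
    (hl1 : l.Prime) (hl3 : (α * l + 1).Prime) (hl4 : (α' * l + 1).Prime) :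
    l % q ∉ sieveOm α α' q := by
  intro hmem
  have key : ∀ β : ℕ, 1 ≤ β → (β * l + 1).Prime → ¬ q ∣ β * (l % q) + 1 := by
    intro β hβ hp hd
    have h1 : q ∣ β * l + 1 := by
      have h2 : β * (l % q) + 1 ≡ β * l + 1 [MOD q] :=
        ((Nat.mod_modEq l q).mul_left β).add_right 1
      exact (h2.dvd_iff dvd_rfl).mp hd
    have h3 := (Nat.prime_dvd_prime_iff_eq hq1 hp).mp h1
    have h4 : l ≤ β * l := Nat.le_mul_of_pos_left l hβ
    omega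
  rcases (mem_filter.mp hmem).2 with h | h | h
  · have h1 : q ∣ l := (Nat.dvd_mod_iff dvd_rfl).mp h
    have := (Nat.prime_dvd_prime_iff_eq hq1 hl1).mp h1
    omega
  · exact key α hα hl3 h
  · exact key α' hα' hl4 h

lemma sieve_sums (F : Facts) (b : ℕ) (hb : 240 ≤ b) (Δ : ℕ) (hΔ : Δ ≠ 0) (hΔ' : (Δ : ℝ) ≤ Ub b ^ 3)
    (Z : ℕ) (hZ : Z = ⌊exp (exp b / (b : ℝ) ^ 4)⌋₊) :
    b - 5 * log b - 24 ≤ ∑ q ∈ ((range (Z + 1)).filter Nat.Prime).filter (fun q => ¬ q ∣ Δ),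
      (1 : ℝ) / q ∧
    ∑ q ∈ ((range (Z + 1)).filter Nat.Prime).filter (fun q => ¬ q ∣ Δ), (1 : ℝ) / q ≤ b + 10 := by
  have hb' : (240 : ℝ) ≤ b := by exact_mod_cast hb
  obtain ⟨hA1, hA2⟩ := sieve_A F b hb'
  rw [← hZ] at hA1 hA2
  unfold A at hA1 hA2
  constructor
  · have h1 := sieve_div F b hb Δ hΔ hΔ'
    have h2 := sum_filter_add_sum_filter_not ((range (Z + 1)).filter Nat.Prime) (fun q => q ∣ Δ)
      (fun q => (1 : ℝ) / q)
    have h3 : ∑ q ∈ ((range (Z + 1)).filter Nat.Prime).filter (fun q => q ∣ Δ), (1 : ℝ) / q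
        ≤ ∑ q ∈ Δ.primeFactors, (1 : ℝ) / q := by
      refine sum_le_sum_of_subset_of_nonneg ?_ fun _ _ _ => by positivity
      intro q hq
      simp only [mem_filter] at hq
      exact Nat.mem_primeFactors.mpr ⟨hq.1.2, hq.2, hΔ⟩
    linarith
  · refine le_trans ?_ hA2
    exact sum_le_sum_of_subset_of_nonneg (filter_subset _ _) fun _ _ _ => by positivity

lemma sieve_fin (b X N E E3 L p1 p2 p3 : ℝ) (hb : 240 ≤ b) (hX : 0 ≤ X) (hN : N ≤ 2 * X)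
    (hE3 : 0 ≤ E3) (hE : E3 ≤ E) (hL : L ≤ X) (h1 : 0 ≤ p1) (h2 : 0 ≤ p2)
    (t1 : p1 ≤ E * (b ^ 15 * 3 ^ 72)) (t2 : p2 ≤ E3) (t3 : p3 ≤ L * E3) :
    N * (p1 + p2) + p3 ≤ X * E * b ^ 40 := by
  have t4 := mul_le_mul hN (add_le_add t1 (t2.trans hE)) (add_nonneg h1 h2) (by positivity)
  have t5 := mul_le_mul hL hE hE3 hX
  have h41 := mul_le_mul_of_nonneg_left (sieve_ar4 b hb) (mul_nonneg hX (hE3.trans hE))
  generalize b ^ 15 * 3 ^ 72 = c at *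
  linarith

lemma sieve_main (F : Facts) (b : ℕ) (hb : 240 ≤ b) (α α' κ Δ : ℕ) (hα : 1 ≤ α) (hα' : 1 ≤ α')
    (hκ : κ ≤ 3) (hΔ : Δ ≠ 0) (hΔ' : (Δ : ℝ) ≤ Ub b ^ 3)
    (hOm : ∀ q : ℕ, q.Prime → ¬ q ∣ Δ → κ ≤ (sieveOm α α' q).card ∧ (sieveOm α α' q).card ≤ 3)
    (X : ℝ) (hX : 0 ≤ X) :
    (((range (⌊X⌋₊ + 1)).filter fun l : ℕ =>
          l.Prime ∧ Lb b ≤ l ∧ (α * l + 1).Prime ∧ (α' * l + 1).Prime).card : ℝ) ≤
      X * exp (-(κ * b : ℝ)) * (b : ℝ) ^ 40 := by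
  have hb' : (240 : ℝ) ≤ b := by exact_mod_cast hb
  have hb0 : (0 : ℝ) < b := by linarith
  rcases lt_or_ge X (Lb b) with hXL | hXL
  · rw [filter_eq_empty_iff.mpr]
    · simp only [card_empty, Nat.cast_zero]; positivity
    · intro l hl h
      have h1 : l ≤ ⌊X⌋₊ := by simpa [Nat.lt_succ_iff] using hl
      have h2 : (l : ℝ) ≤ X := (Nat.le_floor_iff hX).mp h1
      linarith [h.2.1]
  have he := sieve_exp_ge b hb'
  obtain ⟨hlow, hup⟩ := sieve_sums F b hb Δ hΔ hΔ' _ rfl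
  obtain ⟨u, hu⟩ : ∃ u : ℝ, u = exp b / (b : ℝ) ^ 4 := ⟨_, rfl⟩
  rw [← hu] at hlow hup
  have hu2 : 2 ≤ u := by rw [hu, le_div_iff₀ (by positivity)]; exact he
  have hLb : Lb b = exp (u * (b : ℝ) ^ 2) := by
    rw [Lb, hu]; congr 1; field_simp
  have hzL : exp u < Lb b := by
    rw [hLb, exp_lt_exp]; exact sieve_ar5 b u hb' hu2
  have hX1 : 1 ≤ X := le_trans (by rw [hLb]; exact one_le_exp (by positivity)) hXL
  obtain ⟨Qs, hQs⟩ : ∃ Qs, Qs = ((range (⌊exp u⌋₊ + 1)).filter Nat.Prime).filter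
    fun q => ¬ q ∣ Δ := ⟨_, rfl⟩
  rw [← hQs] at hlow hup
  have hQp : ∀ q ∈ Qs, q.Prime ∧ ¬ q ∣ Δ ∧ (q : ℝ) ≤ exp u := by
    intro q hq
    simp only [hQs, mem_filter, mem_range, Nat.lt_succ_iff] at hq
    exact ⟨hq.1.2, hq.2, (Nat.le_floor_iff (by positivity)).mp hq.1.1⟩
  have hQc : Qs.card ≤ ⌊exp u⌋₊ + 1 := by
    rw [hQs]
    exact (card_le_card ((filter_subset _ _).trans (filter_subset _ _))).trans (by simp)
  have hsub : ((range (⌊X⌋₊ + 1)).filter fun l : ℕ =>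
      l.Prime ∧ Lb b ≤ l ∧ (α * l + 1).Prime ∧ (α' * l + 1).Prime) ⊆
      (range (⌊X⌋₊ + 1)).filter fun n => ∀ q ∈ Qs, n % q ∉ sieveOm α α' q := by
    intro l hl
    rw [mem_filter] at hl ⊢
    obtain ⟨hl0, hl1, hl2, hl3, hl4⟩ := hl
    refine ⟨hl0, fun q hq => ?_⟩
    obtain ⟨hq1, -, hq3⟩ := hQp q hq
    have hql : q < l := by
      have : (q : ℝ) < l := hq3.trans_lt (hzL.trans_le hl2)
      exact_mod_cast this
    exact sieve_sub α α' hα hα' l q hq1 hql hl1 hl3 hl4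
  have hbr := sieve_brun (sieveOm α α') Qs (fun q hq => (hQp q hq).1)
    (fun q _ => filter_subset _ _) (⌊X⌋₊ + 1) (6 * b + 45) (exp 1) (one_le_exp zero_le_one)
  have hw : ∀ q ∈ Qs, κ * ((1 : ℝ) / q) ≤ ((sieveOm α α' q).card : ℝ) / q ∧
      ((sieveOm α α' q).card : ℝ) / q ≤ 3 * ((1 : ℝ) / q) ∧ ((sieveOm α α' q).card : ℝ) / q ≤ 1 := by
    intro q hq
    obtain ⟨hq1, hq2, -⟩ := hQp q hq
    obtain ⟨h1, h2⟩ := hOm q hq1 hq2
    have hq0 : (0 : ℝ) < q := by exact_mod_cast hq1.pos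
    have h3 : (sieveOm α α' q).card ≤ q := (card_le_card (filter_subset _ _)).trans (by simp)
    rw [mul_one_div, mul_one_div, div_le_one hq0]
    refine ⟨div_le_div_of_nonneg_right (by exact_mod_cast h1) hq0.le,
      div_le_div_of_nonneg_right (by exact_mod_cast h2) hq0.le, by exact_mod_cast h3⟩
  have hκ' : (κ : ℝ) ≤ 3 := by exact_mod_cast hκ
  have hE : exp (-(3 * b : ℝ)) ≤ exp (-(κ * b : ℝ)) := by
    rw [exp_le_exp, neg_le_neg_iff]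
    exact mul_le_mul_of_nonneg_right hκ' hb0.le
  have t1 := sieve_t1 b κ hb' (Nat.cast_nonneg _) hκ' Qs _
    (fun q hq => ⟨(hw q hq).1, (hw q hq).2.2⟩) hlow
  have t2 := sieve_t2 b Qs (fun q => ((sieveOm α α' q).card : ℝ) / q)
    (fun q hq => ⟨by positivity, (hw q hq).2.1⟩) hup
  have t3 := sieve_t3 F b hb' u hu2 Qs (fun q => ((sieveOm α α' q).card : ℝ))
    (fun q hq => ⟨Nat.cast_nonneg _, by
      exact_mod_cast (hOm q (hQp q hq).1 (hQp q hq).2.1).2⟩) hQc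
  have hN : ((⌊X⌋₊ + 1 : ℕ) : ℝ) ≤ 2 * X := by
    push_cast
    linarith [Nat.floor_le hX]
  refine le_trans (Nat.cast_le.mpr (card_le_card hsub)) (hbr.trans ?_)
  exact sieve_fin b X _ _ _ _ _ _ _ hb' hX hN (exp_pos _).le hE (hLb ▸ hXL)
    (prod_nonneg fun q hq => sub_nonneg.mpr (hw q hq).2.2) (by positivity) t1 t2 t3

theorem sieve (F : Facts) : SieveStmt := by
  refine ⟨40, 240, fun b hb α α' hα hα' hU hU' X hX => ⟨?_, fun hne => ?_⟩⟩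
  · have hU1 : 1 ≤ Ub b := one_le_exp (by positivity)
    have h := sieve_main F b hb α α 2 α hα hα (by norm_num) (by omega)
      (hU.trans (le_self_pow₀ hU1 (by norm_num))) (fun q hq h => sieveOm_two q α hq h) X hX
    simp only [and_self] at h
    exact_mod_cast h
  · have hd : Nat.dist α α' ≠ 0 := fun h => hne (Nat.eq_of_dist_eq_zero h)
    have hd2 : (Nat.dist α α' : ℝ) ≤ Ub b := by
      rcases le_total α α' with h | h
      · exact le_trans (by rw [Nat.dist_eq_sub_of_le h]; exact_mod_cast Nat.sub_le _ _) hU'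
      · exact le_trans (by rw [Nat.dist_eq_sub_of_le_right h]; exact_mod_cast Nat.sub_le _ _) hU
    have hU0 : 0 ≤ Ub b := (exp_pos _).le
    have h := sieve_main F b hb α α' 3 (α * α' * Nat.dist α α') hα hα' le_rfl (by positivity)
      (by
        push_cast
        rw [pow_succ, pow_two]
        gcongr) (fun q hq h => sieveOm_three q α α' hq h) X hX
    exact_mod_cast h

end Vale.Agent.P031
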