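import Vale.Agent.P031.Defs

/-! Counting good totients by block vectors, and the size of the cofactors. -/

namespace Vale.Agent.P031

open Finset Filter Real

lemma upper_prod_emb {M : Type*} [CommMonoid M] (Q : Finset ℕ) {k : ℕ} (h : Q.card = k)
    (f : ℕ → M) : ∏ q ∈ Q, f q = ∏ i : Fin k, f (Q.orderEmbOfFin h i) := by
  conv_lhs => rw [← Finset.map_orderEmbOfFin_univ Q h]
  rw [prod_map]
  rfl

lemma upper_sum_emb (Q : Finset ℕ) {k : ℕ} (h : Q.card = k)
    (f : ℕ → ℝ) : ∑ q ∈ Q, f q = ∑ i : Fin k, f (Q.orderEmbOfFin h i) := by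
  conv_lhs => rw [← Finset.map_orderEmbOfFin_univ Q h]
  rw [sum_map]
  rfl

/-- total version of the increasing enumeration -/
noncomputable def upper_emb (k : ℕ) (Q : Finset ℕ) : Fin k → ℕ :=
  fun i => if h : Q.card = k then Q.orderEmbOfFin h i else 0

lemma upper_emb_eq {k : ℕ} {Q : Finset ℕ} (h : Q.card = k) :
    upper_emb k Q = fun i => Q.orderEmbOfFin h i := by
  funext i
  simp [upper_emb, h]

lemma upper_mem_range (F : Facts) {p b : ℕ} (hp : p.Prime) (hb : blk p ≤ b) :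
    p ∈ range (⌊Ub b⌋₊ + 1) :=
  mem_range.2 (Nat.lt_succ_of_le (Nat.le_floor (F.le_Ub p b hp.two_le hb)))

lemma upper_fiber (F : Facts) (P : Prof) : ∃ B₀ : ℕ, ∀ B : ℕ, B₀ ≤ B → ∀ (k : ℕ) (b : Fin k → ℕ)
    (T : Finset (Finset ℕ)),
    (∀ Q ∈ T, Good B Q ∧ Q.card = k ∧ (fun i => blk (upper_emb k Q i)) = b) →
    ∑ Q ∈ T, (1 : ℝ) / val Q ≤ exp 1 := by
  obtain ⟨b₀, hb₀⟩ := F.block
  obtain ⟨B₁, hB₁⟩ := P.growth
  refine ⟨max b₀ B₁, fun B hB k b T hT => ?_⟩
  rcases T.eq_empty_or_nonempty with rfl | ⟨Q₀, hQ₀⟩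
  · simp only [sum_empty]
    positivity
  obtain ⟨hG₀, hk₀, hb⟩ := hT Q₀ hQ₀
  rw [upper_emb_eq hk₀] at hb
  have hbB : ∀ i, b₀ ≤ b i := by
    intro i
    have := hG₀.big _ (Q₀.orderEmbOfFin_mem hk₀ i)
    have e := congrFun hb i
    simp only at e
    have := le_of_max_le_left hB
    omega
  have hsum : ∑ i, exp (-(b i : ℝ)) ≤ 1 := by
    have h1 := (hB₁ B (le_of_max_le_right hB) Q₀ (1 + ∑ q ∈ Q₀, (blk q : ℝ))
      (le_add_of_nonneg_right (by positivity)) hG₀ (fun q hq => by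
        have := single_le_sum (f := fun q => (blk q : ℝ)) (fun _ _ => by positivity) hq
        linarith)).2
    rw [upper_sum_emb Q₀ hk₀] at h1
    rw [← hb]
    exact h1
  have hinj : Set.InjOn (upper_emb k) T := by
    intro Q hQ Q' hQ' h
    have hk := (hT Q hQ).2.1
    have hk' := (hT Q' hQ').2.1
    rw [upper_emb_eq hk, upper_emb_eq hk'] at h
    rw [← Finset.image_orderEmbOfFin_univ Q hk, ← Finset.image_orderEmbOfFin_univ Q' hk']
    exact congrArg (fun f : Fin k → ℕ => image f univ) h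
  have h1 : ∑ Q ∈ T, (1 : ℝ) / val Q
      = ∑ e ∈ T.image (upper_emb k), ∏ i, (1 : ℝ) / ((e i : ℝ) - 1) := by
    rw [sum_image hinj]
    refine sum_congr rfl (fun Q hQ => ?_)
    obtain ⟨hG, hk, -⟩ := hT Q hQ
    rw [upper_emb_eq hk]
    unfold val
    rw [upper_prod_emb Q hk, Nat.cast_prod, prod_div_distrib, prod_const_one]
    congr 1
    refine prod_congr rfl (fun i _ => ?_)
    have := (hG.normal _ (Q.orderEmbOfFin_mem hk i)).1.one_le
    rw [Nat.cast_sub this, Nat.cast_one]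
  have hpos : ∀ i, ∀ p ∈ blkSet (b i), (0 : ℝ) ≤ 1 / ((p : ℝ) - 1) := by
    intro i p hp
    have : (2 : ℝ) ≤ p := by exact_mod_cast (mem_filter.1 hp).2.1.two_le
    exact div_nonneg zero_le_one (by linarith)
  have h2 : ∑ e ∈ T.image (upper_emb k), ∏ i, (1 : ℝ) / ((e i : ℝ) - 1)
      ≤ ∑ e ∈ Fintype.piFinset (fun i => blkSet (b i)), ∏ i, (1 : ℝ) / ((e i : ℝ) - 1) := by
    apply sum_le_sum_of_subset_of_nonneg
    · intro e he
      obtain ⟨Q, hQ, rfl⟩ := mem_image.1 he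
      obtain ⟨hG, hk, hb'⟩ := hT Q hQ
      rw [Fintype.mem_piFinset]
      intro i
      have e1 : blk (upper_emb k Q i) = b i := congrFun hb' i
      have hp : (upper_emb k Q i).Prime := by
        rw [upper_emb_eq hk]
        exact (hG.normal _ (Q.orderEmbOfFin_mem hk i)).1
      exact mem_filter.2 ⟨upper_mem_range F hp e1.le, hp, e1⟩
    · intro e he _
      rw [Fintype.mem_piFinset] at he
      exact prod_nonneg (fun i _ => hpos i _ (he i))
  rw [← prod_univ_sum (fun i => blkSet (b i)) (fun _ p => (1 : ℝ) / ((p : ℝ) - 1))] at h2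
  have h3 : ∏ i, ∑ p ∈ blkSet (b i), (1 : ℝ) / ((p : ℝ) - 1) ≤ ∏ i, exp (exp (-(b i : ℝ))) := by
    apply Finset.prod_le_prod
    · intro i _
      exact sum_nonneg (hpos i)
    · intro i _
      have := (hb₀ (b i) (hbB i)).1
      linarith [Real.add_one_le_exp (exp (-(b i : ℝ)))]
  rw [← Real.exp_sum] at h3
  rw [h1]
  exact h2.trans (h3.trans (Real.exp_le_exp.2 hsum))

lemma upper_mem_Rp (P : Prof) {B k : ℕ} {lo hi : ℝ} {Q : Finset ℕ} (hG : Good B Q)
    (hk : Q.card = k) (h1 : Phi Q ≤ hi) (h2 : ∀ q ∈ Q, (blk q : ℝ) ≤ hi)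
    (h3 : lo < Phi Q ∨ ∃ q ∈ Q, lo < (blk q : ℝ)) :
    (fun i => blk (upper_emb k Q i)) ∈ Rp B k lo hi := by
  rw [upper_emb_eq hk]
  obtain ⟨e1, e2⟩ := P.vec_phi Q k hk
  show vec Q hk ∈ _
  unfold Rp
  simp only [mem_filter]
  refine ⟨?_, ?_, ?_, ?_, ?_, ?_⟩
  · rw [Fintype.mem_piFinset]
    intro i
    exact mem_range.2 (Nat.lt_succ_of_le (Nat.le_floor (h2 _ (Q.orderEmbOfFin_mem hk i))))
  · intro i j hij
    exact blk_mono ((Q.orderEmbOfFin hk).monotone hij)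
  · intro i
    exact hG.big _ (Q.orderEmbOfFin_mem hk i)
  · intro j
    rw [← e2 j]
    exact hG.con _ (Q.orderEmbOfFin_mem hk j)
  · rw [← e1]; exact h1
  · rcases h3 with h3 | ⟨q, hq, h3⟩
    · left
      rw [← e1]; exact h3
    · right
      rw [← Finset.image_orderEmbOfFin_univ Q hk] at hq
      obtain ⟨i, -, rfl⟩ := mem_image.1 hq
      exact ⟨i, h3⟩

lemma upper_sumQ (F : Facts) (P : Prof) : ∃ B₀ : ℕ, ∀ B : ℕ, B₀ ≤ B → ∀ (lo hi : ℝ) (K : ℕ)
    (T : Finset (Finset ℕ)),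
    (∀ Q ∈ T, Good B Q ∧ Q.card ≤ K ∧ Phi Q ≤ hi ∧ (∀ q ∈ Q, (blk q : ℝ) ≤ hi) ∧
      (lo < Phi Q ∨ ∃ q ∈ Q, lo < (blk q : ℝ))) →
    ∑ Q ∈ T, (1 : ℝ) / val Q ≤ exp 1 * ∑ k ∈ range (K + 1), ((Rp B k lo hi).card : ℝ) := by
  classical
  obtain ⟨B₀, hB₀⟩ := upper_fiber F P
  refine ⟨B₀, fun B hB lo hi K T hT => ?_⟩
  rw [← sum_fiberwise_of_maps_to (s := T) (t := range (K + 1)) (g := fun Q => Q.card)
    (fun Q hQ => mem_range.2 (Nat.lt_succ_of_le (hT Q hQ).2.1)), mul_sum]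
  refine sum_le_sum (fun k _ => ?_)
  rw [← sum_fiberwise_of_maps_to (s := T.filter (fun Q => Q.card = k)) (t := Rp B k lo hi)
    (g := fun Q => fun i => blk (upper_emb k Q i)) (fun Q hQ => by
      rw [mem_filter] at hQ
      obtain ⟨h1, -, h3, h4, h5⟩ := hT Q hQ.1
      exact upper_mem_Rp P h1 hQ.2 h3 h4 h5)]
  rw [mul_comm, ← nsmul_eq_mul]
  apply sum_le_card_nsmul
  intro b _
  apply hB₀ B hB k b
  intro Q hQ
  rw [mem_filter, mem_filter] at hQ
  exact ⟨(hT Q hQ.1.1).1, hQ.1.2, hQ.2⟩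

lemma upper_sumMu (F : Facts) (P : Prof) (B : ℕ) (M : Finset ℕ) (hM : ∀ μ ∈ M, Small B μ) :
    ∑ μ ∈ M, (1 : ℝ) / μ ≤ exp (B + 4) := by
  have hP0 : ∀ l ∈ (blkLe B).filter (fun l => blk l < B), l.Prime ∧ blk l < B := by
    intro l hl
    rw [mem_filter] at hl
    exact ⟨(mem_filter.1 hl.1).2.1, hl.2⟩
  have h1 := F.euler (fun _ => 1) ((blkLe B).filter (fun l => blk l < B)) M
    (fun l hl => by
      have : (2 : ℝ) ≤ l := by exact_mod_cast (hP0 l hl).1.two_le
      exact ⟨(hP0 l hl).1, zero_le_one, by linarith⟩)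
    (fun μ hμ => by
      obtain ⟨h1, h2⟩ := P.small_primes B μ (hM μ hμ)
      refine ⟨h1, fun l hl => ?_⟩
      have hp := Nat.prime_of_mem_primeFactors hl
      have := h2 l hl
      exact mem_filter.2 ⟨mem_filter.2 ⟨upper_mem_range F hp this.le, hp, this.le⟩, this⟩)
  have e : ∀ n : ℕ, cm (fun _ => 1) n = 1 := fun n => by simp [cm_eq_prod]
  simp only [e] at h1
  refine h1.trans (Real.exp_le_exp.2 ?_)
  rw [sum_add_distrib, ← mul_sum]
  have h2 := F.sum_lt_le B _ hP0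
  have h3 := F.sum_sq _ 1 le_rfl (fun l hl => (hP0 l hl).1.one_lt)
  simp only [Nat.cast_one, div_one] at h3
  linarith

theorem upper (F : Facts) (P : Prof) : UpperStmt := by
  classical
  obtain ⟨B₀, hB₀⟩ := upper_sumQ F P
  refine ⟨12 * exp 5, B₀, by positivity, fun B hB y lo hi K hy hBy S hS => ?_⟩
  have hy0 : 0 < y := by linarith
  have hly : 0 < log y := Real.log_pos (by linarith)
  set N := ⌊y⌋₊ with hN
  set T : Finset (Finset ℕ) := (range (N + 2)).powerset.filter (fun Q => Good B Q ∧ Q.card ≤ K ∧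
    Phi Q ≤ hi ∧ (∀ q ∈ Q, (blk q : ℝ) ≤ hi) ∧ (lo < Phi Q ∨ ∃ q ∈ Q, lo < (blk q : ℝ))) with hT
  set M : Finset ℕ := (Icc 1 N).filter (Small B) with hM
  obtain ⟨W, hW⟩ : ∃ W : ℝ, W = exp (log y / (4 * (K + 1))) := ⟨_, rfl⟩
  have hW1 : 1 < W := by
    rw [hW]
    exact Real.one_lt_exp_iff.2 (by positivity)
  have hlW : log W = log y / (4 * (K + 1)) := by rw [hW, Real.log_exp]
  set Z : Finset (Finset ℕ × ℕ) :=
    (T ×ˢ M).filter (fun z => ((z.2 * val z.1 : ℕ) : ℝ) ≤ y) with hZ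
  have hcover : S ⊆ Z.biUnion (fun z =>
      ((range (⌊y / ((z.2 * val z.1 : ℕ) : ℝ)⌋₊ + 2)).filter
        (fun p : ℕ => p.Prime ∧ W ≤ p)).image (fun p => z.2 * (p - 1) * val z.1)) := by
    intro v hv
    obtain ⟨hv1, hv2, p, Q, μ, hp, hqp, hG, hSm, hK, h1, h2, h3, hv3⟩ := hS v hv
    have hμ0 : 1 ≤ μ := Nat.pos_of_ne_zero (P.small_primes B μ hSm).1
    have hval : 1 ≤ val Q := val_pos (fun q hq => (hG.normal q hq).1)
    have hp2 := hp.two_le
    have hp1 : 1 ≤ p - 1 := by omega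
    have hvN : v ≤ N := Nat.le_floor hv2
    have e1 : v = (μ * val Q) * (p - 1) := by rw [hv3]; ring
    have hd : 1 ≤ μ * val Q := Nat.mul_pos hμ0 hval
    have hdv : μ * val Q ≤ v := by rw [e1]; exact Nat.le_mul_of_pos_right _ hp1
    have hpv : p - 1 ≤ v := by rw [e1]; exact Nat.le_mul_of_pos_left _ hd
    have hμv : μ ≤ v := le_trans (Nat.le_mul_of_pos_right _ hval) hdv
    rw [mem_biUnion]
    refine ⟨(Q, μ), ?_, ?_⟩
    · rw [hZ, mem_filter, mem_product]
      refine ⟨⟨mem_filter.2 ⟨mem_powerset.2 (fun q hq => mem_range.2 ?_), hG, hK, h1, h2, h3⟩,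
        mem_filter.2 ⟨mem_Icc.2 ⟨hμ0, hμv.trans hvN⟩, hSm⟩⟩, ?_⟩
      · have := hqp q hq
        omega
      · exact le_trans (by exact_mod_cast hdv) hv2
    · rw [mem_image]
      refine ⟨p, mem_filter.2 ⟨mem_range.2 ?_, hp, ?_⟩, hv3.symm⟩
      · have : p - 1 ≤ ⌊y / ((μ * val Q : ℕ) : ℝ)⌋₊ := by
          apply Nat.le_floor
          rw [le_div_iff₀ (by exact_mod_cast hd)]
          refine le_trans (le_of_eq ?_) hv2
          rw [e1, Nat.cast_mul (μ * val Q), mul_comm]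
        simp only
        omega
      · have hp0 : (0 : ℝ) < p := by exact_mod_cast hp.pos
        rw [hW, ← Real.le_log_iff_exp_le hp0, div_le_iff₀ (by positivity)]
        have a1 : val Q ≤ p ^ K := by
          have : val Q ≤ p ^ Q.card := by
            unfold val
            apply prod_le_pow_card
            intro q hq
            have := hqp q hq
            omega
          exact this.trans (Nat.pow_le_pow_right hp.pos hK)
        have a2 : v ≤ μ * p ^ (K + 1) := by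
          rw [hv3, mul_assoc, pow_succ']
          exact Nat.mul_le_mul_left _ (Nat.mul_le_mul (by omega) a1)
        have a3 : (v : ℝ) ≤ y ^ (1 / 4 : ℝ) * (p : ℝ) ^ (K + 1) := by
          have : (v : ℝ) ≤ μ * (p : ℝ) ^ (K + 1) := by exact_mod_cast a2
          exact this.trans (mul_le_mul_of_nonneg_right (hSm.2.trans hBy) (by positivity))
        have a4 := Real.log_le_log (Real.sqrt_pos.2 hy0) (hv1.le.trans a3)
        rw [Real.log_sqrt hy0.le, Real.log_mul (by positivity) (by positivity),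
          Real.log_rpow hy0, Real.log_pow] at a4
        push_cast at a4
        linarith
  have h1 : (S.card : ℝ) ≤ ∑ z ∈ Z, 12 * (K + 1) * (y / log y) *
      ((1 : ℝ) / val z.1 * (1 / z.2)) := by
    have a1 := (card_le_card hcover).trans card_biUnion_le
    have a2 : (S.card : ℝ) ≤ ∑ z ∈ Z, ((((range (⌊y / ((z.2 * val z.1 : ℕ) : ℝ)⌋₊ + 2)).filter
        (fun p : ℕ => p.Prime ∧ W ≤ p)).image (fun p => z.2 * (p - 1) * val z.1)).card : ℝ) := by
      exact_mod_cast a1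
    refine a2.trans (sum_le_sum (fun z hz => ?_))
    rw [hZ, mem_filter, mem_product] at hz
    have hμ0 : 1 ≤ z.2 := (mem_Icc.1 (mem_filter.1 hz.1.2).1).1
    have hval : 1 ≤ val z.1 := val_pos (fun q hq => ((mem_filter.1 hz.1.1).2.1.normal q hq).1)
    have hd : (0 : ℝ) < ((z.2 * val z.1 : ℕ) : ℝ) := by exact_mod_cast Nat.mul_pos hμ0 hval
    have a3 := F.primes_ge (y / ((z.2 * val z.1 : ℕ) : ℝ)) W ((one_le_div hd).2 hz.2) hW1
    refine le_trans (by exact_mod_cast card_image_le) (a3.trans (le_of_eq ?_))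
    have b1 : (0 : ℝ) < z.2 := by exact_mod_cast hμ0
    have b2 : (0 : ℝ) < val z.1 := by exact_mod_cast hval
    rw [hlW]
    push_cast
    field_simp
    ring
  have h2 : ∑ z ∈ Z, ((1 : ℝ) / val z.1 * (1 / z.2))
      ≤ (∑ Q ∈ T, (1 : ℝ) / val Q) * ∑ μ ∈ M, (1 : ℝ) / μ := by
    rw [sum_mul_sum, ← sum_product' (f := fun Q μ => (1 : ℝ) / val Q * (1 / (μ : ℕ)))]
    exact sum_le_sum_of_subset_of_nonneg (filter_subset _ _) (fun _ _ _ => by positivity)
  have h3 := hB₀ B hB lo hi K T (fun Q hQ => (mem_filter.1 hQ).2)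
  have h4 := upper_sumMu F P B M (fun μ hμ => (mem_filter.1 hμ).2)
  have h5 : (∑ Q ∈ T, (1 : ℝ) / val Q) * ∑ μ ∈ M, (1 : ℝ) / μ
      ≤ (exp 1 * ∑ k ∈ range (K + 1), ((Rp B k lo hi).card : ℝ)) * exp (B + 4) :=
    mul_le_mul h3 h4 (sum_nonneg (fun _ _ => one_div_nonneg.2 (Nat.cast_nonneg _)))
      (mul_nonneg (Real.exp_pos _).le (sum_nonneg (fun _ _ => Nat.cast_nonneg _)))
  rw [← mul_sum] at h1
  have h6 : (0 : ℝ) ≤ 12 * (K + 1) * (y / log y) := by positivity
  refine h1.trans ((mul_le_mul_of_nonneg_left (h2.trans h5) h6).trans (le_of_eq ?_))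
  have e : exp 5 = exp 1 * exp 4 := by rw [← Real.exp_add]; norm_num
  rw [Real.exp_add, e]
  ring

lemma upper_tendsto_A (F : Facts) : Tendsto (fun x : ℝ => A ⌊x⌋₊) atTop atTop := by
  have h1 : Tendsto (fun n : ℕ => log (log (n : ℝ)) + (-10)) atTop atTop :=
    tendsto_atTop_add_const_right _ _
      (tendsto_log_atTop.comp (tendsto_log_atTop.comp tendsto_natCast_atTop_atTop))
  have h2 : Tendsto A atTop atTop := by
    refine tendsto_atTop_mono' _ ?_ h1
    filter_upwards [eventually_ge_atTop 2] with n hn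
    linarith [(abs_le.1 (F.mertens n hn)).1]
  exact h2.comp tendsto_nat_floor_atTop

lemma upper_num1 : ∀ᶠ s : ℝ in atTop, 12 * s ^ 3 ≤ exp (s - 10) / 20 := by
  filter_upwards [(tendsto_exp_div_pow_atTop 3).eventually_ge_atTop (240 * exp 10),
    eventually_gt_atTop 0] with s hs hs0
  rw [le_div_iff₀ (by positivity)] at hs
  rw [Real.exp_sub, div_div, le_div_iff₀ (by positivity)]
  linarith

lemma upper_num2 : ∀ᶠ s : ℝ in atTop,
    10 * log s * exp (s - hh s + 11) ≤ exp (s - 10) / 20 := by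
  have h := (isLittleO_log_rpow_atTop (r := (3 / 4 : ℝ)) (by norm_num)).bound
    (c := 1 / (200 * exp 21)) (by positivity)
  filter_upwards [h, eventually_ge_atTop 1] with s hs hs1
  have h0 : 0 ≤ s ^ (3 / 4 : ℝ) := by positivity
  rw [Real.norm_of_nonneg (Real.log_nonneg hs1), Real.norm_of_nonneg h0, one_div,
    inv_mul_eq_div, le_div_iff₀ (by positivity)] at hs
  have h1 : s ^ (3 / 4 : ℝ) ≤ exp (hh s) := by
    unfold hh
    linarith [Real.add_one_le_exp (s ^ (3 / 4 : ℝ))]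
  have e : exp (s - 10) = exp (s - hh s + 11) * (exp (hh s) / exp 21) := by
    rw [← Real.exp_sub, ← Real.exp_add]
    congr 1
    ring
  rw [e, mul_comm, mul_div_assoc]
  apply mul_le_mul_of_nonneg_left _ (Real.exp_pos _).le
  rw [div_div, le_div_iff₀ (by positivity)]
  linarith

theorem size (F : Facts) (P : Prof) : SizeStmt := by
  obtain ⟨B₀, hB₀⟩ := P.growth
  refine ⟨B₀, ?_⟩
  have ht := upper_tendsto_A F
  filter_upwards [ht.eventually upper_num1, ht.eventually upper_num2,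
    ht.eventually (eventually_ge_atTop 1), eventually_ge_atTop 2] with x hx1 hx2 hs1 hx
  intro B hB hBs Q μ hG hSm hQ
  have hf : 2 ≤ ⌊x⌋₊ := Nat.le_floor (by push_cast; linarith)
  have hf' : (2 : ℝ) ≤ ⌊x⌋₊ := by exact_mod_cast hf
  have hm := (abs_le.1 (F.mertens _ hf)).2
  obtain ⟨s, hs⟩ : ∃ s, s = A ⌊x⌋₊ := ⟨_, rfl⟩
  rw [← hs] at hx1 hx2 hs1 hBs hQ hm
  have hx0 : 0 < x := by linarith
  have h1 : exp (s - 10) ≤ log x := by
    have a1 : 0 < log (⌊x⌋₊ : ℝ) := Real.log_pos (by linarith)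
    have a2 : exp (s - 10) ≤ log (⌊x⌋₊ : ℝ) := by
      rw [← Real.le_log_iff_exp_le a1]; linarith
    exact a2.trans (Real.log_le_log (by linarith) (Nat.floor_le hx0.le))
  have hls : 0 ≤ log s := Real.log_nonneg hs1
  have hls2 : log s ≤ s - 1 := Real.log_le_sub_one_of_pos (by linarith)
  have h2 : exp B * (B : ℝ) ^ 2 ≤ 12 * s ^ 3 := by
    have a1 : exp B ≤ 3 * s := by
      have : (B : ℝ) ≤ log s + 1 := by linarith
      have a2 := Real.exp_le_exp.2 this
      rw [Real.exp_add, Real.exp_log (by linarith)] at a2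
      have a3 := Real.exp_one_lt_d9
      nlinarith
    have a2 : (B : ℝ) ^ 2 ≤ (2 * s) ^ 2 := by
      apply pow_le_pow_left₀ (Nat.cast_nonneg _)
      linarith
    calc exp B * (B : ℝ) ^ 2 ≤ 3 * s * (2 * s) ^ 2 :=
          mul_le_mul a1 a2 (by positivity) (by positivity)
      _ = 12 * s ^ 3 := by ring
  have hh0 : 0 ≤ hh s := by unfold hh; positivity
  have h3 := (hB₀ B hB Q s hs1 hG (fun q hq => by linarith [hQ q hq])).1
  have h4 : (val Q : ℝ) ≤ exp (10 * log s * exp (s - hh s + 11)) := by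
    have a1 : (val Q : ℝ) ≤ exp (exp (s - hh s + 11)) ^ Q.card := by
      unfold val
      rw [Nat.cast_prod, ← prod_const]
      apply Finset.prod_le_prod (fun _ _ => Nat.cast_nonneg _)
      intro q hq
      have b1 := F.le_Ub q (blk q) (hG.normal q hq).1.two_le le_rfl
      have b2 : ((q - 1 : ℕ) : ℝ) ≤ q := by exact_mod_cast Nat.sub_le q 1
      refine b2.trans (b1.trans ?_)
      unfold Ub
      have := hQ q hq
      gcongr
    rw [← Real.exp_nat_mul] at a1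
    refine a1.trans (Real.exp_le_exp.2 ?_)
    exact mul_le_mul_of_nonneg_right h3 (Real.exp_pos _).le
  have h5 : (μ : ℝ) ≤ exp (12 * s ^ 3) := hSm.2.trans (Real.exp_le_exp.2 h2)
  push_cast
  refine (mul_le_mul h5 h4 (Nat.cast_nonneg _) (Real.exp_pos _).le).trans ?_
  rw [← Real.exp_add, Real.rpow_def_of_pos hx0]
  apply Real.exp_le_exp.2
  linarith

end Vale.Agent.P031
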