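import Vale.Agent.P031.Defs

/-!
P031: few integers come from a violated constraint (Rankin's method with a profile weight).
-/

namespace Vale.Agent.P031

open Finset Filter Real

lemma violate_abel (lam : ℕ → ℝ) (c n : ℕ) :
    ∑ T ∈ range n, (lam T - lam (T + 1)) * min ((T + 1 : ℕ) : ℝ) c =
      ∑ t ∈ range (min n c), lam t - lam n * (min n c : ℕ) := by
  induction n with
  | zero => simp
  | succ n ih =>
    rw [Finset.sum_range_succ, ih]
    rcases lt_or_ge n c with h | h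
    · have h1 : min (n + 1) c = n + 1 := by omega
      have h2 : min n c = n := by omega
      have h3 : min ((n + 1 : ℕ) : ℝ) c = (n + 1 : ℕ) := min_eq_left (by exact_mod_cast h)
      rw [h1, h2, h3, Finset.sum_range_succ]
      push_cast
      ring
    · have h1 : min (n + 1) c = c := by omega
      have h2 : min n c = c := by omega
      have h3 : min ((n + 1 : ℕ) : ℝ) c = c := min_eq_right (by exact_mod_cast (by omega))
      rw [h1, h2, h3]
      ring

lemma violate_zz_le (Q : Finset ℕ) (t : ℕ) : zz Q t ≤ Q.card := Finset.card_filter_le _ _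

lemma violate_zz_anti (Q : Finset ℕ) {t t' : ℕ} (h : t ≤ t') : zz Q t' ≤ zz Q t := by
  apply Finset.card_le_card
  intro q hq
  rw [Finset.mem_filter] at hq ⊢
  exact ⟨hq.1, by omega⟩

lemma violate_zz_zero {Q : Finset ℕ} {b t : ℕ} (h : ∀ q ∈ Q, blk q ≤ b) (ht : b ≤ t) :
    zz Q t = 0 := by
  unfold zz
  rw [Finset.card_eq_zero, Finset.filter_eq_empty_iff]
  intro q hq
  have := h q hq
  omega

lemma violate_swap {Q : Finset ℕ} {b : ℕ} (h : ∀ q ∈ Q, blk q ≤ b) (f : ℕ → ℝ) :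
    ∑ q ∈ Q, ∑ t ∈ range (blk q), f t = ∑ t ∈ range b, (zz Q t : ℝ) * f t := by
  have h1 : ∀ q ∈ Q, ∑ t ∈ range (blk q), f t =
      ∑ t ∈ range b, if t < blk q then f t else 0 := by
    intro q hq
    rw [← Finset.sum_filter]
    apply Finset.sum_congr _ fun _ _ => rfl
    ext t
    have := h q hq
    simp only [Finset.mem_range, Finset.mem_filter]
    omega
  rw [Finset.sum_congr rfl h1, Finset.sum_comm]
  refine Finset.sum_congr rfl fun t _ => ?_
  rw [← Finset.sum_filter, Finset.sum_const, nsmul_eq_mul]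
  rfl

lemma violate_mem_blkLe (F : Facts) {l b : ℕ} (hl : l.Prime) (h : blk l ≤ b) : l ∈ blkLe b := by
  unfold blkLe
  rw [Finset.mem_filter, Finset.mem_range]
  refine ⟨?_, hl, h⟩
  have := F.le_Ub l b hl.two_le h
  have h2 : l ≤ ⌊Ub b⌋₊ := Nat.le_floor this
  omega

lemma violate_h0_mono {a b : ℕ} (h : a ≤ b) : h0 a ≤ h0 b := by
  unfold h0
  apply Real.rpow_le_rpow (by positivity) (by exact_mod_cast h) (by norm_num)

lemma violate_h0_nonneg (a : ℕ) : 0 ≤ h0 a := by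
  unfold h0
  positivity

/-- the primes that carry the weight -/
noncomputable def violateP (b T0 : ℕ) : Finset ℕ := (blkLe b).filter fun l => T0 ≤ blk l

/-- the logarithm of the weight -/
noncomputable def violateU (b T0 : ℕ) (z : ℕ → ℕ) (l : ℕ) : ℝ :=
  if l ∈ violateP b T0 then log (1 + (z (blk l) : ℝ)) else 0

lemma violate_log_nonneg (n : ℕ) : 0 ≤ log (1 + (n : ℝ)) :=
  Real.log_nonneg (by have : (0 : ℝ) ≤ n := Nat.cast_nonneg n; linarith)

lemma violate_log_mono {m n : ℕ} (h : m ≤ n) : log (1 + (m : ℝ)) ≤ log (1 + (n : ℝ)) := by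
  have : (m : ℝ) ≤ n := by exact_mod_cast h
  apply Real.log_le_log (by positivity)
  linarith

lemma violate_U_nonneg (b T0 : ℕ) (z : ℕ → ℕ) (l : ℕ) : 0 ≤ violateU b T0 z l := by
  unfold violateU
  split_ifs
  · exact violate_log_nonneg _
  · exact le_rfl

lemma violate_one_le_cm (u : ℕ → ℝ) (hu : ∀ l, 0 ≤ u l) (n : ℕ) :
    1 ≤ cm (fun l => exp (u l)) n := by
  rw [cm_exp]
  apply Real.one_le_exp
  unfold Finsupp.sum
  exact Finset.sum_nonneg fun l _ => mul_nonneg (Nat.cast_nonneg _) (hu l)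

/-- the weight of an integer built from `p` and `Q` is large -/
lemma violate_lower (F : Facts) (P : Prof) {b K T0 p μ : ℕ} {Q : Finset ℕ} (hp : Normal p)
    (hpb : blk p = b) (hQ : ∀ q ∈ Q, Normal q) (hlt : ∀ q ∈ Q, q < p) (hμ : 1 ≤ μ)
    (hK : Q.card ≤ K) :
    exp (Phi Q + ∑ t ∈ range b, (zz Q t : ℝ) - log (1 + (K : ℝ)) * (K + 1) * (2 * h0 b + T0)) ≤
      cm (fun l => exp (violateU b T0 (zz Q) l)) (μ * (p - 1) * val Q) := by
  have hQp : ∀ q ∈ Q, q.Prime := fun q hq => (hQ q hq).1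
  have hQb : ∀ q ∈ Q, blk q ≤ b := fun q hq => hpb ▸ blk_mono (hlt q hq).le
  have hp1 : p - 1 ≠ 0 := by have := hp.1.two_le; omega
  have hv : val Q ≠ 0 := (val_pos hQp).ne'
  have hw : (p - 1) * val Q ≠ 0 := mul_ne_zero hp1 hv
  rw [mul_assoc μ, cm_mul _ (by omega) hw]
  refine le_trans ?_ (le_mul_of_one_le_left ?_ (violate_one_le_cm _ (violate_U_nonneg _ _ _) μ))
  swap
  · exact le_trans zero_le_one (violate_one_le_cm _ (violate_U_nonneg _ _ _) _)
  rw [cm_exp]
  apply Real.exp_le_exp.mpr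
  set w := (p - 1) * val Q with hwdef
  set lam : ℕ → ℝ := fun t => log (1 + (zz Q t : ℝ)) with hlam
  have lam_anti : ∀ s t, s ≤ t → lam t ≤ lam s := fun s t h =>
    violate_log_mono (violate_zz_anti Q h)
  have lam_zero : ∀ t, b ≤ t → lam t = 0 := by
    intro t ht
    simp [hlam, violate_zz_zero hQb ht]
  have lam0_nonneg : 0 ≤ lam 0 := violate_log_nonneg _
  have lam0_le : lam 0 ≤ log (1 + (K : ℝ)) := violate_log_mono ((violate_zz_le Q 0).trans hK)
  -- all primes of `w` are in blocks at most `b`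
  have hprimes : ∀ l ∈ w.primeFactors, l ∈ blkLe b := by
    intro l hl
    have hlp := Nat.prime_of_mem_primeFactors hl
    have hld := Nat.dvd_of_mem_primeFactors hl
    apply violate_mem_blkLe F hlp
    rw [← hpb]
    apply blk_mono
    rcases (Nat.Prime.dvd_mul hlp).mp hld with h | h
    · have := Nat.le_of_dvd (by omega) h
      omega
    · unfold val at h
      obtain ⟨q, hq, hq2⟩ := (Prime.dvd_finsetProd_iff hlp.prime _).mp h
      have h2 := (hQp q hq).two_le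
      have := Nat.le_of_dvd (by omega) hq2
      have := hlt q hq
      omega
  -- step 1
  have step1 : (w.factorization.sum fun l e => (e : ℝ) * lam (blk l)) - lam 0 * NN T0 w ≤
      w.factorization.sum fun l e => (e : ℝ) * violateU b T0 (zz Q) l := by
    rw [NN_eq_sum]
    unfold Finsupp.sum
    rw [Nat.support_factorization]
    push_cast
    rw [Finset.mul_sum, ← Finset.sum_sub_distrib]
    refine Finset.sum_le_sum fun l hl => ?_
    have he : (0 : ℝ) ≤ w.factorization l := Nat.cast_nonneg _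
    unfold violateU
    by_cases h : blk l < T0
    · have h1 : l ∉ violateP b T0 := by
        unfold violateP
        rw [Finset.mem_filter]
        omega
      rw [if_pos h, if_neg h1]
      have := lam_anti 0 (blk l) (Nat.zero_le _)
      nlinarith
    · have h1 : l ∈ violateP b T0 := by
        unfold violateP
        rw [Finset.mem_filter]
        exact ⟨hprimes l hl, by omega⟩
      rw [if_neg h, if_pos h1]
      simp [hlam]
  have hNN : ∀ T, (NN T w : ℝ) = NN T (p - 1) + ∑ q ∈ Q, (NN T (q - 1) : ℝ) := by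
    intro T
    rw [hwdef, NN_mul T hp1 hv, P.nn_val Q T hQp]
    push_cast
    rfl
  have hcard : (Q.card : ℝ) ≤ K := by exact_mod_cast hK
  have h0n := violate_h0_nonneg b
  -- step 2: upper bound for the small prime factors
  have step2 : (NN T0 w : ℝ) ≤ (K + 1) * (T0 + h0 b) := by
    rw [hNN]
    have h1 : (NN T0 (p - 1) : ℝ) ≤ T0 + h0 b := by
      have := P.nn_le p T0 hp
      rw [hpb] at this
      have h2 := min_le_left (T0 : ℝ) ((b : ℝ) + 1)
      linarith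
    have h2 : ∑ q ∈ Q, (NN T0 (q - 1) : ℝ) ≤ Q.card * (T0 + h0 b) := by
      rw [← nsmul_eq_mul, ← Finset.sum_const]
      refine Finset.sum_le_sum fun q hq => ?_
      have := P.nn_le q T0 (hQ q hq)
      have h2 := min_le_left (T0 : ℝ) ((blk q : ℝ) + 1)
      have h3 := violate_h0_mono (hQb q hq)
      linarith
    have h3 : (0 : ℝ) ≤ T0 + h0 b := by positivity
    nlinarith
  -- step 3: lower bound for the main sum
  have step3 : ∀ T, min ((T + 1 : ℕ) : ℝ) b + ∑ q ∈ Q, min ((T + 1 : ℕ) : ℝ) (blk q) -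
      (K + 1) * h0 b ≤ (NN (T + 1) w : ℝ) := by
    intro T
    rw [hNN]
    have h1 := P.nn_ge p (T + 1) hp
    rw [hpb] at h1
    have h2 : ∑ q ∈ Q, min ((T + 1 : ℕ) : ℝ) (blk q) - Q.card * h0 b ≤
        ∑ q ∈ Q, (NN (T + 1) (q - 1) : ℝ) := by
      rw [← nsmul_eq_mul, ← Finset.sum_const, ← Finset.sum_sub_distrib]
      refine Finset.sum_le_sum fun q hq => ?_
      have := P.nn_ge q (T + 1) (hQ q hq)
      have h3 := violate_h0_mono (hQb q hq)
      linarith
    nlinarith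
  have step4 : Phi Q + ∑ t ∈ range b, (zz Q t : ℝ) - lam 0 * ((K + 1) * h0 b) ≤
      w.factorization.sum fun l e => (e : ℝ) * lam (blk l) := by
    rw [P.abel_id lam b w lam_zero]
    have h1 : ∑ T ∈ range b, (lam T - lam (T + 1)) * (min ((T + 1 : ℕ) : ℝ) b +
        ∑ q ∈ Q, min ((T + 1 : ℕ) : ℝ) (blk q) - (K + 1) * h0 b) ≤
        ∑ T ∈ range b, (lam T - lam (T + 1)) * (NN (T + 1) w : ℝ) := by
      refine Finset.sum_le_sum fun T _ => ?_
      apply mul_le_mul_of_nonneg_left (step3 T)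
      have := lam_anti T (T + 1) (Nat.le_succ T)
      linarith
    refine le_trans (le_of_eq ?_) h1
    simp only [mul_sub, mul_add, Finset.sum_sub_distrib, Finset.sum_add_distrib, Finset.mul_sum]
    rw [Finset.sum_comm, ← Finset.sum_mul, Finset.sum_range_sub', violate_abel, lam_zero b le_rfl]
    have h2 : ∀ q ∈ Q, ∑ T ∈ range b, (lam T - lam (T + 1)) * min ((T + 1 : ℕ) : ℝ) (blk q) =
        ∑ t ∈ range (blk q), lam t := by
      intro q hq
      rw [violate_abel, lam_zero b le_rfl, min_eq_right (hQb q hq)]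
      simp
    rw [Finset.sum_congr rfl h2, violate_swap hQb, P.phi_eq Q b hQb, min_self]
    rw [← Finset.sum_add_distrib, zero_mul, sub_zero, sub_zero, ← Finset.sum_add_distrib]
    congr 1
    refine Finset.sum_congr rfl fun t _ => ?_
    simp only [hlam, psi]
    rw [add_comm (zz Q t : ℝ) 1]
    ring
  have h5 : lam 0 * NN T0 w ≤ lam 0 * ((K + 1) * (T0 + h0 b)) :=
    mul_le_mul_of_nonneg_left step2 lam0_nonneg
  have h6 : lam 0 * ((K + 1) * (2 * h0 b + T0)) ≤
      log (1 + (K : ℝ)) * ((K + 1) * (2 * h0 b + T0)) :=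
    mul_le_mul_of_nonneg_right lam0_le (by positivity)
  nlinarith

/-- the mean value of the weight -/
lemma violate_upper (F : Facts) (P : Prof) {b K T0 : ℕ} {Q : Finset ℕ}
    (hQb : ∀ q ∈ Q, blk q ≤ b) (hK : Q.card ≤ K)
    (hT : ((2 * (K + 1) ^ 2 : ℕ) : ℝ) < exp (exp ((T0 : ℝ) - 10))) {y : ℝ} (hy : 0 ≤ y) :
    ∑ n ∈ Icc 1 ⌊y⌋₊, cm (fun l => exp (violateU b T0 (zz Q) l)) n ≤
      y * exp (∑ t ∈ range b, (zz Q t : ℝ) + 1) := by
  have hmem : ∀ l ∈ violateP b T0, l.Prime ∧ 2 * (K + 1) ^ 2 < l := by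
    intro l hl
    unfold violateP blkLe at hl
    simp only [Finset.mem_filter] at hl
    refine ⟨hl.1.2.1, ?_⟩
    have := F.ge_blk l T0 hl.1.2.1.two_le hl.2
    exact_mod_cast hT.trans_le this
  have hval : ∀ l ∈ violateP b T0, exp (violateU b T0 (zz Q) l) = 1 + (zz Q (blk l) : ℝ) := by
    intro l hl
    unfold violateU
    rw [if_pos hl, Real.exp_log (by positivity)]
  have hzK : ∀ t, (zz Q t : ℝ) ≤ K := fun t => by
    exact_mod_cast (violate_zz_le Q t).trans hK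
  have h1 := F.count_cm (fun l => exp (violateU b T0 (zz Q) l)) (violateP b T0) y hy
    (by
      intro l hl
      obtain ⟨h1, h2⟩ := hmem l hl
      refine ⟨h1, Real.one_le_exp (violate_U_nonneg _ _ _ _), ?_⟩
      rw [hval l hl]
      have h3 : ((2 * (K + 1) ^ 2 : ℕ) : ℝ) < l := by exact_mod_cast h2
      push_cast at h3
      have h4 := hzK (blk l)
      have h5 : (0 : ℝ) ≤ K := Nat.cast_nonneg K
      nlinarith)
    (by
      intro l hl
      unfold violateU
      rw [if_neg hl, Real.exp_zero])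
  refine h1.trans (mul_le_mul_of_nonneg_left (Real.exp_le_exp.mpr ?_) hy)
  rw [Finset.sum_add_distrib]
  apply add_le_add
  · have h2 : ∀ l ∈ violateP b T0, (exp (violateU b T0 (zz Q) l) - 1) / (l : ℝ) =
        ∑ q ∈ Q, if blk l < blk q then (1 : ℝ) / l else 0 := by
      intro l hl
      rw [hval l hl, ← Finset.sum_filter, Finset.sum_const, nsmul_eq_mul]
      unfold zz
      ring
    rw [Finset.sum_congr rfl h2, Finset.sum_comm, P.sum_zz Q b hQb]
    refine Finset.sum_le_sum fun q _ => ?_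
    rw [← Finset.sum_filter]
    apply F.sum_lt_le
    intro l hl
    rw [Finset.mem_filter] at hl
    exact ⟨(hmem l hl.1).1, hl.2⟩
  · have h2 : ∀ l ∈ violateP b T0, 2 * (exp (violateU b T0 (zz Q) l) / (l : ℝ)) ^ 2 ≤
        2 * ((K : ℝ) + 1) ^ 2 * (1 / (l : ℝ)) ^ 2 := by
      intro l hl
      rw [hval l hl, div_eq_mul_one_div, mul_pow, mul_assoc, add_comm (1 : ℝ)]
      have h4 := hzK (blk l)
      gcongr
    refine (Finset.sum_le_sum h2).trans ?_
    rw [← Finset.mul_sum]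
    have h3 := F.sum_sq (violateP b T0) (2 * (K + 1) ^ 2) (by nlinarith [Nat.zero_le K])
      (fun l hl => (hmem l hl).2)
    push_cast at h3
    have h4 : (0 : ℝ) < 2 * ((K : ℝ) + 1) ^ 2 := by positivity
    calc 2 * ((K : ℝ) + 1) ^ 2 * ∑ l ∈ violateP b T0, (1 / (l : ℝ)) ^ 2
        ≤ 2 * ((K : ℝ) + 1) ^ 2 * (1 / (2 * ((K : ℝ) + 1) ^ 2)) :=
          mul_le_mul_of_nonneg_left h3 h4.le
      _ = 1 := by field_simp

lemma violate_num : ∀ᶠ b : ℕ in atTop, 2 ≤ b ∧ 1 ≤ log (b : ℝ) ∧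
    1000 * log (b : ℝ) ^ 2 ≤ (b : ℝ) ^ (1 / 12 : ℝ) := by
  have h1 : ∀ᶠ x : ℝ in atTop, 1000 * log x ^ 2 ≤ x ^ (1 / 12 : ℝ) := by
    have h := isLittleO_log_rpow_rpow_atTop (2 : ℝ) (s := 1 / 12) (by norm_num)
    have h2 := h.bound (c := 1 / 1000) (by norm_num)
    filter_upwards [h2, eventually_ge_atTop (1 : ℝ)] with x hx hx1
    rw [Real.norm_of_nonneg (Real.rpow_nonneg (Real.log_nonneg hx1) _),
      Real.norm_of_nonneg (by positivity), Real.rpow_two] at hx
    linarith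
  have h2 : ∀ᶠ x : ℝ in atTop, 1 ≤ log x := Real.tendsto_log_atTop.eventually_ge_atTop 1
  filter_upwards [eventually_ge_atTop 2, tendsto_natCast_atTop_atTop.eventually h1,
    tendsto_natCast_atTop_atTop.eventually h2] with b hb hb1 hb2
  exact ⟨hb, hb2, hb1⟩

lemma violate_num2 {b : ℕ} (hb : 2 ≤ b) (hL : 1 ≤ log (b : ℝ))
    (h : 1000 * log (b : ℝ) ^ 2 ≤ (b : ℝ) ^ (1 / 12 : ℝ)) {K T0 : ℕ} (hK : (K : ℝ) ≤ 10 * log b)
    (hT1 : √(b : ℝ) ≤ T0) (hT2 : (T0 : ℝ) ≤ √(b : ℝ) + 1) :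
    ((2 * (K + 1) ^ 2 : ℕ) : ℝ) < exp (exp ((T0 : ℝ) - 10)) ∧
      K * log ((b : ℝ) + 1) + log (1 + (K : ℝ)) * (K + 1) * (2 * h0 b + T0) + 1 +
        (b : ℝ) ^ (1 / 4 : ℝ) ≤ hh b := by
  have hb1 : (1 : ℝ) ≤ b := by exact_mod_cast (by omega : 1 ≤ b)
  have hb2 : (2 : ℝ) ≤ b := by exact_mod_cast hb
  have hK0 : (0 : ℝ) ≤ K := Nat.cast_nonneg K
  set L := log (b : ℝ) with hLdef
  have hK1 : (K : ℝ) + 1 ≤ 11 * L := by linarith
  have hK2 : ((K : ℝ) + 1) ^ 2 ≤ 121 * L ^ 2 := by nlinarith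
  have hL2 : 1 ≤ L ^ 2 := by nlinarith
  have hs : √(b : ℝ) = (b : ℝ) ^ (1 / 2 : ℝ) := Real.sqrt_eq_rpow _
  constructor
  · push_cast
    have h1 : (b : ℝ) ^ (1 / 12 : ℝ) ≤ (b : ℝ) ^ (1 / 2 : ℝ) :=
      Real.rpow_le_rpow_of_exponent_le hb1 (by norm_num)
    have h2 := Real.add_one_le_exp ((T0 : ℝ) - 10)
    have h3 := Real.add_one_le_exp (exp ((T0 : ℝ) - 10))
    linarith
  · have hX1 : 1 ≤ h0 b := Real.one_le_rpow hb1 (by norm_num)
    have hX2 : (b : ℝ) ^ (1 / 2 : ℝ) ≤ h0 b :=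
      Real.rpow_le_rpow_of_exponent_le hb1 (by norm_num)
    have hX3 : (b : ℝ) ^ (1 / 4 : ℝ) ≤ h0 b :=
      Real.rpow_le_rpow_of_exponent_le hb1 (by norm_num)
    have hX4 : hh b = (b : ℝ) ^ (1 / 12 : ℝ) * h0 b := by
      unfold hh h0
      rw [← Real.rpow_add (by linarith)]
      norm_num
    have hlog : log ((b : ℝ) + 1) ≤ 2 * L := by
      have : (b : ℝ) + 1 ≤ (b : ℝ) ^ 2 := by nlinarith
      have h2 := Real.log_le_log (by linarith) this
      rw [Real.log_pow] at h2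
      push_cast at h2
      exact h2
    have hlogK : log (1 + (K : ℝ)) ≤ K + 1 := by
      have := Real.log_le_sub_one_of_pos (x := 1 + (K : ℝ)) (by linarith)
      linarith
    set X := h0 b with hX
    have e1 : (K : ℝ) * log ((b : ℝ) + 1) ≤ 20 * L ^ 2 := by
      calc (K : ℝ) * log ((b : ℝ) + 1) ≤ (10 * L) * (2 * L) :=
            mul_le_mul hK hlog (Real.log_nonneg (by linarith)) (by linarith)
        _ = 20 * L ^ 2 := by ring
    have e2 : log (1 + (K : ℝ)) * (K + 1) * (2 * X + T0) ≤ (121 * L ^ 2) * (4 * X) := by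
      apply mul_le_mul _ (by linarith) (by positivity) (by positivity)
      calc log (1 + (K : ℝ)) * (K + 1) ≤ (K + 1) * (K + 1) :=
            mul_le_mul_of_nonneg_right hlogK (by linarith)
        _ ≤ 121 * L ^ 2 := by nlinarith
    have e3 : 1000 * L ^ 2 * X ≤ (b : ℝ) ^ (1 / 12 : ℝ) * X :=
      mul_le_mul_of_nonneg_right h (by linarith)
    have e4 : L ^ 2 ≤ L ^ 2 * X := le_mul_of_one_le_right (by linarith) hX1
    have e5 : X ≤ L ^ 2 * X := le_mul_of_one_le_left (by linarith) hL2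
    rw [hX4]
    nlinarith

theorem violate (F : Facts) (P : Prof) : ViolateStmt := by
  classical
  obtain ⟨B₁, hB₁⟩ := P.growth
  obtain ⟨B₂, hB₂⟩ := eventually_atTop.mp violate_num
  refine ⟨max B₁ B₂, fun B hB b hb y hy => ?_⟩
  obtain ⟨hb2, hL, hnum⟩ := hB₂ b (le_trans (le_trans (le_max_right _ _) hB) hb)
  have hb1 : (1 : ℝ) ≤ b := by exact_mod_cast (by omega : 1 ≤ b)
  set K := ⌊10 * log (b : ℝ)⌋₊ with hKdef
  set T0 := ⌈√(b : ℝ)⌉₊ with hT0def
  have hK : (K : ℝ) ≤ 10 * log b := Nat.floor_le (by linarith)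
  obtain ⟨hT, herr⟩ := violate_num2 hb2 hL hnum hK (T0 := T0) (Nat.le_ceil _)
    (Nat.ceil_lt_add_one (Real.sqrt_nonneg _)).le
  obtain ⟨Z, hZc, hZ⟩ := P.profiles K b
  set err := log (1 + (K : ℝ)) * (K + 1) * (2 * h0 b + T0) with herrdef
  set S : (ℕ → ℕ) → Finset ℕ := fun z => (Icc 1 ⌊y⌋₊).filter fun w : ℕ =>
    ∃ (p : ℕ) (Q : Finset ℕ) (μ : ℕ), Normal p ∧ blk p = b ∧ (∀ q ∈ Q, Normal q) ∧
      (∀ q ∈ Q, q < p) ∧ 1 ≤ μ ∧ (b : ℝ) + hh b < Phi Q ∧ w = μ * (p - 1) * val Q ∧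
      Q.card ≤ K ∧ zz Q = z with hS
  have hone : ∀ z, ((S z).card : ℝ) ≤ y * exp (-(b : ℝ) - hh b + err + 1) := by
    intro z
    rcases (S z).eq_empty_or_nonempty with h | ⟨w₀, hw₀⟩
    · rw [h]
      simp only [Finset.card_empty, Nat.cast_zero]
      positivity
    obtain ⟨-, p₀, Q₀, μ₀, -, hp₀b, -, hlt₀, -, -, -, hK₀, rfl⟩ := Finset.mem_filter.mp hw₀
    have hQb₀ : ∀ q ∈ Q₀, blk q ≤ b := fun q hq => hp₀b ▸ blk_mono (hlt₀ q hq).le
    have hup := violate_upper F P hQb₀ hK₀ hT hy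
    set Sz := ∑ t ∈ range b, (zz Q₀ t : ℝ) with hSz
    have hlow : ∀ w ∈ S (zz Q₀), exp ((b : ℝ) + hh b + Sz - err) ≤
        cm (fun l => exp (violateU b T0 (zz Q₀) l)) w := by
      intro w hw
      obtain ⟨-, p, Q, μ, hp, hpb, hQ, hlt, hμ, hphi, rfl, hK1, hz⟩ := Finset.mem_filter.mp hw
      have := violate_lower F P (T0 := T0) hp hpb hQ hlt hμ hK1
      rw [hz] at this
      refine le_trans (Real.exp_le_exp.mpr ?_) this
      linarith
    have h1 : ((S (zz Q₀)).card : ℝ) * exp ((b : ℝ) + hh b + Sz - err) ≤ y * exp (Sz + 1) := by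
      refine le_trans ?_ hup
      rw [← nsmul_eq_mul, ← Finset.sum_const]
      refine (Finset.sum_le_sum hlow).trans ?_
      apply Finset.sum_le_sum_of_subset_of_nonneg (Finset.filter_subset _ _)
      intro n _ _
      exact le_trans zero_le_one (violate_one_le_cm _ (violate_U_nonneg _ _ _) _)
    rw [← le_div_iff₀ (Real.exp_pos _), mul_div_assoc, ← Real.exp_sub] at h1
    refine h1.trans (le_of_eq ?_)
    congr 2
    ring
  have hsub : ((Icc 1 ⌊y⌋₊).filter fun w : ℕ => ∃ (p : ℕ) (Q : Finset ℕ) (μ : ℕ), Normal p ∧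
      blk p = b ∧ Good B Q ∧ (∀ q ∈ Q, q < p) ∧ 1 ≤ μ ∧ (b : ℝ) + hh b < Phi Q ∧
        w = μ * (p - 1) * val Q) ⊆ Z.biUnion S := by
    intro w hw
    obtain ⟨hw1, p, Q, μ, hp, hpb, hQ, hlt, hμ, hphi, hw2⟩ := Finset.mem_filter.mp hw
    have hQb : ∀ q ∈ Q, blk q ≤ b := fun q hq => hpb ▸ blk_mono (hlt q hq).le
    have hc := (hB₁ B (le_trans (le_max_left _ _) hB) Q b hb1 hQ
      (fun q hq => by exact_mod_cast hQb q hq)).1
    have hc2 : Q.card ≤ K := Nat.le_floor hc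
    rw [Finset.mem_biUnion]
    exact ⟨zz Q, hZ Q hc2 hQb, Finset.mem_filter.mpr
      ⟨hw1, p, Q, μ, hp, hpb, hQ.normal, hlt, hμ, hphi, hw2, hc2, rfl⟩⟩
  have h1 := (Finset.card_le_card hsub).trans Finset.card_biUnion_le
  have h2 : ((∑ z ∈ Z, (S z).card : ℕ) : ℝ) ≤ Z.card * (y * exp (-(b : ℝ) - hh b + err + 1)) := by
    push_cast
    rw [← nsmul_eq_mul, ← Finset.sum_const]
    exact Finset.sum_le_sum fun z _ => hone z
  have h3 : (Z.card : ℝ) ≤ exp (K * log ((b : ℝ) + 1)) := by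
    rw [Real.exp_nat_mul, Real.exp_log (by linarith)]
    exact_mod_cast hZc
  refine le_trans (by exact_mod_cast h1) (h2.trans ?_)
  calc (Z.card : ℝ) * (y * exp (-(b : ℝ) - hh b + err + 1))
      ≤ exp (K * log ((b : ℝ) + 1)) * (y * exp (-(b : ℝ) - hh b + err + 1)) :=
        mul_le_mul_of_nonneg_right h3 (by positivity)
    _ = y * exp (K * log ((b : ℝ) + 1) + (-(b : ℝ) - hh b + err + 1)) := by
        rw [Real.exp_add (K * log ((b : ℝ) + 1))]
        ring
    _ ≤ y * exp (-(b : ℝ) + -((b : ℝ) ^ (1 / 4 : ℝ))) := by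
        apply mul_le_mul_of_nonneg_left (Real.exp_le_exp.mpr _) hy
        linarith
    _ = y * exp (-(b : ℝ)) * eps b := by
        unfold eps
        rw [Real.exp_add]
        ring

end Vale.Agent.P031
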