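import Vale.Agent.P031.Facts
import Vale.Agent.P031.Free
import Vale.Agent.P031.Prof
import Vale.Agent.P031.Sieve
import Vale.Agent.P031.Normal
import Vale.Agent.P031.Violate
import Vale.Agent.P031.Core
import Vale.Agent.P031.Collide
import Vale.Agent.P031.Bad
import Vale.Agent.P031.Lattice
import Vale.Agent.P031.Upper
import Vale.Agent.P031.Lower
import Vale.Agent.P031.Clean
import Vale.Agent.P031.PNT
import Vale.Agent.P031.Final

namespace Vale.Agent.P031

theorem goal : GoalStmt :=
  have S := sieve facts
  have N := normal facts S
  have Co := collide facts prof (core facts S) (free facts)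
  have Sz := size facts prof
  final facts prof (bad facts prof N (violate facts prof)) (lattice prof) (upper facts prof) Sz
    (lower facts prof N Co) (clean facts prof N Co Sz) pnt

end Vale.Agent.P031
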